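import Vale.Agent.P092.H103.IndFix
import Vale.Agent.P092.H34.Ind

/-!
P092 (helper421), team C: a decomposable operator on `L²(E/Λ; ℋ)` which commutes with the induced
representation is a constant field of operators.
-/

set_option linter.all false

open scoped InnerProductSpace ENNReal
open Set Filter Topology ContinuousLinearMap MeasureTheory

namespace Vale.Agent.P092.H421.Hs

open Vale.Agent.P092.H790 Vale.Agent.P092.H85 Vale.Agent.P092.H103 Vale.Agent.P092.H34
  Vale.Agent.P092.H34.Ind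

section main

variable {E : Type} [Group E] [TopologicalSpace E] [IsTopologicalGroup E] [LocallyCompactSpace E]
  [SecondCountableTopology E] [T2Space E] [MeasurableSpace E] [BorelSpace E]
  {Λ : Subgroup E} [DiscreteTopology Λ] [Countable Λ] [MeasurableSpace (E ⧸ Λ)] [BorelSpace (E ⧸ Λ)]
  {ν : Measure (E ⧸ Λ)} [IsProbabilityMeasure ν] (hν : ∀ g : E, ν.map (fun x => g • x) = ν)
  {ℋ : Type} [NormedAddCommGroup ℋ] [InnerProductSpace ℂ ℋ] [CompleteSpace ℋ]
  {V : Λ →* (ℋ →L[ℂ] ℋ)}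

include hν in
/-- Measurable functions on `E / Λ` which are invariant, for each `g`, almost everywhere, are almost
everywhere constant (after helper103, `CA1.lean`). -/
theorem ae_const' {Y : Type*} [MetricSpace Y] {f : E ⧸ Λ → Y} (hfm : StronglyMeasurable f)
    (hall : ∀ g : E, ∀ᵐ x ∂ν, f (g • x) = f x) : ∃ c, ∀ᵐ x ∂ν, f x = c := by
  haveI hcl : IsClosed (Λ : Set E) := Subgroup.isClosed_of_discrete
  have hsm : Measurable fun p : E × (E ⧸ Λ) => p.1 • p.2 := continuous_smul.measurable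
  have hNm : MeasurableSet {p : E × (E ⧸ Λ) | f (p.1 • p.2) = f p.2} :=
    StronglyMeasurable.measurableSet_eq_fun (hfm.comp_measurable hsm)
      (hfm.comp_measurable measurable_snd)
  set m : Measure E := Measure.haar with hm
  have h2 : ∀ᵐ x ∂ν, ∀ᵐ g ∂m, f (g • x) = f x :=
    (Measure.ae_ae_comm (μ := m) (ν := ν) hNm).1 (Eventually.of_forall hall)
  obtain ⟨x₀, hx₀⟩ := h2.exists
  refine ⟨f x₀, ?_⟩
  have hZm : MeasurableSet {p : E × (E ⧸ Λ) | f (p.1 • p.2) = f x₀} :=
    StronglyMeasurable.measurableSet_eq_fun (hfm.comp_measurable hsm) stronglyMeasurable_const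
  have h3 : ∀ x : E ⧸ Λ, ∀ᵐ g ∂m, f (g • x) = f x₀ := by
    intro x
    obtain ⟨a, ha⟩ : ∃ a : E, a • x₀ = x := MulAction.exists_smul_eq E x₀ x
    rw [ae_iff] at hx₀ ⊢
    have h4 := (measure_mul_right_null m a (s := {g | ¬ f (g • x₀) = f x₀})).2 hx₀
    have e : {g : E | ¬ f (g • x) = f x₀} = (fun g => g * a) ⁻¹' {g | ¬ f (g • x₀) = f x₀} := by
      ext g
      simp only [mem_setOf_eq, mem_preimage]
      rw [mul_smul, ha]
    rw [e]
    exact h4
  have h4 : ∀ᵐ g ∂m, ∀ᵐ x ∂ν, f (g • x) = f x₀ :=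
    (Measure.ae_ae_comm (μ := m) (ν := ν) (p := fun g x => f (g • x) = f x₀) hZm).2
      (Eventually.of_forall h3)
  haveI : NeZero m := ⟨by
    rw [hm]
    exact NeZero.ne _⟩
  obtain ⟨g, hg⟩ := h4.exists
  have h5 := ae_comp (mpres hν g⁻¹) hg
  filter_upwards [h5] with x hx
  rwa [smul_inv_smul] at hx

theorem V_inv_apply (v : Λ) (u : ℋ) : V v⁻¹ (V v u) = u := by
  have : (V v⁻¹ * V v) u = u := by
    rw [← map_mul, inv_mul_cancel, map_one]; rfl
  exact this

theorem V_inj (v : Λ) {u w : ℋ} (h : V v u = V v w) : u = w := by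
  rw [← V_inv_apply (V := V) v u, h, V_inv_apply]

include hν in
/-- **A covariant field of operators over `E / Λ` is constant.** -/
theorem fld_const {I : Type} [Countable I] (b : HilbertBasis I ℂ ℋ) {A : E ⧸ Λ → ℋ →L[ℂ] ℋ}
    (hm : ∀ y, AEStronglyMeasurable (fun x => A x y) ν)
    (heq : ∀ g : E, ∀ᵐ x ∂ν, A (g • x) * V (coc Λ g x) = V (coc Λ g x) * A x) :
    ∃ a : ℋ →L[ℂ] ℋ, (∀ᵐ x ∂ν, A x = a) ∧ ∀ v, a * V v = V v * a := by
  haveI hcl : IsClosed (Λ : Set E) := Subgroup.isClosed_of_discrete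
  have hsm : Measurable fun p : E × (E ⧸ Λ) => p.1 • p.2 := continuous_smul.measurable
  set y : Λ → I → ℋ := fun v i => V v (b i) with hy
  have hyV : ∀ u v i, V u (y v i) = y (u * v) i := by
    intro u v i
    simp only [hy]
    rw [map_mul]
    rfl
  obtain ⟨W, hWdef⟩ : ∃ W : Λ → I → E ⧸ Λ → ℋ, W = fun v i => (hm (y v i)).mk _ := ⟨_, rfl⟩
  have hWm : ∀ v i, StronglyMeasurable (W v i) := by
    intro v i
    rw [hWdef]
    exact (hm (y v i)).stronglyMeasurable_mk
  have hW : ∀ᵐ x ∂ν, ∀ v i, A x (y v i) = W v i x := by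
    rw [ae_all_iff]
    intro v
    rw [ae_all_iff]
    intro i
    rw [hWdef]
    exact (hm (y v i)).ae_eq_mk
  -- covariance of the columns
  have h1 : ∀ g : E, ∀ᵐ x ∂ν, ∀ v i, W (coc Λ g x * v) i (g • x) = V (coc Λ g x) (W v i x) := by
    intro g
    have h1' := ae_comp (mpres hν g) hW
    filter_upwards [h1', hW, heq g] with x a1 a2 a3 v i
    rw [← a1, ← a2, ← hyV]
    exact congrArg (fun S : ℋ →L[ℂ] ℋ => S (y v i)) a3
  set m : Measure E := Measure.haar with hmdef
  have h2 : ∀ᵐ x ∂ν, ∀ᵐ g ∂m, ∀ v i, W (coc Λ g x * v) i (g • x) = V (coc Λ g x) (W v i x) := by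
    have key : ∀ v i, ∀ᵐ x ∂ν, ∀ᵐ g ∂m,
        W (coc Λ g x * v) i (g • x) = V (coc Λ g x) (W v i x) := by
      intro v i
      have s1 : ∀ u : Λ, StronglyMeasurable fun p : E × (E ⧸ Λ) => W (u * v) i (p.1 • p.2) :=
        fun u => (hWm _ _).comp_measurable hsm
      have s2 : ∀ u : Λ, StronglyMeasurable fun p : E × (E ⧸ Λ) => V u (W v i p.2) :=
        fun u => (V u).continuous.comp_stronglyMeasurable ((hWm _ _).comp_measurable measurable_snd)
      have s3 : StronglyMeasurable fun p : E × (E ⧸ Λ) =>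
          W (coc Λ p.1 p.2 * v) i (p.1 • p.2) := by
        borelize ℋ
        exact sm_glue (c := fun p : E × (E ⧸ Λ) => coc Λ p.1 p.2)
          (F := fun u p => W (u * v) i (p.1 • p.2)) (fun u => coc_meas2 u) s1
      have s4 : StronglyMeasurable fun p : E × (E ⧸ Λ) => V (coc Λ p.1 p.2) (W v i p.2) := by
        borelize ℋ
        exact sm_glue (c := fun p : E × (E ⧸ Λ) => coc Λ p.1 p.2)
          (F := fun u p => V u (W v i p.2)) (fun u => coc_meas2 u) s2
      have s5 := StronglyMeasurable.measurableSet_eq_fun s3 s4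
      refine (Measure.ae_ae_comm (μ := m) (ν := ν) s5).1 (Eventually.of_forall fun g => ?_)
      filter_upwards [h1 g] with x hx
      exact hx v i
    have h3 : ∀ᵐ x ∂ν, ∀ v i, ∀ᵐ g ∂m,
        W (coc Λ g x * v) i (g • x) = V (coc Λ g x) (W v i x) := by
      rw [ae_all_iff]
      intro v
      rw [ae_all_iff]
      exact fun i => key v i
    filter_upwards [h3] with x hx
    rw [ae_all_iff]
    intro v
    rw [ae_all_iff]
    exact fun i => hx v i
  -- equivariance in the fibres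
  have h3 : ∀ᵐ x ∂ν, ∀ γ v i, W (γ * v) i x = V γ (W v i x) := by
    filter_upwards [h2] with x hx γ v i
    set σ : E := sec Λ x with hσ
    set k : E := σ * (γ : E) * σ⁻¹ with hk
    have hkx : k • x = x := by
      have e1 : ((σ : E) : E ⧸ Λ) = x := sec_coe Λ x
      rw [← e1]
      change ((k * σ : E) : E ⧸ Λ) = _
      rw [hk, inv_mul_cancel_right]
      rw [QuotientGroup.eq]
      have : (σ * (γ : E))⁻¹ * σ = ((γ⁻¹ : Λ) : E) := by
        rw [Subgroup.coe_inv]; group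
      rw [this]
      exact (γ⁻¹).2
    have hck : coc Λ k x = γ := by
      apply Subtype.ext
      rw [coc_coe, hkx, ← hσ, hk]
      group
    have hx' : ∀ᵐ g ∂m, ∀ v i,
        W (coc Λ (g * k) x * v) i ((g * k) • x) = V (coc Λ (g * k) x) (W v i x) := by
      rw [ae_iff] at hx ⊢
      have := (measure_mul_right_null m k (s := {g | ¬ ∀ v i,
        W (coc Λ g x * v) i (g • x) = V (coc Λ g x) (W v i x)})).2 hx
      exact this
    haveI : NeZero m := ⟨by
      rw [hmdef]
      exact NeZero.ne _⟩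
    obtain ⟨g, hg1, hg2⟩ := (hx.and hx').exists
    have a1 := hg1 (γ * v) i
    have a2 := hg2 v i
    rw [mul_smul, hkx, coc_mul, hkx, hck, mul_assoc, a1, map_mul] at a2
    exact V_inj (V := V) _ a2
  -- the columns are constant
  have h4 : ∀ v i, ∃ c, ∀ᵐ x ∂ν, W v i x = c := by
    intro v i
    refine ae_const' hν (hWm v i) fun g => ?_
    filter_upwards [h1 g, ae_comp (mpres hν g) h3] with x a1 a2
    have a3 := a1 v i
    rw [a2] at a3
    exact V_inj (V := V) _ a3
  choose c hc using h4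
  have h5 : ∀ᵐ x ∂ν, ∀ v i, W v i x = c v i := by
    rw [ae_all_iff]
    intro v
    rw [ae_all_iff]
    exact fun i => hc v i
  have hy1 : ∀ i, y 1 i = b i := by
    intro i
    simp only [hy]
    rw [map_one]
    rfl
  obtain ⟨x₀, b1, b2, b3⟩ := (hW.and (h3.and h5)).exists
  refine ⟨A x₀, ?_, ?_⟩
  · filter_upwards [hW, h5] with x a1 a2
    refine ext_basis b fun i => ?_
    rw [← hy1, a1, a2, b1, b3]
  · intro v
    refine ext_basis b fun i => ?_
    change A x₀ (V v (b i)) = V v (A x₀ (b i))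
    have e1 : V v (b i) = y v i := rfl
    rw [e1, b1, ← hy1, b1]
    have := b2 v 1 i
    rw [mul_one] at this
    exact this

end main

section cov

variable {D Λ : Type} [Group D] [Group Λ] [Countable Λ] (d : CData D Λ) {ℋ : Type}
  [NormedAddCommGroup ℋ] [InnerProductSpace ℂ ℋ] [CompleteSpace ℋ] {V : Λ →* (ℋ →L[ℂ] ℋ)}

/-- The field of a decomposable operator which commutes with the induced representation is
covariant. -/
theorem fld_cov {I : Type} [Countable I] (b : HilbertBasis I ℂ ℋ)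
    (hV : ∀ v, adjoint (V v) = V v⁻¹) {T : Lp ℋ 2 d.μ →L[ℂ] Lp ℋ 2 d.μ} {A : d.X → ℋ →L[ℂ] ℋ}
    (h3 : Fld T A) {g : D} (hc : T * pi d hV g = pi d hV g * T) :
    ∀ᵐ x ∂d.μ, A (d.act g x) * V (d.c g x) = V (d.c g x) * A x := by
  have e1 : pi d hV g * T * pi d hV g⁻¹ = T := by
    rw [← hc, mul_assoc, pi_mul_inv, mul_one]
  have h4 := fld_conj hV h3 g
  rw [e1] at h4
  have h5 : ∀ᵐ x ∂d.μ, A x = V (d.c g (d.act g⁻¹ x)) *
      A (d.act g⁻¹ x) * V (d.c g (d.act g⁻¹ x))⁻¹ := by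
    have h6 : ∀ᵐ x ∂d.μ, ∀ i, A x (b i) =
        (V (d.c g (d.act g⁻¹ x)) *
        A (d.act g⁻¹ x) * V (d.c g (d.act g⁻¹ x))⁻¹) (b i) := by
      rw [ae_all_iff]
      intro i
      filter_upwards [h3 (Lp.const 2 d.μ (b i)), h4 (Lp.const 2 d.μ (b i)),
        Lp.coeFn_const (p := 2) (μ := d.μ) (b i)] with x a1 a2 a3
      rw [a3] at a1 a2
      exact a1.symm.trans a2
    filter_upwards [h6] with x hx
    exact ext_basis b hx
  have h7 := ae_comp (d.mp g) h5
  filter_upwards [h7] with x hx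
  have e3 : d.act g⁻¹ (d.act g x) = x := by
    rw [← d.act_mul, inv_mul_cancel, d.act_one]
  have e2 : V (d.c g x)⁻¹ * V (d.c g x) = 1 := by
    rw [← map_mul, inv_mul_cancel, map_one]
  rw [e3] at hx
  rw [hx, mul_assoc, e2, mul_one]

end cov

section main

variable {E : Type} [Group E] [TopologicalSpace E] [IsTopologicalGroup E] [LocallyCompactSpace E]
  [SecondCountableTopology E] [T2Space E] [MeasurableSpace E] [BorelSpace E]
  {Λ : Subgroup E} [DiscreteTopology Λ] [Countable Λ] [MeasurableSpace (E ⧸ Λ)] [BorelSpace (E ⧸ Λ)]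
  {ν : Measure (E ⧸ Λ)} [IsProbabilityMeasure ν] (hν : ∀ g : E, ν.map (fun x => g • x) = ν)
  {ℋ : Type} [NormedAddCommGroup ℋ] [InnerProductSpace ℂ ℋ] [CompleteSpace ℋ]
  {V : Λ →* (ℋ →L[ℂ] ℋ)}

/-- **A decomposable operator which commutes with the induced representation is constant.** -/
theorem const_of_comm {I : Type} [Countable I] (b : HilbertBasis I ℂ ℋ)
    (hV : ∀ v, adjoint (V v) = V v⁻¹)
    {T : Lp ℋ 2 (cdat ν hν).μ →L[ℂ] Lp ℋ 2 (cdat ν hν).μ} (hT : Dcm T)
    (hc : ∀ g : E, T * pi (cdat ν hν) hV g = pi (cdat ν hν) hV g * T) :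
    ∃ a : ℋ →L[ℂ] ℋ, T = a.compLpL 2 (cdat ν hν).μ ∧ ∀ v, a * V v = V v * a := by
  obtain ⟨A, h1, h2, h3⟩ := hT.exists_fld b
  have heq := fun g => fld_cov (cdat ν hν) b hV h3 (hc g)
  obtain ⟨a, h4, h5⟩ := fld_const (A := A) hν b h2 heq
  exact ⟨a, h3.ext (fld_comp a) h4, h5⟩

end main

end Vale.Agent.P092.H421.Hs
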