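import Vale.Agent.P092.H839.Tri

/-!
P092 (helper421), team C, the field `hs_erg` of `RC.Pic`, model half: an operator on `ℓ²(Λ × Λ)`
which commutes with `Δ(α g)` and with the right translations of the second leg, and has a finite
trace in the first leg, is zero (`Λ` infinite).
-/

set_option linter.all false

open scoped InnerProductSpace ENNReal
open Filter Topology ContinuousLinearMap

namespace Vale.Agent.P092.H421.Hs

open Vale.Agent.P092.H160 Vale.Agent.P092.SR Vale.Agent.P092.H839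

section hs

variable {E F ι ι' κ : Type} [NormedAddCommGroup E] [InnerProductSpace ℂ E] [CompleteSpace E]
  [NormedAddCommGroup F] [InnerProductSpace ℂ F] [CompleteSpace F]

theorem enn_sq (v : F) : ‖v‖ₑ ^ 2 = ENNReal.ofReal (‖v‖ ^ 2) := by
  rw [← ofReal_norm_eq_enorm, ENNReal.ofReal_pow (norm_nonneg _)]

theorem enn_parseval (f : HilbertBasis κ ℂ F) (v : F) :
    ∑' j, ‖⟪f j, v⟫_ℂ‖ₑ ^ 2 = ‖v‖ₑ ^ 2 := by
  have h1 : HasSum (fun j => ‖⟪f j, v⟫_ℂ‖ ^ 2) (‖v‖ ^ 2) := by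
    have h2 := Complex.hasSum_re (f.hasSum_inner_mul_inner v v)
    have h4 : (⟪v, v⟫_ℂ).re = ‖v‖ ^ 2 := by
      rw [inner_self_eq_norm_sq_to_K]; norm_cast
    rw [h4] at h2
    have h5 : (fun j => ‖⟪f j, v⟫_ℂ‖ ^ 2) = fun j => (⟪v, f j⟫_ℂ * ⟪f j, v⟫_ℂ).re := by
      funext j
      rw [← inner_conj_symm v, ← Complex.normSq_eq_conj_mul_self, Complex.normSq_eq_norm_sq,
        Complex.ofReal_re]
    rw [h5]
    exact h2
  rw [enn_sq, ← h1.tsum_eq, ENNReal.ofReal_tsum_of_nonneg (fun _ => sq_nonneg _) h1.summable]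
  exact tsum_congr fun j => enn_sq _

theorem hs_change (b : HilbertBasis ι ℂ E) (b' : HilbertBasis ι' ℂ E) (f : HilbertBasis κ ℂ F)
    (S : E →L[ℂ] F) : ∑' i, ‖S (b i)‖ₑ ^ 2 = ∑' i, ‖S (b' i)‖ₑ ^ 2 := by
  have key : ∀ {τ : Type} (c : HilbertBasis τ ℂ E),
      ∑' i, ‖S (c i)‖ₑ ^ 2 = ∑' j, ‖adjoint S (f j)‖ₑ ^ 2 := by
    intro τ c
    have e1 : ∀ i, ‖S (c i)‖ₑ ^ 2 = ∑' j, ‖⟪f j, S (c i)⟫_ℂ‖ₑ ^ 2 := fun i =>
      (enn_parseval f _).symm
    have e2 : ∀ j, ‖adjoint S (f j)‖ₑ ^ 2 = ∑' i, ‖⟪f j, S (c i)⟫_ℂ‖ₑ ^ 2 := by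
      intro j
      rw [← enn_parseval c]
      refine tsum_congr fun i => ?_
      rw [adjoint_inner_right, ← inner_conj_symm, enn_sq, enn_sq]
      congr 2
      exact RCLike.norm_conj _
    simp_rw [e1, e2]
    exact ENNReal.tsum_comm
  rw [key b, key b']

end hs

section model

variable {Γ Λ : Type} [Group Γ] [Group Λ] {α : Γ →* (Ell2 Λ →L[ℂ] Ell2 Λ)}

/-- commuting with `α(Γ)` is commuting with the left translations -/
theorem comm_alpha_iff (hα : Frame α) (y : Ell2 Λ →L[ℂ] Ell2 Λ)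
    (h : ∀ g, y * α g = α g * y) (t : Λ) : y * lam t = lam t * y := by
  refine RegRep.commute (π := rhoH (G := Λ)) (σ := α) regRep_rho hα.reg ?_ h ?_
  · exact fun s g => (hα.comm g s).symm
  · exact fun g => (rho_lam g t).symm

theorem comm_tens1_alpha (hα : Frame α) {T : Ell2 (Λ × Λ) →L[ℂ] Ell2 (Λ × Λ)}
    (h : ∀ g, T * tens 1 (α g) = tens 1 (α g) * T) (t : Λ) :
    T * tens 1 (lam t) = tens 1 (lam t) * T := by
  rw [slice_comm_iff]
  intro u v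
  refine comm_alpha_iff hα _ (fun g => ?_) t
  have := h g
  rw [slice_comm_iff] at this
  exact this u v

theorem comm_tens_alpha (hα : Frame α) {T : Ell2 (Λ × Λ) →L[ℂ] Ell2 (Λ × Λ)}
    (h : ∀ g, T * tens (α g) 1 = tens (α g) 1 * T) (t : Λ) :
    T * tens (lam t) 1 = tens (lam t) 1 * T := by
  have h1 : ∀ g, swp T * tens 1 (α g) = tens 1 (α g) * swp T := by
    intro g
    rw [← swp_tens, ← swp_mul, h, swp_mul]
  have h2 := congrArg swp (comm_tens1_alpha hα h1 t)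
  rw [swp_mul, swp_mul, swp_swp, swp_tens] at h2
  exact h2

/-- the conjugation by `W` -/
noncomputable def cw (T : Ell2 (Λ × Λ) →L[ℂ] Ell2 (Λ × Λ)) : Ell2 (Λ × Λ) →L[ℂ] Ell2 (Λ × Λ) :=
  rei (eW Λ) * (T * rei (eW Λ).symm)

theorem cw_mul (S T : Ell2 (Λ × Λ) →L[ℂ] Ell2 (Λ × Λ)) : cw (S * T) = cw S * cw T := by
  have : cw S * cw T = rei (eW Λ) * (S * ((rei (eW Λ).symm * rei (eW Λ)) *
      (T * rei (eW Λ).symm))) := by
    simp only [cw, mul_assoc]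
  rw [this, rei_eW_symm_mul, one_mul, cw]
  simp only [mul_assoc]

theorem cw_Del (x : Ell2 Λ →L[ℂ] Ell2 Λ) : cw (Del x) = tens x 1 := by
  have : cw (Del x) = (rei (eW Λ) * rei (eW Λ).symm) * (tens x 1 *
      (rei (eW Λ) * rei (eW Λ).symm)) := by
    simp only [cw, Del, mul_assoc]
  rw [this, rei_eW_mul, one_mul, mul_one]

theorem cw_inj {S T : Ell2 (Λ × Λ) →L[ℂ] Ell2 (Λ × Λ)} (h : cw S = cw T) : S = T := by
  have key : ∀ R : Ell2 (Λ × Λ) →L[ℂ] Ell2 (Λ × Λ),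
      rei (eW Λ).symm * (cw R * rei (eW Λ)) = R := by
    intro R
    have : rei (eW Λ).symm * (cw R * rei (eW Λ)) = (rei (eW Λ).symm * rei (eW Λ)) *
        (R * (rei (eW Λ).symm * rei (eW Λ))) := by
      simp only [cw, mul_assoc]
    rw [this, rei_eW_symm_mul, one_mul, mul_one]
  rw [← key S, h, key T]

theorem comm_Del_lam (hα : Frame α) {T : Ell2 (Λ × Λ) →L[ℂ] Ell2 (Λ × Λ)}
    (h : ∀ g, T * VV α g = VV α g * T) (t : Λ) : T * Del (lam t) = Del (lam t) * T := by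
  apply cw_inj
  rw [cw_mul, cw_mul, cw_Del]
  refine comm_tens_alpha hα (fun g => ?_) t
  rw [← cw_Del, ← cw_mul, ← cw_mul]
  exact congrArg cw (h g)

theorem Del_lam_dl (s a b : Λ) : Del (lam s) (dl (a, b)) = (dl (s * a, s * b) : Ell2 (Λ × Λ)) := by
  rw [Del, mul_ap, mul_ap, rei_dl]
  change rei (eW Λ).symm (tens (lam s) 1 (dl (a, a⁻¹ * b))) = _
  rw [tens_dl, lam_dl]
  change rei (eW Λ).symm (tv (dl (s * a)) (dl (a⁻¹ * b))) = _
  rw [← dl_prod, rei_dl]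
  change dl (s * a, s * a * (a⁻¹ * b)) = _
  congr 2
  group

theorem tens_rho_dl (s a b : Λ) :
    tens 1 (rho s) (dl (a, b)) = (dl (a, b * s⁻¹) : Ell2 (Λ × Λ)) := by
  rw [tens_dl, rho_dl, dl_prod]
  rfl

theorem norm_tens_rho (s : Λ) (v : Ell2 (Λ × Λ)) :
    ‖tens (1 : Ell2 Λ →L[ℂ] Ell2 Λ) (rho s) v‖ = ‖v‖ := by
  have h1 : (tens 1 (rho s) : Ell2 (Λ × Λ) →L[ℂ] Ell2 (Λ × Λ)) = rho (1, s) := by
    rw [← tens_rho]
    congr 1
    exact (map_one (rhoH (G := Λ))).symm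
  rw [h1]
  exact norm_rei _ v

theorem norm_Del_lam (s : Λ) (v : Ell2 (Λ × Λ)) : ‖Del (lam s) v‖ = ‖v‖ := by
  have h1 : (Del (lam s) : Ell2 (Λ × Λ) →L[ℂ] Ell2 (Λ × Λ)) = lam (s, s) := by
    apply op_ext
    rintro ⟨a, b⟩
    rw [Del_lam_dl, lam_dl]
    rfl
  rw [h1]
  exact norm_rei _ v

/-- **The model half, first leg.** -/
theorem model_zero [Infinite Λ] (hα : Frame α) {T : Ell2 (Λ × Λ) →L[ℂ] Ell2 (Λ × Λ)}
    (h : ∀ g, T * VV α g = VV α g * T) (h2 : ∀ g, T * RR₂ α g = RR₂ α g * T)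
    (hf : ∑' g, ‖T (RR₁ α g (dl 1))‖ₑ ^ 2 < ∞) : T = 0 := by
  have c1 := comm_Del_lam hα h
  have c2 := (cmm2_iff hα T).1 h2
  have e1 : ∀ s : Λ, ‖T (dl (s, 1))‖ = ‖T (dl (1, 1))‖ := by
    intro s
    have e2 : (dl (s, 1) : Ell2 (Λ × Λ)) = tens 1 (rho s) (Del (lam s) (dl (1, 1))) := by
      rw [Del_lam_dl, tens_rho_dl]
      congr 2
      · rw [mul_one]
      · rw [mul_one, mul_inv_cancel]
    have e3 : T (dl (s, 1)) = tens 1 (rho s) (Del (lam s) (T (dl (1, 1)))) := by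
      rw [e2, ← mul_ap T, c2, mul_ap, ← mul_ap T, c1, mul_ap]
    rw [e3, norm_tens_rho, norm_Del_lam]
  have e4 : ∑' g, ‖T (RR₁ α g (dl 1))‖ₑ ^ 2 = ∑' s : Λ, ‖T (dl (s, 1))‖ₑ ^ 2 := by
    have h5 := hs_change (regRep_Ja hα).basis (regRep_rho (G := Λ)).basis
      (regRep_rho (G := Λ × Λ)).basis (T ∘L tvl (dl (1 : Λ)))
    have e6 : ∀ g, (T ∘L tvl (dl (1 : Λ))) ((regRep_Ja hα).basis g) = T (RR₁ α g (dl 1)) := by
      intro g
      rw [RegRep.basis_apply, comp_apply, tvl_apply, Ja_apply]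
      congr 1
      change _ = tens (JJ (α g)) 1 (dl ((1 : Λ), (1 : Λ)))
      rw [tens_dl]
      rfl
    have e7 : ∀ s : Λ, (T ∘L tvl (dl (1 : Λ))) ((regRep_rho (G := Λ)).basis s) =
        T (dl (s⁻¹, 1)) := by
      intro s
      rw [RegRep.basis_apply, comp_apply, tvl_apply]
      congr 1
      change tv (rho s (dl 1)) (dl 1) = _
      rw [rho_dl, one_mul, ← dl_prod]
    simp_rw [e6, e7] at h5
    rw [h5]
    exact (Equiv.inv Λ).tsum_eq (fun s : Λ => ‖T (dl (s, 1))‖ₑ ^ 2)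
  have e8 : T (dl (1, 1)) = 0 := by
    by_contra hne
    rw [e4] at hf
    have e9 : ∀ s : Λ, ‖T (dl (s, 1))‖ₑ ^ 2 = ‖T (dl (1, 1))‖ₑ ^ 2 := by
      intro s
      rw [enn_sq, enn_sq, e1]
    simp_rw [e9] at hf
    rw [ENNReal.tsum_const_eq_top_of_ne_zero] at hf
    · exact absurd hf (lt_irrefl _)
    · exact pow_ne_zero _ (by rw [ne_eq, enorm_eq_zero]; exact hne)
  apply op_ext
  rintro ⟨a, b⟩
  have e10 : (dl (a, b) : Ell2 (Λ × Λ)) = tens 1 (rho b⁻¹) (dl (a, 1)) := by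
    rw [tens_rho_dl, one_mul, inv_inv]
  rw [e10, ← mul_ap T, c2, mul_ap]
  have e11 : T (dl (a, 1)) = 0 := by
    rw [← norm_eq_zero, e1, e8, norm_zero]
  rw [e11, map_zero]
  rfl

theorem swp_VV (hα : Frame α) (g : Γ) : swp (VV α g) = VV α g := swp_Del (fun t => hα.comm g t)

theorem swp_RR₁ (g : Γ) : swp (RR₁ α g) = RR₂ α g := swp_tens _ _

/-- **The model half, second leg.** -/
theorem model_zero' [Infinite Λ] (hα : Frame α) {T : Ell2 (Λ × Λ) →L[ℂ] Ell2 (Λ × Λ)}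
    (h : ∀ g, T * VV α g = VV α g * T) (h1 : ∀ g, T * RR₁ α g = RR₁ α g * T)
    (hf : ∑' g, ‖T (RR₂ α g (dl 1))‖ₑ ^ 2 < ∞) : T = 0 := by
  have key : swp T = 0 := by
    refine model_zero hα (fun g => ?_) (fun g => ?_) ?_
    · rw [← swp_VV hα g, ← swp_mul, h, swp_mul]
    · rw [← swp_RR₁, ← swp_mul, h1, swp_mul]
    · have e1 : ∀ g, ‖swp T (RR₁ α g (dl 1))‖ₑ ^ 2 = ‖T (RR₂ α g (dl 1))‖ₑ ^ 2 := by
        intro g
        have e2 : sw (dl (1 : Λ × Λ)) = (dl (1 : Λ × Λ) : Ell2 (Λ × Λ)) := by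
          rw [sw, rei_dl]; rfl
        have e3 : sw (RR₁ α g (dl 1)) = RR₂ α g (dl 1) := by
          rw [← swp_RR₁ g, swp, mul_ap, mul_ap, e2]
        rw [swp, mul_ap, mul_ap, e3, enn_sq, enn_sq]
        congr 2
        exact norm_rei _ _
      simp_rw [e1]
      exact hf
  rw [← swp_swp T, key]
  rw [swp, zero_mul, mul_zero]

end model

end Vale.Agent.P092.H421.Hs
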