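import Vale.Agent.P092.H421.Hs1
import Vale.Agent.P092.H421.Hs2
import Vale.Agent.P092.H421.Hs3

/-!
P092 (helper421), team C: the field `hs_erg` of `RC.Pic` for the concrete picture over `E/Γ`, both
legs.
-/

set_option linter.all false

open scoped InnerProductSpace ENNReal
open Set Filter Topology ContinuousLinearMap MeasureTheory

namespace Vale.Agent.P092.H421.Hs

open Vale.Agent.P092.H790 Vale.Agent.P092.H85 Vale.Agent.P092.H34 Vale.Agent.P092.H34.Ind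
  Vale.Agent.P092.H160 Vale.Agent.P092.SR Vale.Agent.P092.RC

section con

variable {X : Type} [MeasurableSpace X] {μ : Measure X} [IsProbabilityMeasure μ] {ℋ : Type}
  [NormedAddCommGroup ℋ] [InnerProductSpace ℂ ℋ] [CompleteSpace ℋ]

theorem comp_const (a : ℋ →L[ℂ] ℋ) (y : ℋ) :
    a.compLpL 2 μ (Lp.const 2 μ y) = Lp.const 2 μ (a y) := by
  refine Lp.ext ?_
  filter_upwards [fld_comp (μ := μ) a (Lp.const 2 μ y), Lp.coeFn_const (p := 2) (μ := μ) y,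
    Lp.coeFn_const (p := 2) (μ := μ) (a y)] with x h1 h2 h3
  rw [h1, h2, h3]
  rfl

theorem norm_cst (y : ℋ) : ‖Lp.const 2 μ y‖ = ‖y‖ := by
  have h := Lp.norm_const' (p := 2) (μ := μ) (c := y) (by norm_num) (by norm_num)
  rw [h]
  simp

theorem cst_inj {y z : ℋ} (h : Lp.const 2 μ y = Lp.const 2 μ z) : y = z := by
  have h1 : Lp.const 2 μ (y - z) = 0 := by
    rw [map_sub, h, sub_self]
  rw [← sub_eq_zero, ← norm_eq_zero, ← norm_cst (μ := μ), h1, norm_zero]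

theorem comm_of_comp {a b : ℋ →L[ℂ] ℋ}
    (h : a.compLpL 2 μ * b.compLpL 2 μ = b.compLpL 2 μ * a.compLpL 2 μ) : a * b = b * a := by
  ext1 y
  refine cst_inj (μ := μ) ?_
  have h1 := congrArg (fun S : Lp ℋ 2 μ →L[ℂ] Lp ℋ 2 μ => S (Lp.const 2 μ y)) h
  change a.compLpL 2 μ (b.compLpL 2 μ (Lp.const 2 μ y)) =
    b.compLpL 2 μ (a.compLpL 2 μ (Lp.const 2 μ y)) at h1
  rw [comp_const, comp_const, comp_const, comp_const] at h1
  exact h1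

end con

section main

variable {E : Type} [Group E] [TopologicalSpace E] [IsTopologicalGroup E] [LocallyCompactSpace E]
  [SecondCountableTopology E] [T2Space E] [MeasurableSpace E] [BorelSpace E]
  {Γ : Subgroup E} [DiscreteTopology Γ] [Countable Γ] [MeasurableSpace (E ⧸ Γ)] [BorelSpace (E ⧸ Γ)]
  {ν : Measure (E ⧸ Γ)} [IsProbabilityMeasure ν] (hν : ∀ g : E, ν.map (fun x => g • x) = ν)
  {Λ : Type} [Group Λ] [Countable Λ] [Infinite Λ] {α : Γ →* (Ell2 Λ →L[ℂ] Ell2 Λ)}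
  (hα : Frame α)

theorem trn_comp (R : Γ →* (Ell2 (Λ × Λ) →L[ℂ] Ell2 (Λ × Λ)))
    (a : Ell2 (Λ × Λ) →L[ℂ] Ell2 (Λ × Λ)) (ω : Ell2 (Λ × Λ)) :
    TRN (Ind.lam (cdat ν hν) R) (Lp.const 2 (cdat ν hν).μ ω) (a.compLpL 2 (cdat ν hν).μ) =
      ∑' γ, ‖a (R γ ω)‖ₑ ^ 2 := by
  rw [TRN]
  refine tsum_congr fun γ => ?_
  have h1 : Ind.lam (cdat ν hν) R γ (Lp.const 2 (cdat ν hν).μ ω) =
      Lp.const 2 (cdat ν hν).μ (R γ ω) := comp_const (R γ) ω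
  rw [h1, comp_const, enn_sq, enn_sq, norm_cst]

/-- Operators of finite trace in the first leg commuting with everything vanish. -/
theorem zero_of_comm₁ {T : Lp (Ell2 (Λ × Λ)) 2 (cdat ν hν).μ →L[ℂ] Lp (Ell2 (Λ × Λ)) 2 (cdat ν hν).μ}
    (hX : Dcm T) (hR : ∀ γ, T * Ind.lam (cdat ν hν) (RR₂ α) γ = Ind.lam (cdat ν hν) (RR₂ α) γ * T)
    (hf : TRN (Ind.lam (cdat ν hν) (RR₁ α))
      (Lp.const 2 (cdat ν hν).μ (dl ((1, 1) : Λ × Λ) : Ell2 (Λ × Λ))) T < ∞)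
    (hc : ∀ g : E, T * Ind.pi (cdat ν hν) (V := VV α) (H839.adj_VV hα) g =
      Ind.pi (cdat ν hν) (V := VV α) (H839.adj_VV hα) g * T) : T = 0 := by
  obtain ⟨a, rfl, ha⟩ := const_of_comm hν (regRep_rho (G := Λ × Λ)).basis (H839.adj_VV hα) hX hc
  rw [trn_comp] at hf
  have h1 : a = 0 := model_zero hα ha (fun g => comm_of_comp (hR g)) hf
  rw [h1]
  refine ContinuousLinearMap.ext fun ξ => Lp.ext ?_
  filter_upwards [fld_comp (μ := (cdat ν hν).μ) (0 : Ell2 (Λ × Λ) →L[ℂ] Ell2 (Λ × Λ)) ξ,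
    Lp.coeFn_zero (Ell2 (Λ × Λ)) 2 (cdat ν hν).μ] with x h1 h2
  rw [h1]
  exact h2.symm

/-- The same for the second leg. -/
theorem zero_of_comm₂ {T : Lp (Ell2 (Λ × Λ)) 2 (cdat ν hν).μ →L[ℂ] Lp (Ell2 (Λ × Λ)) 2 (cdat ν hν).μ}
    (hX : Dcm T) (hR : ∀ γ, T * Ind.lam (cdat ν hν) (RR₁ α) γ = Ind.lam (cdat ν hν) (RR₁ α) γ * T)
    (hf : TRN (Ind.lam (cdat ν hν) (RR₂ α))
      (Lp.const 2 (cdat ν hν).μ (dl ((1, 1) : Λ × Λ) : Ell2 (Λ × Λ))) T < ∞)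
    (hc : ∀ g : E, T * Ind.pi (cdat ν hν) (V := VV α) (H839.adj_VV hα) g =
      Ind.pi (cdat ν hν) (V := VV α) (H839.adj_VV hα) g * T) : T = 0 := by
  obtain ⟨a, rfl, ha⟩ := const_of_comm hν (regRep_rho (G := Λ × Λ)).basis (H839.adj_VV hα) hX hc
  rw [trn_comp] at hf
  have h1 : a = 0 := model_zero' hα ha (fun g => comm_of_comp (hR g)) hf
  rw [h1]
  refine ContinuousLinearMap.ext fun ξ => Lp.ext ?_
  filter_upwards [fld_comp (μ := (cdat ν hν).μ) (0 : Ell2 (Λ × Λ) →L[ℂ] Ell2 (Λ × Λ)) ξ,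
    Lp.coeFn_zero (Ell2 (Λ × Λ)) 2 (cdat ν hν).μ] with x h1 h2
  rw [h1]
  exact h2.symm

variable {W : Set (Lp (Ell2 (Λ × Λ)) 2 (cdat ν hν).μ →L[ℂ] Lp (Ell2 (Λ × Λ)) 2 (cdat ν hν).μ)}

/-- **The field `hs_erg` of `RC.Pic`, first leg** (any set `W` of operators containing the functions
on `E/Γ` and the second target representation; the other hypotheses are fields of `Pic`). -/
theorem hs_erg₁ (hX : ∀ S, MeasurableSet S → H790.ind (cdat ν hν).μ (Ell2 (Λ × Λ)) S ∈ W)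
    (hR : ∀ γ, Ind.lam (cdat ν hν) (RR₂ α) γ ∈ W)
    (WP : ∀ w ∈ W, ∀ g, Ind.pi (cdat ν hν) (V := VV α) (H839.adj_VV hα) g * w *
      Ind.pi (cdat ν hν) (V := VV α) (H839.adj_VV hα) g⁻¹ ∈ W)
    (contP : ∀ ξ, Continuous fun g => Ind.pi (cdat ν hν) (V := VV α) (H839.adj_VV hα) g ξ)
    (tr_conj : ∀ T, Cm W T → ∀ g, TRN (Ind.lam (cdat ν hν) (RR₁ α))
      (Lp.const 2 (cdat ν hν).μ (dl ((1, 1) : Λ × Λ) : Ell2 (Λ × Λ)))
      (Ind.pi (cdat ν hν) (V := VV α) (H839.adj_VV hα) g * T *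
        Ind.pi (cdat ν hν) (V := VV α) (H839.adj_VV hα) g⁻¹) =
      TRN (Ind.lam (cdat ν hν) (RR₁ α))
        (Lp.const 2 (cdat ν hν).μ (dl ((1, 1) : Λ × Λ) : Ell2 (Λ × Λ))) T)
    (tr_zero : ∀ T, Cm W T → TRN (Ind.lam (cdat ν hν) (RR₁ α))
      (Lp.const 2 (cdat ν hν).μ (dl ((1, 1) : Λ × Λ) : Ell2 (Λ × Λ))) T = 0 → T = 0) :
    ∀ S : Set E, Moore S → ∀ T, Cm W T → TRN (Ind.lam (cdat ν hν) (RR₁ α))
      (Lp.const 2 (cdat ν hν).μ (dl ((1, 1) : Λ × Λ) : Ell2 (Λ × Λ))) T < ∞ →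
    (∀ g ∈ S, T * Ind.pi (cdat ν hν) (V := VV α) (H839.adj_VV hα) g =
      Ind.pi (cdat ν hν) (V := VV α) (H839.adj_VV hα) g * T) → T = 0 :=
  fun S hS T hT hf hc => zero_of_comm₁ hν hα (fun A hA => hT _ (hX A hA)) (fun γ => hT _ (hR γ)) hf
    (comm_of_moore WP tr_conj (adjoint_pi (cdat ν hν) (H839.adj_VV hα)) contP tr_zero hS hT hf hc)

/-- **The field `hs_erg` of `RC.Pic`, second leg.** -/
theorem hs_erg₂ (hX : ∀ S, MeasurableSet S → H790.ind (cdat ν hν).μ (Ell2 (Λ × Λ)) S ∈ W)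
    (hR : ∀ γ, Ind.lam (cdat ν hν) (RR₁ α) γ ∈ W)
    (WP : ∀ w ∈ W, ∀ g, Ind.pi (cdat ν hν) (V := VV α) (H839.adj_VV hα) g * w *
      Ind.pi (cdat ν hν) (V := VV α) (H839.adj_VV hα) g⁻¹ ∈ W)
    (contP : ∀ ξ, Continuous fun g => Ind.pi (cdat ν hν) (V := VV α) (H839.adj_VV hα) g ξ)
    (tr_conj : ∀ T, Cm W T → ∀ g, TRN (Ind.lam (cdat ν hν) (RR₂ α))
      (Lp.const 2 (cdat ν hν).μ (dl ((1, 1) : Λ × Λ) : Ell2 (Λ × Λ)))
      (Ind.pi (cdat ν hν) (V := VV α) (H839.adj_VV hα) g * T *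
        Ind.pi (cdat ν hν) (V := VV α) (H839.adj_VV hα) g⁻¹) =
      TRN (Ind.lam (cdat ν hν) (RR₂ α))
        (Lp.const 2 (cdat ν hν).μ (dl ((1, 1) : Λ × Λ) : Ell2 (Λ × Λ))) T)
    (tr_zero : ∀ T, Cm W T → TRN (Ind.lam (cdat ν hν) (RR₂ α))
      (Lp.const 2 (cdat ν hν).μ (dl ((1, 1) : Λ × Λ) : Ell2 (Λ × Λ))) T = 0 → T = 0) :
    ∀ S : Set E, Moore S → ∀ T, Cm W T → TRN (Ind.lam (cdat ν hν) (RR₂ α))
      (Lp.const 2 (cdat ν hν).μ (dl ((1, 1) : Λ × Λ) : Ell2 (Λ × Λ))) T < ∞ →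
    (∀ g ∈ S, T * Ind.pi (cdat ν hν) (V := VV α) (H839.adj_VV hα) g =
      Ind.pi (cdat ν hν) (V := VV α) (H839.adj_VV hα) g * T) → T = 0 :=
  fun S hS T hT hf hc => zero_of_comm₂ hν hα (fun A hA => hT _ (hX A hA)) (fun γ => hT _ (hR γ)) hf
    (comm_of_moore WP tr_conj (adjoint_pi (cdat ν hν) (H839.adj_VV hα)) contP tr_zero hS hT hf hc)

end main

end Vale.Agent.P092.H421.Hs
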