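import Vale.Agent.P092.SR.Defs

/-!
P092 (helper421), [C-AMP]: an operator commuting with a mixing source representation and with the
second target, with finite trace in the first target, is zero.  (Any number `t`: the frame is a
finite family of vectors.)
-/

set_option linter.all false

open scoped InnerProductSpace ENNReal
open Filter Topology ContinuousLinearMap

namespace Vale.Agent.P092.H421.Hs

open Vale.Agent.P092.SR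

theorem enn_sq' {F : Type} [NormedAddCommGroup F] (v : F) :
    ‖v‖ₑ ^ 2 = ENNReal.ofReal (‖v‖ ^ 2) := by
  rw [← ofReal_norm_eq_enorm, ENNReal.ofReal_pow (norm_nonneg _)]

theorem enn_congr {F F' : Type} [NormedAddCommGroup F] [NormedAddCommGroup F'] {v : F} {w : F'}
    (h : ‖v‖ = ‖w‖) : ‖v‖ₑ = ‖w‖ₑ := by
  rw [← ofReal_norm_eq_enorm, ← ofReal_norm_eq_enorm, h]

theorem amgm {a b s : ℝ≥0∞} (hs : s ≠ 0) (hs' : s ≠ ∞) : a * b ≤ s * a ^ 2 + s⁻¹ * b ^ 2 := by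
  rcases le_total (s * a) b with h | h
  · have h1 : a ≤ s⁻¹ * b := by
      calc a = s⁻¹ * (s * a) := by rw [← mul_assoc, ENNReal.inv_mul_cancel hs hs', one_mul]
        _ ≤ s⁻¹ * b := by gcongr
    calc a * b ≤ s⁻¹ * b * b := by gcongr
      _ = s⁻¹ * b ^ 2 := by rw [mul_assoc, sq]
      _ ≤ _ := le_add_self
  · calc a * b ≤ a * (s * a) := by gcongr
      _ = s * a ^ 2 := by rw [sq]; ring
      _ ≤ _ := le_self_add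

section frame

variable {ℋ : Type} [NormedAddCommGroup ℋ] [InnerProductSpace ℂ ℋ]
  [CompleteSpace ℋ] {P : Type} {f : P → ℋ}

/-- Parseval frame -/
def Pf (f : P → ℋ) : Prop := ∀ η : ℋ, ∑' p, ‖⟪f p, η⟫_ℂ‖ₑ ^ 2 = ‖η‖ₑ ^ 2

theorem pf_of_hasSum (h : ∀ η : ℋ, HasSum (fun p => ‖⟪f p, η⟫_ℂ‖ ^ 2) (‖η‖ ^ 2)) : Pf f := by
  intro η
  rw [enn_sq', ← (h η).tsum_eq, ENNReal.ofReal_tsum_of_nonneg (fun _ => sq_nonneg _) (h η).summable]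
  exact tsum_congr fun p => enn_sq' _

theorem Pf.hasSum (h : Pf f) (η : ℋ) : HasSum (fun p => ‖⟪f p, η⟫_ℂ‖ ^ 2) (‖η‖ ^ 2) := by
  have h1 := h η
  have h2 : (fun p => ‖⟪f p, η⟫_ℂ‖ ^ 2) = fun p => (‖⟪f p, η⟫_ℂ‖ₑ ^ 2).toReal := by
    funext p
    rw [enn_sq', ENNReal.toReal_ofReal (sq_nonneg _)]
  have h3 : ‖η‖ ^ 2 = ∑' p, (‖⟪f p, η⟫_ℂ‖ₑ ^ 2).toReal := by
    rw [← ENNReal.tsum_toReal_eq fun p => ENNReal.pow_ne_top enorm_ne_top, h1, enn_sq',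
      ENNReal.toReal_ofReal (sq_nonneg _)]
  rw [h2, h3]
  refine ENNReal.hasSum_toReal ?_
  rw [h1]
  exact ENNReal.pow_ne_top enorm_ne_top

theorem Pf.mem (h : Pf f) (η : ℋ) : Memℓp (fun p => ⟪f p, η⟫_ℂ) 2 := by
  rw [memℓp_gen_iff (by norm_num)]
  have := (h.hasSum η).summable
  simpa using this

/-- the analysis map of a Parseval frame -/
noncomputable def ana (h : Pf f) : ℋ →ₗᵢ[ℂ] lp (fun _ : P => ℂ) 2 where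
  toFun η := ⟨fun p => ⟪f p, η⟫_ℂ, h.mem η⟩
  map_add' u v := by
    ext p
    exact inner_add_right _ _ _
  map_smul' c v := by
    ext p
    exact inner_smul_right _ _ _
  norm_map' η := by
    have h1 := lp.norm_rpow_eq_tsum (p := 2) (by norm_num)
      (⟨fun p => ⟪f p, η⟫_ℂ, h.mem η⟩ : lp (fun _ : P => ℂ) 2)
    have e2 : (ENNReal.toReal 2) = ((2 : ℕ) : ℝ) := by norm_num
    rw [e2, Real.rpow_natCast] at h1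
    simp_rw [Real.rpow_natCast] at h1
    have h2 := (h.hasSum η).tsum_eq
    exact (pow_left_inj₀ (norm_nonneg _) (norm_nonneg _) two_ne_zero).mp (h1.trans h2)

theorem Pf.enorm_inner_le (h : Pf f) (u v : ℋ) :
    ‖⟪u, v⟫_ℂ‖ₑ ≤ ∑' p, ‖⟪f p, u⟫_ℂ‖ₑ * ‖⟪f p, v⟫_ℂ‖ₑ := by
  have h1 : ⟪u, v⟫_ℂ = ∑' p, ⟪(ana h u : P → ℂ) p, (ana h v : P → ℂ) p⟫_ℂ := by
    rw [← (ana h).inner_map_map, lp.inner_eq_tsum]
  rw [h1]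
  refine (enorm_tsum_le_tsum_enorm).trans ?_
  refine ENNReal.tsum_le_tsum fun p => ?_
  change ‖⟪⟪f p, u⟫_ℂ, ⟪f p, v⟫_ℂ⟫_ℂ‖ₑ ≤ _
  rw [RCLike.inner_apply, enorm_mul, mul_comm]
  refine le_of_eq ?_
  congr 1
  exact enn_congr (RCLike.norm_conj _)

/-- a vector orthogonal to a Parseval frame is zero -/
theorem Pf.eq_zero (h : Pf f) {η : ℋ} (h0 : ∀ p, ⟪f p, η⟫_ℂ = 0) : η = 0 := by
  have h1 := h η
  have h2 : ∑' p, ‖⟪f p, η⟫_ℂ‖ₑ ^ 2 = 0 := by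
    simp [h0]
  rw [h2] at h1
  have h3 := (pow_eq_zero_iff two_ne_zero).1 h1.symm
  exact enorm_eq_zero.1 h3

end frame

section main

variable {Γ ℋ Q Q' : Type} [Group Γ] [NormedAddCommGroup ℋ] [InnerProductSpace ℂ ℋ]
  [CompleteSpace ℋ] {V R : Γ →* (ℋ →L[ℂ] ℋ)} {e : Q → ℋ} {e' : Q' → ℋ}

theorem inv_ap {U : Γ →* (ℋ →L[ℂ] ℋ)} (g : Γ) (v : ℋ) : U g⁻¹ (U g v) = v := by
  have : (U g⁻¹ * U g) v = v := by rw [← map_mul, inv_mul_cancel, map_one]; rfl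
  exact this

theorem inner_mv {U : Γ →* (ℋ →L[ℂ] ℋ)} (hU : ∀ g, adjoint (U g) = U g⁻¹) (g : Γ) (u v : ℋ) :
    ⟪U g u, v⟫_ℂ = ⟪u, U g⁻¹ v⟫_ℂ := by
  rw [← hU, adjoint_inner_right]

theorem norm_U {U : Γ →* (ℋ →L[ℂ] ℋ)} (hU : ∀ g, adjoint (U g) = U g⁻¹) (g : Γ) (u : ℋ) :
    ‖U g u‖ = ‖u‖ := by
  have h1 : ⟪U g u, U g u⟫_ℂ = ⟪u, u⟫_ℂ := by rw [inner_mv hU, inv_ap]
  rw [inner_self_eq_norm_sq_to_K, inner_self_eq_norm_sq_to_K] at h1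
  have h2 : ‖U g u‖ ^ 2 = ‖u‖ ^ 2 := by exact_mod_cast h1
  exact (pow_left_inj₀ (norm_nonneg _) (norm_nonneg _) two_ne_zero).mp h2

theorem cm_ap {A B : ℋ →L[ℂ] ℋ} (h : A * B = B * A) (v : ℋ) : A (B v) = B (A v) :=
  congrArg (fun S : ℋ →L[ℂ] ℋ => S v) h

/-- The vectors `e q` give a Parseval frame for the representation `R`. -/
def Frq (R : Γ →* (ℋ →L[ℂ] ℋ)) (e : Q → ℋ) : Prop := Pf (fun p : Q × Γ => R p.2 (e p.1))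

theorem Frq.one (h : Frq R e) (q : Q) (v : ℋ) : ∑' b, ‖⟪R b (e q), v⟫_ℂ‖ₑ ^ 2 ≤ ‖v‖ₑ ^ 2 := by
  have c3 := h v
  rw [ENNReal.tsum_prod'] at c3
  exact (ENNReal.le_tsum (f := fun p : Q => ∑' b, ‖⟪R b (e p), v⟫_ℂ‖ₑ ^ 2) q).trans c3.le

/-- the trace number -/
noncomputable def trq (e : Q → ℋ) (A : ℋ →L[ℂ] ℋ) : ℝ≥0∞ := ∑' q, ‖A (e q)‖ₑ ^ 2

/-- The trace number does not depend on the frame. -/
theorem trq_swap (hRa : ∀ g, adjoint (R g) = R g⁻¹) (h : Frq R e) (h' : Frq R e')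
    {A : ℋ →L[ℂ] ℋ} (hA : ∀ g, A * R g = R g * A) : trq e' A = trq e (adjoint A) := by
  have c1 : ∀ (q : Q) (q' : Q') (b : Γ), ‖⟪R b (e q), A (e' q')⟫_ℂ‖ₑ ^ 2 =
      ‖⟪R b⁻¹ (e' q'), adjoint A (e q)⟫_ℂ‖ₑ ^ 2 := by
    intro q q' b
    congr 1
    have c2 : ⟪R b (e q), A (e' q')⟫_ℂ =
        (starRingEnd ℂ) ⟪R b⁻¹ (e' q'), adjoint A (e q)⟫_ℂ := by
      rw [inner_conj_symm, inner_mv hRa, adjoint_inner_left, cm_ap (hA b⁻¹)]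
    rw [c2]
    exact enn_congr (RCLike.norm_conj _)
  have c3 : ∀ q', ‖A (e' q')‖ₑ ^ 2 = ∑' q, ∑' b, ‖⟪R b (e q), A (e' q')⟫_ℂ‖ₑ ^ 2 := by
    intro q'
    rw [← h, ENNReal.tsum_prod']
  have c4 : ∀ q, ‖adjoint A (e q)‖ₑ ^ 2 =
      ∑' q', ∑' b, ‖⟪R b (e' q'), adjoint A (e q)⟫_ℂ‖ₑ ^ 2 := by
    intro q
    rw [← h', ENNReal.tsum_prod']
  have c5 : ∀ q q', ∑' b, ‖⟪R b (e q), A (e' q')⟫_ℂ‖ₑ ^ 2 =
      ∑' b, ‖⟪R b (e' q'), adjoint A (e q)⟫_ℂ‖ₑ ^ 2 := by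
    intro q q'
    simp_rw [c1]
    exact (Equiv.inv Γ).tsum_eq (fun b => ‖⟪R b (e' q'), adjoint A (e q)⟫_ℂ‖ₑ ^ 2)
  rw [trq, trq]
  simp_rw [c3, c4, c5]
  exact ENNReal.tsum_comm

theorem trq_indep (hRa : ∀ g, adjoint (R g) = R g⁻¹) (h : Frq R e) (h' : Frq R e')
    {A : ℋ →L[ℂ] ℋ} (hA : ∀ g, A * R g = R g * A) : trq e' A = trq e A := by
  rw [trq_swap hRa h h' hA, ← trq_swap hRa h h hA]

/-- The mixing property of `V` relative to the commutant of `R`. -/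
def Mixq (V R : Γ →* (ℋ →L[ℂ] ℋ)) (e : Q → ℋ) : Prop :=
  ∀ q q₀, Tendsto (fun g => ∑' b, ‖⟪R b (e q), V g (e q₀)⟫_ℂ‖ₑ ^ 2) cofinite (𝓝 0)

/-- The main inequality. -/
theorem main_le (hVa : ∀ g, adjoint (V g) = V g⁻¹) (hRa : ∀ g, adjoint (R g) = R g⁻¹)
    (hVR : ∀ g h, V g * R h = R h * V g) (hpf : Frq R e) {T : ℋ →L[ℂ] ℋ}
    (hV : ∀ g, T * V g = V g * T)
    (h2 : ∀ g, T * R g = R g * T) (q₀ : Q) (F : Finset Q) {s t : ℝ≥0∞} (hs : s ≠ 0)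
    (hs' : s ≠ ∞) (ht : t ≠ 0) (ht' : t ≠ ∞) (g : Γ) :
    ‖T (e q₀)‖ₑ ^ 2 ≤
      s * (‖T‖ₑ ^ 2 * ∑' q, ‖T (e q)‖ₑ ^ 2) +
      s⁻¹ * ∑ q ∈ F, ∑' b, ‖⟪R b (e q), V g (e q₀)⟫_ℂ‖ₑ ^ 2 +
      (t⁻¹ * (‖T‖ₑ ^ 2 * ∑' q : {q : Q // q ∉ F}, ‖T (e q.1)‖ₑ ^ 2) + t * ‖e q₀‖ₑ ^ 2) := by
  classical
  obtain ⟨ω, hω⟩ : ∃ ω, ω = e q₀ := ⟨_, rfl⟩
  rw [← hω]
  set A : Q × Γ → ℝ≥0∞ := fun p => ‖⟪R p.2 (e p.1), adjoint T (V g (T ω))⟫_ℂ‖ₑ with hA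
  set B : Q × Γ → ℝ≥0∞ := fun p => ‖⟪R p.2 (e p.1), V g ω⟫_ℂ‖ₑ with hB
  -- the left hand side
  have e1 : ‖T ω‖ₑ ^ 2 = ‖⟪adjoint T (V g (T ω)), V g ω⟫_ℂ‖ₑ := by
    rw [adjoint_inner_left, cm_ap (hV g), ← ofReal_norm_eq_enorm (⟪V g (T ω), V g (T ω)⟫_ℂ),
      enn_sq', inner_self_eq_norm_sq_to_K, norm_U hVa]
    congr 1
    simp
  have e2 : ‖T ω‖ₑ ^ 2 ≤ ∑' p, A p * B p := by
    rw [e1]
    exact hpf.enorm_inner_le _ _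
  -- pointwise AM-GM
  have e3 : ∀ p, A p * B p ≤ (s * A p ^ 2 + if p.1 ∈ F then s⁻¹ * B p ^ 2 else 0) +
      ((if p.1 ∈ F then 0 else t⁻¹ * A p ^ 2) + t * B p ^ 2) := by
    intro p
    by_cases hp : p.1 ∈ F
    · rw [if_pos hp, if_pos hp]
      exact (amgm hs hs').trans le_self_add
    · rw [if_neg hp, if_neg hp]
      have := amgm (a := A p) (b := B p) (s := t⁻¹) (ENNReal.inv_ne_zero.2 ht')
        (ENNReal.inv_ne_top.2 ht)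
      rw [inv_inv] at this
      exact this.trans le_add_self
  -- bound for the `A` sums
  have hAq : ∀ q, ∑' b, A (q, b) ^ 2 ≤ ‖T‖ₑ ^ 2 * ‖T (e q)‖ₑ ^ 2 := by
    intro q
    have c1 : ∀ b, ⟪R b (e q), adjoint T (V g (T ω))⟫_ℂ =
        (starRingEnd ℂ) ⟪R b⁻¹ (e q₀), V g⁻¹ (adjoint T (T (e q)))⟫_ℂ := by
      intro b
      rw [inner_conj_symm, adjoint_inner_right, cm_ap (h2 b),
        inner_mv hRa, cm_ap (hVR g b⁻¹).symm, ← cm_ap (h2 b⁻¹)]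
      rw [inner_mv hVa, inv_inv, adjoint_inner_left, cm_ap (hV g), hω]
    have c2 : ∀ b, A (q, b) ^ 2 =
        ‖⟪R b⁻¹ (e q₀), V g⁻¹ (adjoint T (T (e q)))⟫_ℂ‖ₑ ^ 2 := by
      intro b
      change ‖⟪R b (e q), adjoint T (V g (T ω))⟫_ℂ‖ₑ ^ 2 = _
      rw [c1 b, enn_congr (RCLike.norm_conj _)]
    simp_rw [c2]
    have c5 : ∑' b, ‖⟪R b⁻¹ (e q₀), V g⁻¹ (adjoint T (T (e q)))⟫_ℂ‖ₑ ^ 2 =
        ∑' b, ‖⟪R b (e q₀), V g⁻¹ (adjoint T (T (e q)))⟫_ℂ‖ₑ ^ 2 :=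
      (Equiv.inv Γ).tsum_eq (fun b => ‖⟪R b (e q₀), V g⁻¹ (adjoint T (T (e q)))⟫_ℂ‖ₑ ^ 2)
    rw [c5]
    refine (hpf.one q₀ _).trans ?_
    rw [← mul_pow]
    refine pow_le_pow_left₀ zero_le ?_ 2
    rw [enn_congr (norm_U hVa g⁻¹ _)]
    refine (ContinuousLinearMap.le_opENorm (adjoint T) _).trans ?_
    rw [enn_congr (LinearIsometryEquiv.norm_map adjoint T)]
  have hA1 : ∑' p, A p ^ 2 ≤ ‖T‖ₑ ^ 2 * ∑' q, ‖T (e q)‖ₑ ^ 2 := by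
    rw [ENNReal.tsum_prod', ← ENNReal.tsum_mul_left]
    exact ENNReal.tsum_le_tsum hAq
  have hB1 : ∑' p, B p ^ 2 = ‖ω‖ₑ ^ 2 := by
    rw [← enn_congr (norm_U hVa g ω)]
    exact hpf _
  have hBF : ∑' p : Q × Γ, (if p.1 ∈ F then s⁻¹ * B p ^ 2 else 0) =
      s⁻¹ * ∑ q ∈ F, ∑' b, ‖⟪R b (e q), V g ω⟫_ℂ‖ₑ ^ 2 := by
    rw [ENNReal.tsum_prod', Finset.mul_sum]
    have c1 : ∀ q : Q, ∑' b, (if q ∈ F then s⁻¹ * B (q, b) ^ 2 else 0) =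
        if q ∈ F then s⁻¹ * ∑' b, B (q, b) ^ 2 else 0 := by
      intro q
      by_cases hq : q ∈ F
      · simp only [if_pos hq]
        rw [ENNReal.tsum_mul_left]
      · simp only [if_neg hq, tsum_zero]
    have c2 : ∑' q : Q, (if q ∈ F then s⁻¹ * ∑' b, B (q, b) ^ 2 else 0) =
        ∑ q ∈ F, (if q ∈ F then s⁻¹ * ∑' b, B (q, b) ^ 2 else 0) :=
      tsum_eq_sum fun q hq => if_neg hq
    calc ∑' q : Q, ∑' b, (if q ∈ F then s⁻¹ * B (q, b) ^ 2 else 0)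
        = ∑' q : Q, (if q ∈ F then s⁻¹ * ∑' b, B (q, b) ^ 2 else 0) := tsum_congr c1
      _ = ∑ q ∈ F, (if q ∈ F then s⁻¹ * ∑' b, B (q, b) ^ 2 else 0) := c2
      _ = _ := Finset.sum_congr rfl fun q hq => by rw [if_pos hq]
  have hAF : ∑' p : Q × Γ, (if p.1 ∈ F then 0 else t⁻¹ * A p ^ 2) ≤
      t⁻¹ * (‖T‖ₑ ^ 2 * ∑' q : {q : Q // q ∉ F}, ‖T (e q.1)‖ₑ ^ 2) := by
    rw [ENNReal.tsum_prod', ← ENNReal.tsum_mul_left, ← ENNReal.tsum_mul_left]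
    have c1 : ∀ q : Q, ∑' b, (if q ∈ F then 0 else t⁻¹ * A (q, b) ^ 2) ≤
        Set.indicator {q | q ∉ F}
          (fun q : Q => t⁻¹ * (‖T‖ₑ ^ 2 * ‖T (e q)‖ₑ ^ 2)) q := by
      intro q
      by_cases hq : q ∈ F
      · simp only [if_pos hq, tsum_zero]
        exact zero_le
      · rw [Set.indicator_of_mem (show q ∈ {q | q ∉ F} from hq)]
        simp only [if_neg hq]
        rw [ENNReal.tsum_mul_left]
        gcongr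
        exact hAq q
    refine (ENNReal.tsum_le_tsum c1).trans ?_
    rw [← tsum_subtype]
    exact le_rfl
  refine e2.trans ((ENNReal.tsum_le_tsum e3).trans ?_)
  rw [ENNReal.tsum_add, ENNReal.tsum_add, ENNReal.tsum_add, ENNReal.tsum_mul_left,
    ENNReal.tsum_mul_left, hB1, hBF]
  exact add_le_add (add_le_add (by gcongr) le_rfl) (add_le_add hAF le_rfl)

/-- **An operator which commutes with a mixing representation `V` and with `R` and has a finite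
trace number is zero.** -/
theorem zero_of_mix [Infinite Γ] (hVa : ∀ g, adjoint (V g) = V g⁻¹)
    (hRa : ∀ g, adjoint (R g) = R g⁻¹)
    (hVR : ∀ g h, V g * R h = R h * V g) (hpf : Frq R e) (hm : Mixq V R e) {T : ℋ →L[ℂ] ℋ}
    (hV : ∀ g, T * V g = V g * T) (h2 : ∀ g, T * R g = R g * T) (hf : trq e T < ∞) : T = 0 := by
  have hT2 : ‖T‖ₑ ^ 2 ≠ ∞ := ENNReal.pow_ne_top enorm_ne_top
  rw [trq] at hf
  have key : ∀ q₀, T (e q₀) = 0 := by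
    intro q₀
    -- remove `g`
    have h3 : ∀ (F : Finset Q) {s t : ℝ≥0∞}, s ≠ 0 → s ≠ ∞ → t ≠ 0 → t ≠ ∞ →
        ‖T (e q₀)‖ₑ ^ 2 ≤
        s * (‖T‖ₑ ^ 2 * ∑' q, ‖T (e q)‖ₑ ^ 2) +
        (t⁻¹ * (‖T‖ₑ ^ 2 * ∑' q : {q : Q // q ∉ F}, ‖T (e q.1)‖ₑ ^ 2) +
        t * ‖e q₀‖ₑ ^ 2) := by
      intro F s t hs hs' ht ht'
      have c1 : Tendsto (fun g => ∑ q ∈ F,
          ∑' b, ‖⟪R b (e q), V g (e q₀)⟫_ℂ‖ₑ ^ 2) cofinite (𝓝 0) := by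
        rw [← Finset.sum_const_zero (s := F) (ι := Q)]
        exact tendsto_finset_sum _ fun q _ => hm q q₀
      have c2 : Tendsto (fun g => s * (‖T‖ₑ ^ 2 * ∑' q, ‖T (e q)‖ₑ ^ 2) +
          s⁻¹ * (∑ q ∈ F, ∑' b, ‖⟪R b (e q), V g (e q₀)⟫_ℂ‖ₑ ^ 2) +
          (t⁻¹ * (‖T‖ₑ ^ 2 * ∑' q : {q : Q // q ∉ F}, ‖T (e q.1)‖ₑ ^ 2) +
          t * ‖e q₀‖ₑ ^ 2)) cofinite
          (𝓝 (s * (‖T‖ₑ ^ 2 * ∑' q, ‖T (e q)‖ₑ ^ 2) + s⁻¹ * 0 +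
          (t⁻¹ * (‖T‖ₑ ^ 2 * ∑' q : {q : Q // q ∉ F}, ‖T (e q.1)‖ₑ ^ 2) +
          t * ‖e q₀‖ₑ ^ 2))) := by
        refine Tendsto.add (Tendsto.add tendsto_const_nhds ?_) tendsto_const_nhds
        exact ENNReal.Tendsto.const_mul c1 (Or.inr (ENNReal.inv_ne_top.2 hs))
      rw [mul_zero, add_zero] at c2
      exact ge_of_tendsto' c2 fun g => main_le hVa hRa hVR hpf hV h2 q₀ F hs hs' ht ht' g
    -- remove `F`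
    have h4 : ∀ {s t : ℝ≥0∞}, s ≠ 0 → s ≠ ∞ → t ≠ 0 → t ≠ ∞ → ‖T (e q₀)‖ₑ ^ 2 ≤
        s * (‖T‖ₑ ^ 2 * ∑' q, ‖T (e q)‖ₑ ^ 2) + t * ‖e q₀‖ₑ ^ 2 := by
      intro s t hs hs' ht ht'
      have c1 := ENNReal.tendsto_tsum_compl_atTop_zero hf.ne
      have c2 : Tendsto (fun F : Finset Q =>
          s * (‖T‖ₑ ^ 2 * ∑' q, ‖T (e q)‖ₑ ^ 2) +
          (t⁻¹ * (‖T‖ₑ ^ 2 * ∑' q : {q : Q // q ∉ F}, ‖T (e q.1)‖ₑ ^ 2) +
          t * ‖e q₀‖ₑ ^ 2)) atTop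
          (𝓝 (s * (‖T‖ₑ ^ 2 * ∑' q, ‖T (e q)‖ₑ ^ 2) +
          (t⁻¹ * (‖T‖ₑ ^ 2 * 0) + t * ‖e q₀‖ₑ ^ 2))) := by
        refine Tendsto.add tendsto_const_nhds (Tendsto.add ?_ tendsto_const_nhds)
        exact ENNReal.Tendsto.const_mul (ENNReal.Tendsto.const_mul c1 (Or.inr hT2))
          (Or.inr (ENNReal.inv_ne_top.2 ht))
      rw [mul_zero, mul_zero, zero_add] at c2
      exact ge_of_tendsto' c2 fun F => h3 F hs hs' ht ht'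
    -- remove `s = t`
    have h5 : Tendsto (fun n : ℕ => ((n : ℝ≥0∞) + 1)⁻¹ *
        (‖T‖ₑ ^ 2 * ∑' q, ‖T (e q)‖ₑ ^ 2) + ((n : ℝ≥0∞) + 1)⁻¹ * ‖e q₀‖ₑ ^ 2)
        atTop (𝓝 (0 * (‖T‖ₑ ^ 2 * ∑' q, ‖T (e q)‖ₑ ^ 2) + 0 * ‖e q₀‖ₑ ^ 2)) := by
      have c0 : Tendsto (fun n : ℕ => ((n : ℝ≥0∞) + 1)⁻¹) atTop (𝓝 0) := by
        have c1 := (tendsto_add_atTop_iff_nat 1).2 ENNReal.tendsto_inv_nat_nhds_zero
        refine c1.congr fun n => ?_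
        push_cast
        rfl
      refine Tendsto.add ?_ ?_
      · exact ENNReal.Tendsto.mul_const c0 (Or.inr (ENNReal.mul_ne_top hT2 hf.ne))
      · exact ENNReal.Tendsto.mul_const c0 (Or.inr (ENNReal.pow_ne_top enorm_ne_top))
    rw [zero_mul, zero_mul, add_zero] at h5
    have h6 : ‖T (e q₀)‖ₑ ^ 2 ≤ 0 := by
      refine ge_of_tendsto' h5 fun n => h4 ?_ ?_ ?_ ?_
      · exact ENNReal.inv_ne_zero.2
          (ENNReal.add_ne_top.2 ⟨ENNReal.natCast_ne_top n, ENNReal.one_ne_top⟩)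
      · exact ENNReal.inv_ne_top.2 (by positivity)
      · exact ENNReal.inv_ne_zero.2
          (ENNReal.add_ne_top.2 ⟨ENNReal.natCast_ne_top n, ENNReal.one_ne_top⟩)
      · exact ENNReal.inv_ne_top.2 (by positivity)
    have h7 := (pow_eq_zero_iff two_ne_zero).1 (le_antisymm h6 zero_le)
    exact enorm_eq_zero.1 h7
  have h8 : adjoint T = 0 := by
    refine ContinuousLinearMap.ext fun v => hpf.eq_zero fun p => ?_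
    rw [adjoint_inner_right, cm_ap (h2 p.2), key, map_zero, inner_zero_left]
  rw [← adjoint_adjoint T, h8, map_zero]

/-- The frame of a triple for the second target. -/
theorem tri_frq₂ {ι : Type} [Fintype ι] {R₁ R₂ : Γ →* (ℋ →L[ℂ] ℋ)} {ξ : ι → ℋ}
    (h : Tri V R₁ R₂ ξ) : Frq R₂ (fun q : ι × Γ => R₁ q.2 (ξ q.1)) := by
  refine pf_of_hasSum fun η => ?_
  have h1 := (Equiv.prodAssoc ι Γ Γ).hasSum_iff.2 (h.frame η)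
  have e1 : (fun p : (ι × Γ) × Γ => ‖⟪R₂ p.2 (R₁ p.1.2 (ξ p.1.1)), η⟫_ℂ‖ ^ 2) =
      (fun p : ι × Γ × Γ => ‖⟪R₁ p.2.1 (R₂ p.2.2 (ξ p.1)), η⟫_ℂ‖ ^ 2) ∘
        Equiv.prodAssoc ι Γ Γ := by
    funext p
    change _ = ‖⟪R₁ p.1.2 (R₂ p.2 (ξ p.1.1)), η⟫_ℂ‖ ^ 2
    rw [cm_ap (h.comm₁₂ p.1.2 p.2)]
  rw [e1]
  exact h1

/-- The frame of a triple for the first target. -/
theorem tri_frq₁ {ι : Type} [Fintype ι] {R₁ R₂ : Γ →* (ℋ →L[ℂ] ℋ)} {ξ : ι → ℋ}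
    (h : Tri V R₁ R₂ ξ) : Frq R₁ (fun q : ι × Γ => R₂ q.2 (ξ q.1)) := by
  refine pf_of_hasSum fun η => ?_
  have h1 := ((Equiv.prodAssoc ι Γ Γ).trans
    (Equiv.prodCongr (Equiv.refl ι) (Equiv.prodComm Γ Γ))).hasSum_iff.2 (h.frame η)
  exact h1

end main

end Vale.Agent.P092.H421.Hs
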