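import Vale.Agent.P092.H962.MT3
import Vale.Agent.P092.H421.Hs5

/-!
P092 (helper421), [C-AMP]: the amplified model is mixing; operators of finite trace number which
commute with the source and one target vanish.
-/

set_option linter.all false

open scoped InnerProductSpace ENNReal
open Filter Topology ContinuousLinearMap

namespace Vale.Agent.P092.H421.Hs

open Vale.Agent.P092.H160 Vale.Agent.P092.H103 Vale.Agent.P092.SR
  Vale.Agent.P092.H962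

/-! ### Density -/

theorem tendsto_of_dl {X Z G : Type} [NormedAddCommGroup Z] [NormedSpace ℂ Z] {l : Filter G}
    {B : G → Ell2 X →L[ℂ] Z} {C : ℝ} (hB : ∀ g v, ‖B g v‖ ≤ C * ‖v‖)
    (h : ∀ x, Tendsto (fun g => B g (dl x)) l (𝓝 0)) (v : Ell2 X) :
    Tendsto (fun g => B g v) l (𝓝 0) := by
  rw [Metric.tendsto_nhds]
  intro ε hε
  have hC : 0 < |C| + 1 := by positivity
  obtain ⟨F, hF⟩ := ((Metric.tendsto_nhds.1 (hasSum_dl v)) (ε / (2 * (|C| + 1)))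
    (by positivity)).exists
  have h1 : Tendsto (fun g => ∑ x ∈ F, v x • B g (dl x)) l (𝓝 0) := by
    have : Tendsto (fun g => ∑ x ∈ F, v x • B g (dl x)) l (𝓝 (∑ x ∈ F, v x • (0 : Z))) :=
      tendsto_finset_sum _ fun x _ => (h x).const_smul _
    simpa using this
  filter_upwards [(Metric.tendsto_nhds.1 h1) (ε / 2) (by positivity)] with g hg
  rw [dist_zero_right] at hg ⊢
  have e1 : B g v = B g (v - ∑ x ∈ F, v x • dl x) + ∑ x ∈ F, v x • B g (dl x) := by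
    rw [map_sub, map_sum]
    simp only [map_smul]
    abel
  have e2 : ‖B g (v - ∑ x ∈ F, v x • dl x)‖ ≤ ε / 2 := by
    refine (hB g _).trans ?_
    rw [← dist_eq_norm, dist_comm]
    calc C * dist (∑ x ∈ F, v x • dl x) v ≤ (|C| + 1) * (ε / (2 * (|C| + 1))) := by
          have : C ≤ |C| + 1 := (le_abs_self C).trans (by linarith)
          exact mul_le_mul this hF.le dist_nonneg hC.le
      _ = ε / 2 := by field_simp
  calc ‖B g v‖ ≤ _ := by rw [e1]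
    _ ≤ ‖B g (v - ∑ x ∈ F, v x • dl x)‖ + ‖∑ x ∈ F, v x • B g (dl x)‖ := norm_add_le _ _
    _ < ε / 2 + ε / 2 := by linarith
    _ = ε := by ring

/-! ### Coefficients -/

section coef

variable {Γ Λ I : Type} [Group Γ] [Group Λ] [Fintype I]
  {α : Γ → (Ell2 (I × Λ) →L[ℂ] Ell2 (I × Λ))} (hα : AF α)

include hα

theorem coef_zero (i i' : I) (s a : Λ) :
    Tendsto (fun g => α g (dl (i', a)) (i, s)) cofinite (𝓝 0) := by
  classical
  have hm : Eqv (FS.mat I Λ).R (FS.mat I Λ).R (H58.mu i i' (s * a⁻¹)) := by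
    intro t v
    have h := H58.mu_cm i i' (s * a⁻¹) ((FS.mat I Λ).R t) ⟨t, rfl⟩
    exact congrArg (fun T : Ell2 (I × Λ) →L[ℂ] Ell2 (I × Λ) => T v) h
  have hX : Eqv (FS.mat I Λ).R (FS.mat I Λ).R (α 1 * H58.mu i i' (s * a⁻¹) * α 1) :=
    ((hα.comm 1).mul hm).mul (hα.comm 1)
  have h1 : α 1 * (α 1 * H58.mu i i' (s * a⁻¹) * α 1) = α 1 * H58.mu i i' (s * a⁻¹) * α 1 := by
    rw [← mul_assoc, ← mul_assoc, hα.pp]
  have h2 : (α 1 * H58.mu i i' (s * a⁻¹) * α 1) * α 1 = α 1 * H58.mu i i' (s * a⁻¹) * α 1 := by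
    rw [mul_assoc, hα.pp]
  have h3 := (H58.coef_sum hα hX h1 h2).summable.tendsto_cofinite_zero
  have e1 : ∀ g, ‖(FS.mat I Λ).tr (adjoint (α g) * (α 1 * H58.mu i i' (s * a⁻¹) * α 1))‖ =
      ‖α g (dl (i', a)) (i, s)‖ := by
    intro g
    have c1 : adjoint (α g) * (α 1 * H58.mu i i' (s * a⁻¹) * α 1) =
        (adjoint (α g) * H58.mu i i' (s * a⁻¹)) ∘L α 1 := by
      change _ = (adjoint (α g) * H58.mu i i' (s * a⁻¹)) * α 1
      rw [← mul_assoc, ← mul_assoc, hα.adj, hα.mul_p]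
    have c2 : Eqv (FS.mat I Λ).R (FS.mat I Λ).R (adjoint (α g) * H58.mu i i' (s * a⁻¹)) :=
      ((FS.mat I Λ).eqv_adjoint (FS.mat I Λ) (hα.comm g)).mul hm
    have c3 : α 1 ∘L (adjoint (α g) * H58.mu i i' (s * a⁻¹)) =
        adjoint (α g) * H58.mu i i' (s * a⁻¹) := by
      change α 1 * (adjoint (α g) * H58.mu i i' (s * a⁻¹)) = _
      rw [← mul_assoc, hα.adj, hα.p_mul]
    rw [c1, (FS.mat I Λ).tr_comm (FS.mat I Λ) (hα.comm 1) c2, c3]
    unfold FS.tr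
    rw [Finset.sum_eq_single i']
    · rw [FS.mat_base, inner_dl]
      change ‖adjoint (α g) (H58.mu i i' (s * a⁻¹) (dl (i', 1))) (i', 1)‖ = _
      rw [H58.mu_dl_self, mul_one, ← RCLike.norm_conj, coef_adj]
      have c4 := EqM.coef (hα.comm g) i' i 1 (s * a⁻¹) a
      rw [one_mul, inv_mul_cancel_right] at c4
      rw [← c4]
    · intro j _ hj
      rw [FS.mat_base]
      change ⟪(dl (j, 1) : Ell2 (I × Λ)), adjoint (α g) (H58.mu i i' (s * a⁻¹) (dl (j, 1)))⟫_ℂ = 0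
      rw [H58.mu_dl_ne (Ne.symm hj), map_zero, inner_zero_right]
    · intro h
      exact absurd (Finset.mem_univ _) h
  rw [tendsto_zero_iff_norm_tendsto_zero]
  have h4 : Tendsto (fun g => ‖(FS.mat I Λ).tr (adjoint (α g) *
      (α 1 * H58.mu i i' (s * a⁻¹) * α 1))‖) cofinite (𝓝 0) := by
    have := h3.sqrt
    rw [Real.sqrt_zero] at this
    refine this.congr fun g => ?_
    exact Real.sqrt_sq (norm_nonneg _)
  exact h4.congr fun g => e1 g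

end coef

/-! ### Slices -/

section slices

variable {Γ Λ I J K : Type} [Group Γ] [Group Λ]

/-- the slice at `i` and the position `z` in the first leg -/
noncomputable def s₁ (i : I) (z : J × Λ) :
    Ell2 (I × ((J × Λ) × (K × Λ))) →L[ℂ] Ell2 (K × Λ) :=
  adjoint (tvr (dl z)) ∘L adjoint (tvr (dl i))

/-- the slice at `i` and the position `z` in the second leg -/
noncomputable def s₂ (i : I) (z : K × Λ) :
    Ell2 (I × ((J × Λ) × (K × Λ))) →L[ℂ] Ell2 (J × Λ) :=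
  adjoint (tvl (dl z)) ∘L adjoint (tvr (dl i))

theorem adj_tvr_apply {X Y : Type} (x : X) (F : Ell2 (X × Y)) : adjoint (tvr (dl x)) F = sl F x := by
  refine ext_inner_left ℂ fun u => ?_
  rw [adjoint_inner_right, tvr_apply, inner_tvdl]

theorem s₁_apply (i : I) (z : J × Λ) (v : Ell2 (I × ((J × Λ) × (K × Λ)))) (y : K × Λ) :
    s₁ i z v y = v (i, (z, y)) := by
  change adjoint (tvr (dl z)) (adjoint (tvr (dl i)) v) y = _
  rw [adj_tvr_apply, adj_tvr_apply]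
  rfl

theorem s₂_apply (i : I) (z : K × Λ) (v : Ell2 (I × ((J × Λ) × (K × Λ)))) (y : J × Λ) :
    s₂ i z v y = v (i, (y, z)) := by
  change adjoint (tvl (dl z)) (adjoint (tvr (dl i)) v) y = _
  rw [adj_tvr_apply, adj_tvl_apply, inner_dl]
  rfl

theorem inner_s₁ (i : I) (z : J × Λ) (u : Ell2 (K × Λ)) (v : Ell2 (I × ((J × Λ) × (K × Λ)))) :
    ⟪tv (dl i) (tv (dl z) u), v⟫_ℂ = ⟪u, s₁ i z v⟫_ℂ := by
  change _ = ⟪u, adjoint (tvr (dl z)) (adjoint (tvr (dl i)) v)⟫_ℂ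
  rw [adjoint_inner_right, adjoint_inner_right, tvr_apply, tvr_apply]

theorem inner_s₂ (i : I) (z : K × Λ) (u : Ell2 (J × Λ)) (v : Ell2 (I × ((J × Λ) × (K × Λ)))) :
    ⟪tv (dl i) (tv u (dl z)), v⟫_ℂ = ⟪u, s₂ i z v⟫_ℂ := by
  change _ = ⟪u, adjoint (tvl (dl z)) (adjoint (tvr (dl i)) v)⟫_ℂ
  rw [adjoint_inner_right, adjoint_inner_right, tvl_apply, tvr_apply]

open Classical in
theorem s₁_VT (x : Ell2 (I × Λ) →L[ℂ] Ell2 (I × Λ)) (i i' : I) (j j' : J) (k' : K) (s a b : Λ) :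
    s₁ i (j, s) (VT J K x (dl (i', ((j', a), (k', b))))) =
      x (dl (i', a)) (i, s) • (if j = j' then dl (k', s * a⁻¹ * b) else 0 : Ell2 (K × Λ)) := by
  classical
  apply ext_inner_dl
  rintro ⟨k, c⟩
  rw [s₁_apply, VT_coord, lp.coeFn_smul, Pi.smul_apply, smul_eq_mul]
  congr 1
  by_cases hj : j = j'
  · subst hj
    rw [if_pos rfl, dl_apply, dl_apply]
    have e1 : ((j, (k, s⁻¹ * c)) = (j, (k', a⁻¹ * b))) ↔ ((k, c) = (k', s * a⁻¹ * b)) := by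
      simp only [Prod.mk.injEq, true_and]
      refine and_congr_right fun _ => ?_
      constructor
      · intro h
        rw [mul_assoc, ← h, mul_inv_cancel_left]
      · intro h
        rw [h, mul_assoc, inv_mul_cancel_left]
    simp only [e1]
  · rw [if_neg hj, dl_ne]
    · rfl
    · intro h
      exact hj (congrArg Prod.fst h)

open Classical in
theorem s₂_VT (x : Ell2 (I × Λ) →L[ℂ] Ell2 (I × Λ)) (i i' : I) (j' : J) (k k' : K) (c a b : Λ) :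
    s₂ i (k, c) (VT J K x (dl (i', ((j', a), (k', b))))) =
      x (dl (i', a)) (i, c * b⁻¹ * a) •
        (if k = k' then dl (j', c * b⁻¹ * a) else 0 : Ell2 (J × Λ)) := by
  classical
  apply ext_inner_dl
  rintro ⟨j, s⟩
  rw [s₂_apply, VT_coord, lp.coeFn_smul, Pi.smul_apply, smul_eq_mul]
  by_cases hk : k = k'
  · subst hk
    rw [if_pos rfl, dl_apply, dl_apply]
    have e1 : ((j, (k, s⁻¹ * c)) = (j', (k, a⁻¹ * b))) ↔ ((j, s) = (j', c * b⁻¹ * a)) := by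
      simp only [Prod.mk.injEq, true_and]
      refine and_congr_right fun _ => ?_
      constructor
      · intro h
        have h2 : s⁻¹ * c * b⁻¹ * a = 1 := by rw [h]; group
        have h3 : s * (s⁻¹ * c * b⁻¹ * a) = s := by rw [h2, mul_one]
        rw [← h3]
        group
      · intro h
        rw [h]
        group
    by_cases h : (j, s) = (j', c * b⁻¹ * a)
    · rw [if_pos (e1.2 h), if_pos h]
      have h4 : s = c * b⁻¹ * a := congrArg Prod.snd h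
      rw [h4]
    · rw [if_neg (fun h5 => h (e1.1 h5)), if_neg h, mul_zero, mul_zero]
  · rw [if_neg hk, dl_ne, mul_zero]
    · change _ = _ * (0 : ℂ)
      rw [mul_zero]
    · intro h
      exact hk (congrArg (fun p => p.2.1) h)

end slices

/-! ### The mixing frames -/

section mix

variable {Γ Λ I J K : Type} [Group Γ] [Group Λ] [Fintype I] [Fintype J] [Fintype K]
  {α : Γ → (Ell2 (I × Λ) →L[ℂ] Ell2 (I × Λ))} {β : Γ → (Ell2 (J × Λ) →L[ℂ] Ell2 (J × Λ))}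
  {γ : Γ → (Ell2 (K × Λ) →L[ℂ] Ell2 (K × Λ))} (hα : AF α) (hβ : AF β) (hγ : AF γ)

include hα in
theorem VT_bd (g : Γ) (v : Ell2 (I × ((J × Λ) × (K × Λ)))) :
    ‖VT J K (α g) v‖ ≤ ‖VT J K (α 1)‖ * ‖v‖ := by
  have h1 : ∀ g, ‖VT J K (α g) v‖ ^ 2 = RCLike.re ⟪v, VT J K (α 1) v⟫_ℂ := by
    intro g
    have h2 : VT J K (α g⁻¹) (VT J K (α g) v) = VT J K (α 1) v := by
      change (VT J K (α g⁻¹) * VT J K (α g)) v = _
      rw [← VT_mul, ← hα.mul, inv_mul_cancel]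
    rw [← h2, ← hα.adj, ← VT_adj, adjoint_inner_right, inner_self_eq_norm_sq]
  have h2 : ‖VT J K (α g) v‖ = ‖VT J K (α 1) v‖ :=
    (pow_left_inj₀ (norm_nonneg _) (norm_nonneg _) two_ne_zero).mp ((h1 g).trans (h1 1).symm)
  rw [h2]
  exact le_opNorm _ _

include hα in
theorem s₁_zero (i : I) (z : J × Λ) (v : Ell2 (I × ((J × Λ) × (K × Λ)))) :
    Tendsto (fun g => s₁ i z (VT J K (α g) v)) cofinite (𝓝 0) := by
  classical
  refine tendsto_of_dl (B := fun g => s₁ i z ∘L VT J K (α g))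
    (C := ‖(s₁ i z : Ell2 (I × ((J × Λ) × (K × Λ))) →L[ℂ] Ell2 (K × Λ))‖ * ‖VT J K (α 1)‖)
    ?_ ?_ v
  · intro g v
    refine ((s₁ i z).le_opNorm _).trans ?_
    rw [mul_assoc]
    exact mul_le_mul_of_nonneg_left (VT_bd hα g v) (norm_nonneg _)
  · rintro ⟨i', ⟨j', a⟩, ⟨k', b⟩⟩
    obtain ⟨j, s⟩ := z
    have h1 := (coef_zero hα i i' s a).smul_const
      (if j = j' then dl (k', s * a⁻¹ * b) else 0 : Ell2 (K × Λ))
    rw [zero_smul] at h1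
    exact h1.congr fun g => (s₁_VT (α g) i i' j j' k' s a b).symm

include hα in
theorem s₂_zero (i : I) (z : K × Λ) (v : Ell2 (I × ((J × Λ) × (K × Λ)))) :
    Tendsto (fun g => s₂ i z (VT J K (α g) v)) cofinite (𝓝 0) := by
  classical
  refine tendsto_of_dl (B := fun g => s₂ i z ∘L VT J K (α g))
    (C := ‖(s₂ i z : Ell2 (I × ((J × Λ) × (K × Λ))) →L[ℂ] Ell2 (J × Λ))‖ * ‖VT J K (α 1)‖)
    ?_ ?_ v
  · intro g v
    refine ((s₂ i z).le_opNorm _).trans ?_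
    rw [mul_assoc]
    exact mul_le_mul_of_nonneg_left (VT_bd hα g v) (norm_nonneg _)
  · rintro ⟨i', ⟨j', a⟩, ⟨k', b⟩⟩
    obtain ⟨k, c⟩ := z
    have h1 := (coef_zero hα i i' (c * b⁻¹ * a) a).smul_const
      (if k = k' then dl (j', c * b⁻¹ * a) else 0 : Ell2 (J × Λ))
    rw [zero_smul] at h1
    exact h1.congr fun g => (s₂_VT (α g) i i' j' k k' c a b).symm

/-- a squeeze -/
theorem sq_zero {G X : Type} {m : ℕ} {B : Γ → (Ell2 X →L[ℂ] Ell2 X)} {ζ : Fin m → Ell2 X}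
    {P : Ell2 X →L[ℂ] Ell2 X}
    (hζ : ∀ u, HasSum (fun x : Fin m × Γ => ‖⟪B x.2 (ζ x.1), u⟫_ℂ‖ ^ 2) (‖P u‖ ^ 2))
    {l : Filter G} {w : G → Ell2 X} (hw : Tendsto w l (𝓝 0)) (k : Fin m) :
    Tendsto (fun g => ∑' b, ‖⟪B b (ζ k), w g⟫_ℂ‖ₑ ^ 2) l (𝓝 0) := by
  have h0 : ∀ u, ∑' b, ‖⟪B b (ζ k), u⟫_ℂ‖ₑ ^ 2 ≤ ‖P u‖ₑ ^ 2 := by
    intro u
    have h1 : ∑' x : Fin m × Γ, ‖⟪B x.2 (ζ x.1), u⟫_ℂ‖ₑ ^ 2 = ‖P u‖ₑ ^ 2 := by
      rw [enn_sq', ← (hζ u).tsum_eq,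
        ENNReal.ofReal_tsum_of_nonneg (fun _ => sq_nonneg _) (hζ u).summable]
      exact tsum_congr fun p => enn_sq' _
    rw [← h1, ENNReal.tsum_prod']
    exact ENNReal.le_tsum (f := fun j => ∑' b, ‖⟪B b (ζ j), u⟫_ℂ‖ₑ ^ 2) k
  have h1 : Tendsto (fun g => ‖P (w g)‖ₑ ^ 2) l (𝓝 0) := by
    have h2 : Tendsto (fun u : Ell2 X => ‖P u‖ₑ ^ 2) (𝓝 0) (𝓝 (‖P 0‖ₑ ^ 2)) :=
      (((ENNReal.continuous_pow 2).comp continuous_enorm).comp P.continuous).tendsto 0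
    rw [map_zero, enorm_zero, zero_pow two_ne_zero] at h2
    exact h2.comp hw
  exact tendsto_of_tendsto_of_tendsto_of_le_of_le tendsto_const_nhds h1 (fun _ => zero_le)
    fun g => h0 (w g)

include hα hβ hγ

theorem exists_frq₂ (hΛ : ∀ s : Λ, s ≠ 1 → Set.Infinite {y : Λ | ∃ h, y = h * s * h⁻¹}) :
    ∃ (m : ℕ) (e : I × ((J × Λ) × Fin m) → HH (PT α β γ)),
      Frq (B3R hα hβ hγ) e ∧ Mixq (V3 hα hβ hγ) (B3R hα hβ hγ) e := by
  obtain ⟨m, ζ, -, -, hζ⟩ := H58.exists_frame_JT hγ hΛ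
  obtain ⟨hPP, kA, kB, kC, lA, lB, lC⟩ := PT_three hα hβ hγ
  have hPa : ∀ v, PT α β γ (PT α β γ v) = PT α β γ v := fun v =>
    congrArg (fun T : Ell2 (I × ((J × Λ) × (K × Λ))) →L[ℂ] Ell2 (I × ((J × Λ) × (K × Λ))) => T v)
      hPP
  set e : I × ((J × Λ) × Fin m) → HH (PT α β γ) := fun q =>
    ⟨PT α β γ (tv (dl q.1) (tv (dl q.2.1) (ζ q.2.2))), hPa _⟩ with he
  have key : ∀ i z l b (η : HH (PT α β γ)), ⟪B3R hα hβ hγ b (e (i, (z, l))), η⟫_ℂ =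
      ⟪tv (dl i) (tv (dl z) (JT (γ b) (ζ l))), (η : Ell2 (I × ((J × Λ) × (K × Λ))))⟫_ℂ := by
    intro i z l b η
    rw [Submodule.coe_inner, B3R_val]
    change ⟪R2T I J (γ b) (PT α β γ (tv (dl i) (tv (dl z) (ζ l)))), _⟫_ℂ = _
    have e4 : R2T I J (γ b) (PT α β γ (tv (dl i) (tv (dl z) (ζ l)))) =
        PT α β γ (tv (dl i) (tv (dl z) (JT (γ b) (ζ l)))) := by
      have e5 : tv (dl i) (tv (dl z) (JT (γ b) (ζ l))) =
          R2T I J (γ b) (tv (dl i) (tv (dl z) (ζ l))) := by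
        rw [R2T, tens_tv, tens_tv]
        rfl
      rw [e5]
      exact congrArg (fun T : Ell2 (I × ((J × Λ) × (K × Λ))) →L[ℂ]
        Ell2 (I × ((J × Λ) × (K × Λ))) => T (tv (dl i) (tv (dl z) (ζ l)))) (kC b).symm
    rw [e4, ← adjoint_inner_right, PT_adj hα hβ hγ,
      show PT α β γ (η : Ell2 (I × ((J × Λ) × (K × Λ)))) = η from η.2]
  refine ⟨m, e, pf_of_hasSum fun η => ?_, ?_⟩
  · have h1 := frame_tens (fun i : I => (dl i : Ell2 I))
      (fun x : (J × Λ) × (Fin m × Γ) =>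
        (tv (dl x.1) (JT (γ x.2.2) (ζ x.2.1)) : Ell2 ((J × Λ) × (K × Λ))))
      1 (tens 1 (JT (γ 1))) frame_dl
      (frame_tens (fun x : J × Λ => (dl x : Ell2 (J × Λ)))
        (fun x : Fin m × Γ => JT (γ x.2) (ζ x.1)) 1 (JT (γ 1)) frame_dl hζ)
      (η : Ell2 (I × ((J × Λ) × (K × Λ))))
    have h2 : tens (1 : Ell2 I →L[ℂ] Ell2 I)
        (tens (1 : Ell2 (J × Λ) →L[ℂ] Ell2 (J × Λ)) (JT (γ 1)))
        (η : Ell2 (I × ((J × Λ) × (K × Λ)))) = η := by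
      rw [← show PT α β γ (η : Ell2 (I × ((J × Λ) × (K × Λ)))) = η from η.2]
      exact congrArg (fun T : Ell2 (I × ((J × Λ) × (K × Λ))) →L[ℂ]
        Ell2 (I × ((J × Λ) × (K × Λ))) => T (η : Ell2 (I × ((J × Λ) × (K × Λ))))) lC
    rw [h2] at h1
    let e' : (I × ((J × Λ) × Fin m)) × Γ ≃ I × ((J × Λ) × (Fin m × Γ)) :=
      { toFun := fun p => (p.1.1, (p.1.2.1, (p.1.2.2, p.2)))
        invFun := fun q => ((q.1, (q.2.1, q.2.2.1)), q.2.2.2)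
        left_inv := fun p => rfl
        right_inv := fun p => rfl }
    have h3 := e'.hasSum_iff.mpr h1
    have h4 : ‖(η : Ell2 (I × ((J × Λ) × (K × Λ))))‖ ^ 2 = ‖η‖ ^ 2 := rfl
    rw [h4] at h3
    have h6 : (fun p : (I × ((J × Λ) × Fin m)) × Γ => ‖⟪B3R hα hβ hγ p.2 (e p.1), η⟫_ℂ‖ ^ 2) =
        fun p : (I × ((J × Λ) × Fin m)) × Γ =>
        ‖⟪tv (dl p.1.1) (tv (dl p.1.2.1) (JT (γ p.2) (ζ p.1.2.2))),
          (η : Ell2 (I × ((J × Λ) × (K × Λ))))⟫_ℂ‖ ^ 2 := by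
      funext p
      obtain ⟨⟨i, z, l⟩, b⟩ := p
      have h7 := key i z l b η
      simp only []
      rw [h7]
    rw [h6]
    exact h3
  · rintro ⟨i, z, l⟩ q₀
    have h1 := sq_zero (B := fun g => JT (γ g)) hζ
      (s₁_zero (J := J) (K := K) hα i z (e q₀ : Ell2 (I × ((J × Λ) × (K × Λ))))) l
    refine h1.congr fun g => tsum_congr fun b => ?_
    rw [key, V3_val, inner_s₁]

theorem exists_frq₁ (hΛ : ∀ s : Λ, s ≠ 1 → Set.Infinite {y : Λ | ∃ h, y = h * s * h⁻¹}) :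
    ∃ (m : ℕ) (e : I × (Fin m × (K × Λ)) → HH (PT α β γ)),
      Frq (A3R hα hβ hγ) e ∧ Mixq (V3 hα hβ hγ) (A3R hα hβ hγ) e := by
  obtain ⟨m, ζ, -, -, hζ⟩ := H58.exists_frame_JT hβ hΛ
  obtain ⟨hPP, kA, kB, kC, lA, lB, lC⟩ := PT_three hα hβ hγ
  have hPa : ∀ v, PT α β γ (PT α β γ v) = PT α β γ v := fun v =>
    congrArg (fun T : Ell2 (I × ((J × Λ) × (K × Λ))) →L[ℂ] Ell2 (I × ((J × Λ) × (K × Λ))) => T v)
      hPP
  set e : I × (Fin m × (K × Λ)) → HH (PT α β γ) := fun q =>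
    ⟨PT α β γ (tv (dl q.1) (tv (ζ q.2.1) (dl q.2.2))), hPa _⟩ with he
  have key : ∀ i l z b (η : HH (PT α β γ)), ⟪A3R hα hβ hγ b (e (i, (l, z))), η⟫_ℂ =
      ⟪tv (dl i) (tv (JT (β b) (ζ l)) (dl z)), (η : Ell2 (I × ((J × Λ) × (K × Λ))))⟫_ℂ := by
    intro i l z b η
    rw [Submodule.coe_inner, A3R_val]
    change ⟪R1T I K (β b) (PT α β γ (tv (dl i) (tv (ζ l) (dl z)))), _⟫_ℂ = _
    have e4 : R1T I K (β b) (PT α β γ (tv (dl i) (tv (ζ l) (dl z)))) =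
        PT α β γ (tv (dl i) (tv (JT (β b) (ζ l)) (dl z))) := by
      have e5 : tv (dl i) (tv (JT (β b) (ζ l)) (dl z)) =
          R1T I K (β b) (tv (dl i) (tv (ζ l) (dl z))) := by
        rw [R1T, tens_tv, tens_tv]
        rfl
      rw [e5]
      exact congrArg (fun T : Ell2 (I × ((J × Λ) × (K × Λ))) →L[ℂ]
        Ell2 (I × ((J × Λ) × (K × Λ))) => T (tv (dl i) (tv (ζ l) (dl z)))) (kB b).symm
    rw [e4, ← adjoint_inner_right, PT_adj hα hβ hγ,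
      show PT α β γ (η : Ell2 (I × ((J × Λ) × (K × Λ)))) = η from η.2]
  refine ⟨m, e, pf_of_hasSum fun η => ?_, ?_⟩
  · have h1 := frame_tens (fun i : I => (dl i : Ell2 I))
      (fun x : (Fin m × Γ) × (K × Λ) =>
        (tv (JT (β x.1.2) (ζ x.1.1)) (dl x.2) : Ell2 ((J × Λ) × (K × Λ))))
      1 (tens (JT (β 1)) 1) frame_dl
      (frame_tens (fun x : Fin m × Γ => JT (β x.2) (ζ x.1))
        (fun x : K × Λ => (dl x : Ell2 (K × Λ))) (JT (β 1)) 1 hζ frame_dl)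
      (η : Ell2 (I × ((J × Λ) × (K × Λ))))
    have h2 : tens (1 : Ell2 I →L[ℂ] Ell2 I)
        (tens (JT (β 1)) (1 : Ell2 (K × Λ) →L[ℂ] Ell2 (K × Λ)))
        (η : Ell2 (I × ((J × Λ) × (K × Λ)))) = η := by
      rw [← show PT α β γ (η : Ell2 (I × ((J × Λ) × (K × Λ)))) = η from η.2]
      exact congrArg (fun T : Ell2 (I × ((J × Λ) × (K × Λ))) →L[ℂ]
        Ell2 (I × ((J × Λ) × (K × Λ))) => T (η : Ell2 (I × ((J × Λ) × (K × Λ))))) lB
    rw [h2] at h1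
    let e' : (I × (Fin m × (K × Λ))) × Γ ≃ I × ((Fin m × Γ) × (K × Λ)) :=
      { toFun := fun p => (p.1.1, ((p.1.2.1, p.2), p.1.2.2))
        invFun := fun q => ((q.1, (q.2.1.1, q.2.2)), q.2.1.2)
        left_inv := fun p => rfl
        right_inv := fun p => rfl }
    have h3 := e'.hasSum_iff.mpr h1
    have h4 : ‖(η : Ell2 (I × ((J × Λ) × (K × Λ))))‖ ^ 2 = ‖η‖ ^ 2 := rfl
    rw [h4] at h3
    have h6 : (fun p : (I × (Fin m × (K × Λ))) × Γ => ‖⟪A3R hα hβ hγ p.2 (e p.1), η⟫_ℂ‖ ^ 2) =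
        fun p : (I × (Fin m × (K × Λ))) × Γ =>
        ‖⟪tv (dl p.1.1) (tv (JT (β p.2) (ζ p.1.2.1)) (dl p.1.2.2)),
          (η : Ell2 (I × ((J × Λ) × (K × Λ))))⟫_ℂ‖ ^ 2 := by
      funext p
      obtain ⟨⟨i, l, z⟩, b⟩ := p
      have h7 := key i l z b η
      simp only []
      rw [h7]
    rw [h6]
    exact h3
  · rintro ⟨i, l, z⟩ q₀
    have h1 := sq_zero (B := fun g => JT (β g)) hζ
      (s₂_zero (J := J) (K := K) hα i z (e q₀ : Ell2 (I × ((J × Λ) × (K × Λ))))) l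
    refine h1.congr fun g => tsum_congr fun b => ?_
    rw [key, V3_val, inner_s₂]

/-- **The amplified model: an operator commuting with the source and the second target, of finite
trace number, is zero.** -/
theorem model_zeroT₂ [Infinite Γ]
    (hΛ : ∀ s : Λ, s ≠ 1 → Set.Infinite {y : Λ | ∃ h, y = h * s * h⁻¹})
    {ι : Type} [Fintype ι] {ξ : ι → HH (PT α β γ)}
    (h : Tri (V3 hα hβ hγ) (A3R hα hβ hγ) (B3R hα hβ hγ) ξ)
    {a : HH (PT α β γ) →L[ℂ] HH (PT α β γ)}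
    (hV : ∀ g, a * V3 hα hβ hγ g = V3 hα hβ hγ g * a)
    (h2 : ∀ g, a * B3R hα hβ hγ g = B3R hα hβ hγ g * a)
    (hf : ∑' q : ι × Γ, ‖a (A3R hα hβ hγ q.2 (ξ q.1))‖ₑ ^ 2 < ∞) : a = 0 := by
  obtain ⟨m, e, he, hm⟩ := exists_frq₂ hα hβ hγ hΛ
  refine zero_of_mix h.adjV h.adj₂ h.comm₂ he hm hV h2 ?_
  rw [trq_indep h.adj₂ (tri_frq₂ h) he h2]
  exact hf

/-- The same for the first target. -/
theorem model_zeroT₁ [Infinite Γ]
    (hΛ : ∀ s : Λ, s ≠ 1 → Set.Infinite {y : Λ | ∃ h, y = h * s * h⁻¹})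
    {ι : Type} [Fintype ι] {ξ : ι → HH (PT α β γ)}
    (h : Tri (V3 hα hβ hγ) (A3R hα hβ hγ) (B3R hα hβ hγ) ξ)
    {a : HH (PT α β γ) →L[ℂ] HH (PT α β γ)}
    (hV : ∀ g, a * V3 hα hβ hγ g = V3 hα hβ hγ g * a)
    (h1 : ∀ g, a * A3R hα hβ hγ g = A3R hα hβ hγ g * a)
    (hf : ∑' q : ι × Γ, ‖a (B3R hα hβ hγ q.2 (ξ q.1))‖ₑ ^ 2 < ∞) : a = 0 := by
  obtain ⟨m, e, he, hm⟩ := exists_frq₁ hα hβ hγ hΛ
  refine zero_of_mix h.adjV h.adj₁ h.comm₁ he hm hV h1 ?_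
  rw [trq_indep h.adj₁ (tri_frq₁ h) he h1]
  exact hf

end mix

end Vale.Agent.P092.H421.Hs
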