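import Vale.Agent.P092.H962.C.Amp
import Vale.Agent.P092.H421.Hs4
import Vale.Agent.P092.H421.Hs6

/-!
P092 (helper421), [C-AMP]: the field `hs_erg` of `RC.PicF` for the amplified picture over `E/Γ`,
both legs, any family of vectors.
-/

set_option linter.all false

open scoped InnerProductSpace ENNReal
open Set Filter Topology ContinuousLinearMap MeasureTheory

namespace Vale.Agent.P092.H421.HsT

open Vale.Agent.P092.RC Vale.Agent.P092.H333.Amp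

/-! ### Moore property, families -/

section fam

variable {G Γ K ι : Type} [Group G] [TopologicalSpace G] [Group Γ] [NormedAddCommGroup K]
  [InnerProductSpace ℂ K] [CompleteSpace K] [Fintype ι] {π : G →* (K →L[ℂ] K)}
  {lam : Γ →* (K →L[ℂ] K)} {W : Set (K →L[ℂ] K)} {Ω : ι → K}

theorem exists_grp' (ι : Type) [Fintype ι] :
    ∃ (Q : Type) (_ : Group Q) (_ : Fintype Q), Nonempty (ι ↪ Q) :=
  haveI : NeZero (Fintype.card ι + 1) := ⟨by omega⟩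
  ⟨Multiplicative (ZMod (Fintype.card ι + 1)), inferInstance, inferInstance,
    Function.Embedding.nonempty_of_card_le (by rw [Fintype.card_multiplicative, ZMod.card]; omega)⟩

/-- **Decomposable operators of finite trace commuting with `π(S)` commute with `π(G)`**, for a
family of vectors. -/
theorem comm_of_mooreF (WP : ∀ w ∈ W, ∀ g, π g * w * π g⁻¹ ∈ W)
    (tr_conj : ∀ T, Cm W T → ∀ g, TRNF lam Ω (π g * T * π g⁻¹) = TRNF lam Ω T)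
    [ContinuousInv G] (adjP : ∀ g, adjoint (π g) = π g⁻¹)
    (contP : ∀ ξ, Continuous fun g => π g ξ)
    (tr_zero : ∀ T, Cm W T → TRNF lam Ω T = 0 → T = 0) {S : Set G} (hS : Moore S)
    {T : K →L[ℂ] K} (hT : Cm W T) (hf : TRNF lam Ω T < ∞) (hc : ∀ g ∈ S, T * π g = π g * T)
    (g : G) : T * π g = π g * T := by
  obtain ⟨Q, _, _, ⟨j⟩⟩ := exists_grp' ι
  have h1 := Hs.comm_of_moore (π := ampH Q π) (lam := ampH Q lam) (W := ampW Q W)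
    (Ω := ampO j Ω) ?_ ?_ ?_ ?_ ?_ hS (cm_amp hT) (by rw [trn_amp]; exact hf)
    (fun g hg => amp_comm_iff.2 (hc g hg)) g
  · exact amp_comm_iff.1 h1
  · rintro _ (⟨w, hw, rfl⟩ | ⟨f, rfl⟩) g
    · rw [ampH_ap, ampH_ap, ← amp_mul, ← amp_mul]
      exact Or.inl ⟨_, WP w hw g, rfl⟩
    · have h1 : π g * π g⁻¹ = 1 := by rw [← map_mul, mul_inv_cancel, map_one]
      rw [ampH_ap, ampH_ap, amp_sg, mul_assoc, ← amp_mul, h1, amp_one, mul_one]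
      exact Or.inr ⟨_, rfl⟩
  · intro T hT g
    obtain ⟨T', rfl, hT'⟩ := cm_ampW.1 hT
    rw [ampH_ap, ampH_ap, ← amp_mul, ← amp_mul, trn_amp, trn_amp, tr_conj T' hT' g]
  · intro g
    rw [ampH_ap, adjoint_amp, adjP]
    rfl
  · exact fun ξ => cont_amp contP ξ
  · intro T hT h0
    obtain ⟨T', rfl, hT'⟩ := cm_ampW.1 hT
    rw [trn_amp] at h0
    rw [tr_zero T' hT' h0, amp_zero]

end fam

/-! ### A countable basis -/

theorem exists_cbasis (L : Type) [NormedAddCommGroup L] [InnerProductSpace ℂ L]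
    [CompleteSpace L] [TopologicalSpace.SeparableSpace L] :
    ∃ (w : Set L) (b : HilbertBasis w ℂ L), Countable w := by
  obtain ⟨w, b, hb⟩ := exists_hilbertBasis ℂ L
  refine ⟨w, b, ?_⟩
  have ho := b.orthonormal
  refine Pairwise.countable_of_isOpen_disjoint (s := fun i : w => Metric.ball (b i) (1 / 2)) ?_
    (fun i => Metric.isOpen_ball) (fun i => ⟨b i, Metric.mem_ball_self (by norm_num)⟩)
  intro i j hij
  rw [Function.onFun, Set.disjoint_left]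
  intro y h1 h2
  rw [Metric.mem_ball] at h1 h2
  have h3 : ‖b i - b j‖ < 1 := by
    rw [← dist_eq_norm]
    calc dist (b i) (b j) ≤ dist (b i) y + dist y (b j) := dist_triangle _ _ _
      _ = dist y (b i) + dist y (b j) := by rw [dist_comm]
      _ < 1 / 2 + 1 / 2 := add_lt_add h1 h2
      _ = 1 := by norm_num
  have h4 := norm_sub_sq (𝕜 := ℂ) (b i) (b j)
  rw [ho.1, ho.1, ho.2 hij] at h4
  simp only [map_zero, mul_zero, sub_zero] at h4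
  nlinarith [norm_nonneg (b i - b j)]

open Vale.Agent.P092.H160 Vale.Agent.P092.H103 Vale.Agent.P092.H962 in
/-- The range of a projection of `ℓ²` of a countable set has a countable Hilbert basis. -/
theorem exists_basisHH {X : Type} [Countable X] {P : Ell2 X →L[ℂ] Ell2 X} [CompleteSpace (HH P)] :
    ∃ (w : Set (HH P)) (b : HilbertBasis w ℂ (HH P)), Countable w := by
  haveI h1 : TopologicalSpace.SeparableSpace (Ell2 X) :=
    H34.separable_of_basis (HilbertBasis.ofRepr (LinearIsometryEquiv.refl ℂ (Ell2 X)))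
  haveI h2 : SecondCountableTopology (Ell2 X) := UniformSpace.secondCountable_of_separable _
  haveI h3 : SecondCountableTopology (HH P) := inferInstance
  haveI h4 : TopologicalSpace.SeparableSpace (HH P) := inferInstance
  exact exists_cbasis (HH P)

/-! ### The concrete picture -/

section main

open Vale.Agent.P092.H790 Vale.Agent.P092.H85 Vale.Agent.P092.H34 Vale.Agent.P092.H34.Ind
  Vale.Agent.P092.H160 Vale.Agent.P092.SR Vale.Agent.P092.RC Vale.Agent.P092.H103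
  Vale.Agent.P092.H962

variable {E : Type} [Group E] [TopologicalSpace E] [IsTopologicalGroup E] [LocallyCompactSpace E]
  [SecondCountableTopology E] [T2Space E] [MeasurableSpace E] [BorelSpace E]
  {Γ : Subgroup E} [DiscreteTopology Γ] [Countable Γ] [MeasurableSpace (E ⧸ Γ)] [BorelSpace (E ⧸ Γ)]
  {ν : Measure (E ⧸ Γ)} [IsProbabilityMeasure ν] (hν : ∀ g : E, ν.map (fun x => g • x) = ν)

theorem trnF_comp {ℋ : Type} [NormedAddCommGroup ℋ] [InnerProductSpace ℂ ℋ] [CompleteSpace ℋ]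
    {ι : Type} [Fintype ι] (R : Γ →* (ℋ →L[ℂ] ℋ)) (a : ℋ →L[ℂ] ℋ) (ξ : ι → ℋ) (c : ℂ) :
    TRNF (Ind.lam (cdat ν hν) R) (fun i => Lp.const 2 (cdat ν hν).μ (c • ξ i))
      (a.compLpL 2 (cdat ν hν).μ) = ‖c‖ₑ ^ 2 * ∑' q : ι × Γ, ‖a (R q.2 (ξ q.1))‖ₑ ^ 2 := by
  have h1 : ∀ i, TRN (Ind.lam (cdat ν hν) R) (Lp.const 2 (cdat ν hν).μ (c • ξ i))
      (a.compLpL 2 (cdat ν hν).μ) = ‖c‖ₑ ^ 2 * ∑' γ, ‖a (R γ (ξ i))‖ₑ ^ 2 := by
    intro i
    rw [TRN, ← ENNReal.tsum_mul_left]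
    refine tsum_congr fun γ => ?_
    have h1 : Ind.lam (cdat ν hν) R γ (Lp.const 2 (cdat ν hν).μ (c • ξ i)) =
        Lp.const 2 (cdat ν hν).μ (R γ (c • ξ i)) := Hs.comp_const (R γ) (c • ξ i)
    rw [h1, Hs.comp_const, map_smul, map_smul, ← mul_pow, ← enorm_smul]
    congr 1
    exact Hs.enn_congr (Hs.norm_cst _)
  rw [TRNF]
  simp_rw [h1]
  rw [← Finset.mul_sum, ENNReal.tsum_prod', tsum_fintype]

variable {Λ I J K : Type} [Group Λ] [Countable Λ] [Fintype I] [Fintype J] [Fintype K]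
  {α : Γ → (Ell2 (I × Λ) →L[ℂ] Ell2 (I × Λ))} {β : Γ → (Ell2 (J × Λ) →L[ℂ] Ell2 (J × Λ))}
  {γ : Γ → (Ell2 (K × Λ) →L[ℂ] Ell2 (K × Λ))} (hα : AF α) (hβ : AF β) (hγ : AF γ)

theorem comp_zero : (0 : HH (PT α β γ) →L[ℂ] HH (PT α β γ)).compLpL 2 (cdat ν hν).μ = 0 := by
  refine ContinuousLinearMap.ext fun ξ => Lp.ext ?_
  filter_upwards [fld_comp (μ := (cdat ν hν).μ) (0 : HH (PT α β γ) →L[ℂ] HH (PT α β γ)) ξ,
    Lp.coeFn_zero (HH (PT α β γ)) 2 (cdat ν hν).μ] with x h1 h2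
  rw [h1]
  exact h2.symm

/-- Operators of finite trace in the first leg commuting with everything vanish. -/
theorem zero_of_commT₁ [Infinite Γ]
    (hΛ : ∀ s : Λ, s ≠ 1 → Set.Infinite {y : Λ | ∃ h, y = h * s * h⁻¹})
    {ι : Type} [Fintype ι] {ξ : ι → HH (PT α β γ)}
    (h : Tri (V3 hα hβ hγ) (A3R hα hβ hγ) (B3R hα hβ hγ) ξ) {c : ℂ} (hc0 : c ≠ 0)
    {hV : ∀ g, adjoint (V3 hα hβ hγ g) = V3 hα hβ hγ g⁻¹}
    {T : Lp (HH (PT α β γ)) 2 (cdat ν hν).μ →L[ℂ] Lp (HH (PT α β γ)) 2 (cdat ν hν).μ}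
    (hX : Dcm T) (hR : ∀ g, T * Ind.lam (cdat ν hν) (B3R hα hβ hγ) g =
      Ind.lam (cdat ν hν) (B3R hα hβ hγ) g * T)
    (hf : TRNF (Ind.lam (cdat ν hν) (A3R hα hβ hγ))
      (fun i => Lp.const 2 (cdat ν hν).μ (c • ξ i)) T < ∞)
    (hc : ∀ g : E, T * Ind.pi (cdat ν hν) (V := V3 hα hβ hγ) hV g =
      Ind.pi (cdat ν hν) (V := V3 hα hβ hγ) hV g * T) : T = 0 := by
  obtain ⟨w, b, hw⟩ := exists_basisHH (P := PT α β γ)
  obtain ⟨a, rfl, ha⟩ := Hs.const_of_comm hν b hV hX hc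
  rw [trnF_comp] at hf
  have hc1 : ‖c‖ₑ ^ 2 ≠ 0 := pow_ne_zero _ (enorm_ne_zero.2 hc0)
  have hf1 : ∑' q : ι × Γ, ‖a (A3R hα hβ hγ q.2 (ξ q.1))‖ₑ ^ 2 < ∞ := by
    rcases ENNReal.mul_lt_top_iff.1 hf with h | h | h
    · exact h.2
    · exact absurd h hc1
    · rw [h]; exact ENNReal.zero_lt_top
  have h1 : a = 0 := Hs.model_zeroT₂ hα hβ hγ hΛ h ha (fun g => Hs.comm_of_comp (hR g)) hf1
  rw [h1, comp_zero]

/-- The same for the second leg. -/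
theorem zero_of_commT₂ [Infinite Γ]
    (hΛ : ∀ s : Λ, s ≠ 1 → Set.Infinite {y : Λ | ∃ h, y = h * s * h⁻¹})
    {ι : Type} [Fintype ι] {ξ : ι → HH (PT α β γ)}
    (h : Tri (V3 hα hβ hγ) (A3R hα hβ hγ) (B3R hα hβ hγ) ξ) {c : ℂ} (hc0 : c ≠ 0)
    {hV : ∀ g, adjoint (V3 hα hβ hγ g) = V3 hα hβ hγ g⁻¹}
    {T : Lp (HH (PT α β γ)) 2 (cdat ν hν).μ →L[ℂ] Lp (HH (PT α β γ)) 2 (cdat ν hν).μ}
    (hX : Dcm T) (hR : ∀ g, T * Ind.lam (cdat ν hν) (A3R hα hβ hγ) g =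
      Ind.lam (cdat ν hν) (A3R hα hβ hγ) g * T)
    (hf : TRNF (Ind.lam (cdat ν hν) (B3R hα hβ hγ))
      (fun i => Lp.const 2 (cdat ν hν).μ (c • ξ i)) T < ∞)
    (hc : ∀ g : E, T * Ind.pi (cdat ν hν) (V := V3 hα hβ hγ) hV g =
      Ind.pi (cdat ν hν) (V := V3 hα hβ hγ) hV g * T) : T = 0 := by
  obtain ⟨w, b, hw⟩ := exists_basisHH (P := PT α β γ)
  obtain ⟨a, rfl, ha⟩ := Hs.const_of_comm hν b hV hX hc
  rw [trnF_comp] at hf
  have hc1 : ‖c‖ₑ ^ 2 ≠ 0 := pow_ne_zero _ (enorm_ne_zero.2 hc0)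
  have hf1 : ∑' q : ι × Γ, ‖a (B3R hα hβ hγ q.2 (ξ q.1))‖ₑ ^ 2 < ∞ := by
    rcases ENNReal.mul_lt_top_iff.1 hf with h | h | h
    · exact h.2
    · exact absurd h hc1
    · rw [h]; exact ENNReal.zero_lt_top
  have h1 : a = 0 := Hs.model_zeroT₁ hα hβ hγ hΛ h ha (fun g => Hs.comm_of_comp (hR g)) hf1
  rw [h1, comp_zero]

variable {W : Set (Lp (HH (PT α β γ)) 2 (cdat ν hν).μ →L[ℂ] Lp (HH (PT α β γ)) 2 (cdat ν hν).μ)}

/-- **The field `hs_erg` of `RC.PicF`, first leg**, any amplification. -/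
theorem hs_ergF₁ [Infinite Γ]
    (hΛ : ∀ s : Λ, s ≠ 1 → Set.Infinite {y : Λ | ∃ h, y = h * s * h⁻¹})
    {ι : Type} [Fintype ι] {ξ : ι → HH (PT α β γ)}
    (h : Tri (V3 hα hβ hγ) (A3R hα hβ hγ) (B3R hα hβ hγ) ξ) {c : ℂ} (hc0 : c ≠ 0)
    {hV : ∀ g, adjoint (V3 hα hβ hγ g) = V3 hα hβ hγ g⁻¹}
    (hX : ∀ S, MeasurableSet S → H790.ind (cdat ν hν).μ (HH (PT α β γ)) S ∈ W)
    (hR : ∀ g, Ind.lam (cdat ν hν) (B3R hα hβ hγ) g ∈ W)
    (WP : ∀ w ∈ W, ∀ g, Ind.pi (cdat ν hν) (V := V3 hα hβ hγ) hV g * w *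
      Ind.pi (cdat ν hν) (V := V3 hα hβ hγ) hV g⁻¹ ∈ W)
    (contP : ∀ ξ, Continuous fun g => Ind.pi (cdat ν hν) (V := V3 hα hβ hγ) hV g ξ)
    (tr_conj : ∀ T, Cm W T → ∀ g, TRNF (Ind.lam (cdat ν hν) (A3R hα hβ hγ))
      (fun i => Lp.const 2 (cdat ν hν).μ (c • ξ i))
      (Ind.pi (cdat ν hν) (V := V3 hα hβ hγ) hV g * T *
        Ind.pi (cdat ν hν) (V := V3 hα hβ hγ) hV g⁻¹) =
      TRNF (Ind.lam (cdat ν hν) (A3R hα hβ hγ)) (fun i => Lp.const 2 (cdat ν hν).μ (c • ξ i)) T)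
    (tr_zero : ∀ T, Cm W T → TRNF (Ind.lam (cdat ν hν) (A3R hα hβ hγ))
      (fun i => Lp.const 2 (cdat ν hν).μ (c • ξ i)) T = 0 → T = 0) :
    ∀ S : Set E, Moore S → ∀ T, Cm W T → TRNF (Ind.lam (cdat ν hν) (A3R hα hβ hγ))
      (fun i => Lp.const 2 (cdat ν hν).μ (c • ξ i)) T < ∞ →
    (∀ g ∈ S, T * Ind.pi (cdat ν hν) (V := V3 hα hβ hγ) hV g =
      Ind.pi (cdat ν hν) (V := V3 hα hβ hγ) hV g * T) → T = 0 :=
  fun S hS T hT hf hc => zero_of_commT₁ hν hα hβ hγ hΛ h hc0 (fun A hA => hT _ (hX A hA))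
    (fun g => hT _ (hR g)) hf
    (comm_of_mooreF WP tr_conj (adjoint_pi (cdat ν hν) hV) contP tr_zero hS hT hf hc)

/-- **The field `hs_erg` of `RC.PicF`, second leg**, any amplification. -/
theorem hs_ergF₂ [Infinite Γ]
    (hΛ : ∀ s : Λ, s ≠ 1 → Set.Infinite {y : Λ | ∃ h, y = h * s * h⁻¹})
    {ι : Type} [Fintype ι] {ξ : ι → HH (PT α β γ)}
    (h : Tri (V3 hα hβ hγ) (A3R hα hβ hγ) (B3R hα hβ hγ) ξ) {c : ℂ} (hc0 : c ≠ 0)
    {hV : ∀ g, adjoint (V3 hα hβ hγ g) = V3 hα hβ hγ g⁻¹}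
    (hX : ∀ S, MeasurableSet S → H790.ind (cdat ν hν).μ (HH (PT α β γ)) S ∈ W)
    (hR : ∀ g, Ind.lam (cdat ν hν) (A3R hα hβ hγ) g ∈ W)
    (WP : ∀ w ∈ W, ∀ g, Ind.pi (cdat ν hν) (V := V3 hα hβ hγ) hV g * w *
      Ind.pi (cdat ν hν) (V := V3 hα hβ hγ) hV g⁻¹ ∈ W)
    (contP : ∀ ξ, Continuous fun g => Ind.pi (cdat ν hν) (V := V3 hα hβ hγ) hV g ξ)
    (tr_conj : ∀ T, Cm W T → ∀ g, TRNF (Ind.lam (cdat ν hν) (B3R hα hβ hγ))
      (fun i => Lp.const 2 (cdat ν hν).μ (c • ξ i))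
      (Ind.pi (cdat ν hν) (V := V3 hα hβ hγ) hV g * T *
        Ind.pi (cdat ν hν) (V := V3 hα hβ hγ) hV g⁻¹) =
      TRNF (Ind.lam (cdat ν hν) (B3R hα hβ hγ)) (fun i => Lp.const 2 (cdat ν hν).μ (c • ξ i)) T)
    (tr_zero : ∀ T, Cm W T → TRNF (Ind.lam (cdat ν hν) (B3R hα hβ hγ))
      (fun i => Lp.const 2 (cdat ν hν).μ (c • ξ i)) T = 0 → T = 0) :
    ∀ S : Set E, Moore S → ∀ T, Cm W T → TRNF (Ind.lam (cdat ν hν) (B3R hα hβ hγ))
      (fun i => Lp.const 2 (cdat ν hν).μ (c • ξ i)) T < ∞ →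
    (∀ g ∈ S, T * Ind.pi (cdat ν hν) (V := V3 hα hβ hγ) hV g =
      Ind.pi (cdat ν hν) (V := V3 hα hβ hγ) hV g * T) → T = 0 :=
  fun S hS T hT hf hc => zero_of_commT₂ hν hα hβ hγ hΛ h hc0 (fun A hA => hT _ (hX A hA))
    (fun g => hT _ (hR g)) hf
    (comm_of_mooreF WP tr_conj (adjoint_pi (cdat ν hν) hV) contP tr_zero hS hT hf hc)

end main

end Vale.Agent.P092.H421.HsT
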