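import Vale.Agent.P092.H421.GrT6
import Vale.Agent.P092.H421.Hs7
import Vale.Agent.P092.H962.C.Irr
import Vale.Agent.P092.H958.AmpD
import Vale.Agent.P092.H933.GLAll
import Vale.Agent.P092.H725.SizeI

/-!
P092 (helper421), [D-T-SIZE]: polynomial sizes for the picture `L²(E ⧸ Γ; HH(α, β, γ))`, all
amplifications, both legs, any locally compact group `E`; the literal `SD.SIZE` for
`SL_3` of any local field and any homomorphism `q`.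
-/

set_option linter.all false

open scoped InnerProductSpace ENNReal
open Set Filter Topology MeasureTheory ContinuousLinearMap

namespace Vale.Agent.P092.H421.GrT

open Vale.Agent.P092.H160 Vale.Agent.P092.H34 Vale.Agent.P092.H962
open Vale.Agent.P092.H34.Ind (Xset)
open Vale.Agent.P092.H933 Vale.Agent.P092.H725 Vale.Agent.P092.H103 Vale.Agent.P092.H85
open Vale.Agent.P092.SR
open Vale.Agent.P092.SD (MsF SIZE G3 bw nm)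

/-- the first fields of `SD.MsF` -/
theorem MskL.of_msF {Γ K ι : Type} [Group Γ] [NormedAddCommGroup K] [InnerProductSpace ℂ K]
    [CompleteSpace K] [Fintype ι] {lam : Γ →* (K →L[ℂ] K)} {W : Set (K →L[ℂ] K)} {Ω : ι → K}
    {m : Set Γ → (K →L[ℂ] K)} (h : MsF lam W Ω m) : MskL lam W Ω m :=
  ⟨h.adj, h.inf, h.compl, h.cm, h.cov, h.om⟩

section gen

variable {E : Type} [Group E] [TopologicalSpace E] [IsTopologicalGroup E] [LocallyCompactSpace E]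
  [SecondCountableTopology E] [T2Space E] [MeasurableSpace E] [BorelSpace E]
  {Γ : Subgroup E} [DiscreteTopology Γ] [Countable Γ] [MeasurableSpace (E ⧸ Γ)]
  [BorelSpace (E ⧸ Γ)] {ν : Measure (E ⧸ Γ)} [IsProbabilityMeasure ν]
  (hν : ∀ g : E, ν.map (fun x => g • x) = ν)
  {Λ I J K : Type} [Group Λ] [Countable Λ] [Fintype I] [Fintype J] [Fintype K]
  {α : Γ → (Ell2 (I × Λ) →L[ℂ] Ell2 (I × Λ))} {β : Γ → (Ell2 (J × Λ) →L[ℂ] Ell2 (J × Λ))}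
  {γ : Γ → (Ell2 (K × Λ) →L[ℂ] Ell2 (K × Λ))} (hα : AF α) (hβ : AF β) (hγ : AF γ)
  (hΓ : ∀ g : Γ, g ≠ 1 → Set.Infinite {y : Γ | ∃ h, y = h * g * h⁻¹})
  (hΛ : ∀ s : Λ, s ≠ 1 → Set.Infinite {y : Λ | ∃ h, y = h * s * h⁻¹})
  (hV : ∀ g, adjoint (V3 hα hβ hγ g) = V3 hα hβ hγ g⁻¹)
  {ι : Type} [Fintype ι] {ξ : ι → HH (PT α β γ)}

include hΓ hΛ

/-- **Polynomial sizes, first leg, all amplifications.** -/
theorem sz3_HH₁ (h : Tri (V3 hα hβ hγ) (A3R hα hβ hγ) (B3R hα hβ hγ) ξ)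
    {m : Set Γ → (Lp (HH (PT α β γ)) 2 (cdat ν hν).μ →L[ℂ] Lp (HH (PT α β γ)) 2 (cdat ν hν).μ)}
    (hM : MskL (Ind.lam (cdat ν hν) (A3R hα hβ hγ)) (Xset (cdat ν hν) (HH (PT α β γ)) ∪
      Set.range (Ind.lam (cdat ν hν) (B3R hα hβ hγ))) (AmpE.nrm hν ξ) m)
    {B : ℕ → Set Γ} (hB : Flt B) {σ : Γ → ℝ} (hσ : ∀ J γ, γ ∈ B J → σ γ ≤ Real.exp J)
    {a : E} (ha : LeviGap a) (i : ι) :
    SN.SZ3 a (Ind.pi (cdat ν hν) hV) (AmpE.nrm hν ξ i) m σ := by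
  obtain ⟨w, b, hw⟩ := HsT.exists_basisHH (P := PT α β γ)
  haveI : Countable w := hw
  exact sz3_tri hν hV b h (fun A h0 h1 h2 => Vale.Agent.P092.H962.irr_HH hΓ hΛ hα hβ hγ h0 h1 h2) hM hB hσ ha i

/-- **Polynomial sizes, second leg, all amplifications.** -/
theorem sz3_HH₂ (h : Tri (V3 hα hβ hγ) (B3R hα hβ hγ) (A3R hα hβ hγ) ξ)
    {m : Set Γ → (Lp (HH (PT α β γ)) 2 (cdat ν hν).μ →L[ℂ] Lp (HH (PT α β γ)) 2 (cdat ν hν).μ)}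
    (hM : MskL (Ind.lam (cdat ν hν) (B3R hα hβ hγ)) (Xset (cdat ν hν) (HH (PT α β γ)) ∪
      Set.range (Ind.lam (cdat ν hν) (A3R hα hβ hγ))) (AmpE.nrm hν ξ) m)
    {B : ℕ → Set Γ} (hB : Flt B) {σ : Γ → ℝ} (hσ : ∀ J γ, γ ∈ B J → σ γ ≤ Real.exp J)
    {a : E} (ha : LeviGap a) (i : ι) :
    SN.SZ3 a (Ind.pi (cdat ν hν) hV) (AmpE.nrm hν ξ i) m σ := by
  obtain ⟨w, b, hw⟩ := HsT.exists_basisHH (P := PT α β γ)
  haveI : Countable w := hw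
  exact sz3_tri hν hV b h (fun A h0 h1 h2 => Vale.Agent.P092.H962.irr_HH hΓ hΛ hα hβ hγ h0 h2 h1) hM hB hσ ha i

end gen

/-! ### `SL_3` of a local field -/

section sl3

variable {k : Type} [NontriviallyNormedField k] [ProperSpace k] [LocallyCompactSpace (G3 k)]
  [SecondCountableTopology (G3 k)] [MeasurableSpace (G3 k)] [BorelSpace (G3 k)]
  {Γ : Subgroup (G3 k)} [DiscreteTopology Γ] [Countable Γ] [MeasurableSpace (G3 k ⧸ Γ)]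
  [BorelSpace (G3 k ⧸ Γ)] {ν : Measure (G3 k ⧸ Γ)} [IsProbabilityMeasure ν]
  (hν : ∀ g : G3 k, ν.map (fun x => g • x) = ν)
  {Λ I J K : Type} [Group Λ] [Countable Λ] [Fintype I] [Fintype J] [Fintype K]
  {α : Γ → (Ell2 (I × Λ) →L[ℂ] Ell2 (I × Λ))} {β : Γ → (Ell2 (J × Λ) →L[ℂ] Ell2 (J × Λ))}
  {γ : Γ → (Ell2 (K × Λ) →L[ℂ] Ell2 (K × Λ))} (hα : AF α) (hβ : AF β) (hγ : AF γ)
  (hΓ : ∀ g : Γ, g ≠ 1 → Set.Infinite {y : Γ | ∃ h, y = h * g * h⁻¹})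
  (hΛ : ∀ s : Λ, s ≠ 1 → Set.Infinite {y : Λ | ∃ h, y = h * s * h⁻¹})
  (hV : ∀ g, adjoint (V3 hα hβ hγ g) = V3 hα hβ hγ g⁻¹)
  {ι : Type} [Fintype ι] {ξ : ι → HH (PT α β γ)} (hk : LocK k) (w : kˣ)

include hΓ hΛ hk

/-- **`SD.SIZE`, first leg, all amplifications**, any homomorphism `q`. -/
theorem size_HH₁ (h : Tri (V3 hα hβ hγ) (A3R hα hβ hγ) (B3R hα hβ hγ) ξ)
    {m : Set Γ → (Lp (HH (PT α β γ)) 2 (cdat ν hν).μ →L[ℂ] Lp (HH (PT α β γ)) 2 (cdat ν hν).μ)}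
    (hM : MsF (Ind.lam (cdat ν hν) (A3R hα hβ hγ)) (Xset (cdat ν hν) (HH (PT α β γ)) ∪
      Set.range (Ind.lam (cdat ν hν) (B3R hα hβ hγ))) (AmpE.nrm hν ξ) m)
    (q : Γ →* G3 k) (i : ι) :
    SIZE w (Ind.pi (cdat ν hν) hV) (AmpE.nrm hν ξ i) m q :=
  sz3_exp_exp (MskL.of_msF hM) (σ := fun γ => nm (q γ))
    (sz3_HH₁ hν hα hβ hγ hΓ hΛ hV h (MskL.of_msF hM) (flt_DJ q) (fun J γ hγ => by
      by_contra hc
      exact not_DJ (not_le.1 hc) hγ) (leviGap_bw_all hk w) i)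

/-- **`SD.SIZE`, second leg, all amplifications**, any homomorphism `q`. -/
theorem size_HH₂ (h : Tri (V3 hα hβ hγ) (B3R hα hβ hγ) (A3R hα hβ hγ) ξ)
    {m : Set Γ → (Lp (HH (PT α β γ)) 2 (cdat ν hν).μ →L[ℂ] Lp (HH (PT α β γ)) 2 (cdat ν hν).μ)}
    (hM : MsF (Ind.lam (cdat ν hν) (B3R hα hβ hγ)) (Xset (cdat ν hν) (HH (PT α β γ)) ∪
      Set.range (Ind.lam (cdat ν hν) (A3R hα hβ hγ))) (AmpE.nrm hν ξ) m)
    (q : Γ →* G3 k) (i : ι) :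
    SIZE w (Ind.pi (cdat ν hν) hV) (AmpE.nrm hν ξ i) m q :=
  sz3_exp_exp (MskL.of_msF hM) (σ := fun γ => nm (q γ))
    (sz3_HH₂ hν hα hβ hγ hΓ hΛ hV h (MskL.of_msF hM) (flt_DJ q) (fun J γ hγ => by
      by_contra hc
      exact not_DJ (not_le.1 hc) hγ) (leviGap_bw_all hk w) i)

end sl3

end Vale.Agent.P092.H421.GrT
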