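import Vale.Agent.P092.RC.Defs

/-!
P092 (helper421), team C, the field `hs_erg` of `RC.Pic`, abstract half: a decomposable operator of
finite trace which commutes with `π(S)`, `S` with the Moore property, commutes with `π(G)`.
-/

set_option linter.all false

open scoped InnerProductSpace ENNReal
open Filter Topology ContinuousLinearMap MeasureTheory

namespace Vale.Agent.P092.H421.Hs

open Vale.Agent.P092.RC

section clos

variable {G D X : Type} [Group G] [TopologicalSpace G] [AddCommGroup D] [Module ℂ D]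
  [NormedAddCommGroup X] [InnerProductSpace ℂ X] [CompleteSpace X]

/-- the closure of the image of `j` -/
abbrev HH (j : D →ₗ[ℂ] X) : Submodule ℂ X := (LinearMap.range j).topologicalClosure

/-- the map into the closure -/
noncomputable def ee (j : D →ₗ[ℂ] X) : D →ₗ[ℂ] HH j :=
  j.codRestrict _ fun d => Submodule.le_topologicalClosure _ ⟨d, rfl⟩

variable (j : D →ₗ[ℂ] X)

theorem ee_coe (d : D) : ((ee j d : HH j) : X) = j d := rfl

theorem norm_ee (d : D) : ‖ee j d‖ = ‖j d‖ := rfl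

theorem dense_ee : DenseRange (ee j) := by
  intro x
  rw [closure_subtype]
  have e : ((↑) '' Set.range (ee j) : Set X) = (LinearMap.range j : Set X) := by
    ext y
    constructor
    · rintro ⟨_, ⟨d, rfl⟩, rfl⟩
      exact ⟨d, rfl⟩
    · rintro ⟨d, rfl⟩
      exact ⟨_, ⟨d, rfl⟩, rfl⟩
  rw [e, ← Submodule.topologicalClosure_coe]
  exact x.2

variable {j} {a : G →* (D →ₗ[ℂ] D)} (hj : ∀ g d, ‖j (a g d)‖ = ‖j d‖)

include hj in
theorem ext_ee (g : G) (d : D) : ((ee j).comp (a g)).extendOfNorm (ee j) (ee j d) = ee j (a g d) :=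
  LinearMap.extendOfNorm_eq (dense_ee j) ⟨1, fun x => by
    rw [one_mul, LinearMap.comp_apply, norm_ee, norm_ee, hj]⟩ d

/-- The representation on the closure. -/
noncomputable def UU : G →* (HH j →L[ℂ] HH j) where
  toFun g := ((ee j).comp (a g)).extendOfNorm (ee j)
  map_one' := by
    refine ContinuousLinearMap.ext fun x => ?_
    have h := DenseRange.equalizer (dense_ee j)
      (((ee j).comp (a 1)).extendOfNorm (ee j)).continuous continuous_id
      (by
        funext d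
        change ((ee j).comp (a 1)).extendOfNorm (ee j) (ee j d) = ee j d
        rw [ext_ee hj, map_one]
        rfl)
    exact congrFun h x
  map_mul' g g' := by
    refine ContinuousLinearMap.ext fun x => ?_
    have h := DenseRange.equalizer (dense_ee j)
      (((ee j).comp (a (g * g'))).extendOfNorm (ee j)).continuous
      ((((ee j).comp (a g)).extendOfNorm (ee j)).continuous.comp
        (((ee j).comp (a g')).extendOfNorm (ee j)).continuous)
      (by
        funext d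
        change ((ee j).comp (a (g * g'))).extendOfNorm (ee j) (ee j d) =
          ((ee j).comp (a g)).extendOfNorm (ee j) (((ee j).comp (a g')).extendOfNorm (ee j) (ee j d))
        rw [ext_ee hj, ext_ee hj, ext_ee hj, map_mul]
        rfl)
    exact congrFun h x

theorem UU_ee (g : G) (d : D) : UU hj g (ee j d) = ee j (a g d) := ext_ee hj g d

theorem norm_UU (g : G) (x : HH j) : ‖UU hj g x‖ = ‖x‖ := by
  refine isClosed_property (dense_ee j) (p := fun x => ‖UU hj g x‖ = ‖x‖)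
    (isClosed_eq (UU hj g).continuous.norm continuous_norm) (fun d => ?_) x
  rw [UU_ee, norm_ee, norm_ee, hj]

theorem cont_UU (hc : ∀ d, Continuous fun g => j (a g d)) (x : HH j) :
    Continuous fun g => UU hj g x := by
  refine isClosed_property (dense_ee j) (p := fun x => Continuous fun g => UU hj g x) ?_
    (fun d => ?_) x
  · refine isClosed_of_closure_subset fun x hx => ?_
    change Continuous fun g => UU hj g x
    refine continuous_of_uniform_approx_of_continuous fun u hu => ?_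
    obtain ⟨ε, hε, hu'⟩ := Metric.mem_uniformity_dist.1 hu
    obtain ⟨y, hy, hxy⟩ := Metric.mem_closure_iff.1 hx ε hε
    refine ⟨fun g => UU hj g y, hy, fun g => hu' ?_⟩
    rw [dist_eq_norm, ← map_sub, norm_UU, ← dist_eq_norm]
    exact hxy
  · have e : (fun g => UU hj g (ee j d)) = fun g => ee j (a g d) := funext fun g => UU_ee hj g d
    rw [e]
    exact Continuous.subtype_mk (hc d) _

include hj in
/-- Moore property for an algebraic representation with an invariant seminorm. -/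
theorem fixed_of_moore (hc : ∀ d, Continuous fun g => j (a g d)) {S : Set G} (hS : Moore S) {d : D}
    (hd : ∀ s ∈ S, j (a s d) = j d) (g : G) : j (a g d) = j d := by
  have h := hS (HH j) (UU hj) (norm_UU hj) (cont_UU hj hc) (ee j d) (fun s hs => by
    rw [UU_ee]
    exact Subtype.ext (hd s hs)) g
  rw [UU_ee] at h
  exact congrArg Subtype.val h

end clos

section lpc

variable {P Γ K : Type} [TopologicalSpace P] [NormedAddCommGroup K] [InnerProductSpace ℂ K]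

theorem weak_cont {f : P → lp (fun _ : Γ => K) 2} {C : ℝ} (hn : ∀ p, ‖f p‖ ≤ C)
    (hc : ∀ γ, Continuous fun p => (f p : Γ → K) γ) (y : lp (fun _ : Γ => K) 2) :
    Continuous fun p => ⟪y, f p⟫_ℂ := by
  classical
  refine continuous_of_uniform_approx_of_continuous fun u hu => ?_
  obtain ⟨ε, hε, hu'⟩ := Metric.mem_uniformity_dist.1 hu
  have hC : 0 < |C| + 1 := by positivity
  have hs := lp.hasSum_single (E := fun _ : Γ => K) (p := 2) (by norm_num) y
  obtain ⟨F, hF⟩ := ((Metric.tendsto_nhds.1 hs) (ε / (|C| + 1)) (by positivity)).exists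
  refine ⟨fun p => ⟪∑ γ ∈ F, lp.single 2 γ ((y : Γ → K) γ), f p⟫_ℂ, ?_, fun p => hu' ?_⟩
  · have e : (fun p => ⟪∑ γ ∈ F, lp.single 2 γ ((y : Γ → K) γ), f p⟫_ℂ) =
        fun p => ∑ γ ∈ F, ⟪(y : Γ → K) γ, (f p : Γ → K) γ⟫_ℂ := by
      funext p
      rw [sum_inner]
      refine Finset.sum_congr rfl fun γ _ => ?_
      exact lp.inner_single_left γ _ (f p)
    rw [e]
    exact continuous_finset_sum _ fun γ _ => continuous_const.inner (hc γ)
  · rw [dist_eq_norm, ← inner_sub_left]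
    refine (norm_inner_le_norm _ _).trans_lt ?_
    rw [← dist_eq_norm, dist_comm]
    have h1 : ‖f p‖ < |C| + 1 := by
      have := hn p
      have := le_abs_self C
      linarith
    calc dist (∑ γ ∈ F, lp.single 2 γ ((y : Γ → K) γ)) y * ‖f p‖
        ≤ dist (∑ γ ∈ F, lp.single 2 γ ((y : Γ → K) γ)) y * (|C| + 1) :=
          mul_le_mul_of_nonneg_left h1.le dist_nonneg
      _ < ε / (|C| + 1) * (|C| + 1) := mul_lt_mul_of_pos_right hF hC
      _ = ε := div_mul_cancel₀ _ hC.ne'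

/-- A function into `ℓ²(Γ; K)` with constant norm and continuous coordinates is continuous. -/
theorem lp_cont {f : P → lp (fun _ : Γ => K) 2} {C : ℝ} (hn : ∀ p, ‖f p‖ = C)
    (hc : ∀ γ, Continuous fun p => (f p : Γ → K) γ) : Continuous f := by
  rw [continuous_iff_continuousAt]
  intro p₀
  rw [ContinuousAt, tendsto_iff_norm_sub_tendsto_zero]
  have h1 : ∀ p, ‖f p - f p₀‖ = √(2 * C ^ 2 - 2 * (⟪f p₀, f p⟫_ℂ).re) := by
    intro p
    have h2 := norm_sub_sq (𝕜 := ℂ) (f p) (f p₀)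
    have h3 : RCLike.re ⟪f p, f p₀⟫_ℂ = (⟪f p₀, f p⟫_ℂ).re := by
      rw [← inner_conj_symm]
      exact Complex.conj_re _
    rw [h3, hn, hn] at h2
    rw [← Real.sqrt_sq (norm_nonneg (f p - f p₀)), h2]
    congr 1
    ring
  simp_rw [h1]
  have h4 : Continuous fun p => √(2 * C ^ 2 - 2 * (⟪f p₀, f p⟫_ℂ).re) :=
    (continuous_const.sub (continuous_const.mul
      (Complex.continuous_re.comp (weak_cont (fun p => (hn p).le) hc (f p₀))))).sqrt
  have h5 := h4.tendsto p₀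
  have h6 : √(2 * C ^ 2 - 2 * (⟪f p₀, f p₀⟫_ℂ).re) = 0 := by
    rw [← h1 p₀, sub_self, norm_zero]
  rw [h6] at h5
  exact h5

end lpc

section pic

variable {G Γ K : Type} [Group G] [TopologicalSpace G] [Group Γ] [NormedAddCommGroup K]
  [InnerProductSpace ℂ K] [CompleteSpace K] {π : G →* (K →L[ℂ] K)} {lam : Γ →* (K →L[ℂ] K)}
  {W : Set (K →L[ℂ] K)} {Ω : K}

theorem memlp_of_trn {T : K →L[ℂ] K} (h : TRN lam Ω T < ∞) :
    Memℓp (fun γ : Γ => T (lam γ Ω)) 2 := by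
  rw [memℓp_gen_iff (by norm_num)]
  have e : ∀ γ : Γ, ‖T (lam γ Ω)‖ ^ (ENNReal.toReal 2) = (‖T (lam γ Ω)‖ₑ ^ 2).toReal := by
    intro γ
    rw [ENNReal.toReal_pow, toReal_enorm]
    norm_num
  simp_rw [e]
  exact ENNReal.summable_toReal h.ne

theorem norm_lp_sq {T : K →L[ℂ] K} (h : TRN lam Ω T < ∞) :
    ‖(⟨fun γ : Γ => T (lam γ Ω), memlp_of_trn h⟩ : lp (fun _ : Γ => K) 2)‖ ^ 2 =
      (TRN lam Ω T).toReal := by
  have h1 := lp.norm_rpow_eq_tsum (p := 2) (by norm_num)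
    (⟨fun γ : Γ => T (lam γ Ω), memlp_of_trn h⟩ : lp (fun _ : Γ => K) 2)
  have e2 : (ENNReal.toReal 2) = ((2 : ℕ) : ℝ) := by norm_num
  rw [e2, Real.rpow_natCast] at h1
  rw [h1, TRN, ENNReal.tsum_toReal_eq fun γ => ENNReal.pow_ne_top enorm_ne_top]
  refine tsum_congr fun γ => ?_
  rw [Real.rpow_natCast, ENNReal.toReal_pow, toReal_enorm]

theorem TRN_add_lt {S T : K →L[ℂ] K} (hS : TRN lam Ω S < ∞) (hT : TRN lam Ω T < ∞) :
    TRN lam Ω (S + T) < ∞ := by
  have h1 : ∀ γ, ‖(S + T) (lam γ Ω)‖ₑ ^ 2 ≤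
      2 * ‖S (lam γ Ω)‖ₑ ^ 2 + 2 * ‖T (lam γ Ω)‖ₑ ^ 2 := by
    intro γ
    have h2 : ‖(S + T) (lam γ Ω)‖ ^ 2 ≤ 2 * ‖S (lam γ Ω)‖ ^ 2 + 2 * ‖T (lam γ Ω)‖ ^ 2 := by
      have h3 : ‖(S + T) (lam γ Ω)‖ ≤ ‖S (lam γ Ω)‖ + ‖T (lam γ Ω)‖ := norm_add_le _ _
      have h4 : ‖(S + T) (lam γ Ω)‖ ^ 2 ≤ (‖S (lam γ Ω)‖ + ‖T (lam γ Ω)‖) ^ 2 :=
        pow_le_pow_left₀ (norm_nonneg _) h3 2
      nlinarith [sq_nonneg (‖S (lam γ Ω)‖ - ‖T (lam γ Ω)‖)]
    simp only [← ofReal_norm_eq_enorm, ← ENNReal.ofReal_pow (norm_nonneg _)]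
    have e2 : (2 : ℝ≥0∞) = ENNReal.ofReal 2 := by norm_num
    rw [e2, ← ENNReal.ofReal_mul (by norm_num), ← ENNReal.ofReal_mul (by norm_num),
      ← ENNReal.ofReal_add (by positivity) (by positivity)]
    exact ENNReal.ofReal_le_ofReal h2
  refine (ENNReal.tsum_le_tsum h1).trans_lt ?_
  rw [ENNReal.tsum_add, ENNReal.tsum_mul_left, ENNReal.tsum_mul_left]
  exact ENNReal.add_lt_top.2 ⟨ENNReal.mul_lt_top (by norm_num) hS,
    ENNReal.mul_lt_top (by norm_num) hT⟩

theorem TRN_smul_lt (c : ℂ) {T : K →L[ℂ] K} (hT : TRN lam Ω T < ∞) :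
    TRN lam Ω (c • T) < ∞ := by
  have h1 : ∀ γ, ‖(c • T) (lam γ Ω)‖ₑ ^ 2 = ‖c‖ₑ ^ 2 * ‖T (lam γ Ω)‖ₑ ^ 2 := by
    intro γ
    rw [ContinuousLinearMap.smul_apply, enorm_smul, mul_pow]
  rw [TRN]
  simp_rw [h1]
  rw [ENNReal.tsum_mul_left]
  exact ENNReal.mul_lt_top (ENNReal.pow_lt_top enorm_lt_top) hT

/-- The decomposable operators of finite trace. -/
def DD (lam : Γ →* (K →L[ℂ] K)) (W : Set (K →L[ℂ] K)) (Ω : K) : Submodule ℂ (K →L[ℂ] K) where
  carrier := {T | Cm W T ∧ TRN lam Ω T < ∞}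
  zero_mem' := by
    refine ⟨fun w _ => by rw [zero_mul, mul_zero], ?_⟩
    have : TRN lam Ω (0 : K →L[ℂ] K) = 0 := by
      rw [TRN]
      simp
    rw [this]
    exact ENNReal.zero_lt_top
  add_mem' := by
    rintro S T ⟨hS, hS'⟩ ⟨hT, hT'⟩
    exact ⟨fun w hw => by rw [add_mul, mul_add, hS w hw, hT w hw], TRN_add_lt hS' hT'⟩
  smul_mem' := by
    rintro c T ⟨hT, hT'⟩
    exact ⟨fun w hw => by rw [smul_mul_assoc, mul_smul_comm, hT w hw], TRN_smul_lt c hT'⟩

/-- the embedding into `ℓ²(Γ; K)` -/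
noncomputable def jj (lam : Γ →* (K →L[ℂ] K)) (W : Set (K →L[ℂ] K)) (Ω : K) :
    DD lam W Ω →ₗ[ℂ] lp (fun _ : Γ => K) 2 where
  toFun T := ⟨fun γ => T.1 (lam γ Ω), memlp_of_trn T.2.2⟩
  map_add' S T := rfl
  map_smul' c T := rfl

theorem jj_apply (T : DD lam W Ω) (γ : Γ) : (jj lam W Ω T : Γ → K) γ = T.1 (lam γ Ω) := rfl

theorem norm_jj_sq (T : DD lam W Ω) : ‖jj lam W Ω T‖ ^ 2 = (TRN lam Ω T.1).toReal :=
  norm_lp_sq T.2.2

theorem cm_conj (WP : ∀ w ∈ W, ∀ g, π g * w * π g⁻¹ ∈ W) (g : G) {T : K →L[ℂ] K} (hT : Cm W T) :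
    Cm W (π g * T * π g⁻¹) := by
  intro w hw
  have e : ∀ g, π g * π g⁻¹ = 1 := fun g => by rw [← map_mul, mul_inv_cancel, map_one]
  have e' : ∀ g, π g⁻¹ * π g = 1 := fun g => by rw [← map_mul, inv_mul_cancel, map_one]
  have h1 := hT _ (WP w hw g⁻¹)
  rw [inv_inv] at h1
  calc π g * T * π g⁻¹ * w = π g * T * (π g⁻¹ * w * (π g * π g⁻¹)) := by
        rw [e, mul_one]; simp only [mul_assoc]
    _ = π g * (T * (π g⁻¹ * w * π g)) * π g⁻¹ := by simp only [mul_assoc]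
    _ = π g * ((π g⁻¹ * w * π g) * T) * π g⁻¹ := by rw [h1]
    _ = (π g * π g⁻¹) * w * (π g * T * π g⁻¹) := by simp only [mul_assoc]
    _ = w * (π g * T * π g⁻¹) := by rw [e, one_mul]

variable (WP : ∀ w ∈ W, ∀ g, π g * w * π g⁻¹ ∈ W)
  (tr_conj : ∀ T, Cm W T → ∀ g, TRN lam Ω (π g * T * π g⁻¹) = TRN lam Ω T)

/-- the action of `G` by conjugation -/
noncomputable def aa : G →* (DD lam W Ω →ₗ[ℂ] DD lam W Ω) where
  toFun g :=
    { toFun := fun T => ⟨π g * T.1 * π g⁻¹, cm_conj WP g T.2.1, by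
        rw [tr_conj _ T.2.1]; exact T.2.2⟩
      map_add' := fun S T => Subtype.ext (by
        change π g * (S.1 + T.1) * π g⁻¹ = π g * S.1 * π g⁻¹ + π g * T.1 * π g⁻¹
        rw [mul_add, add_mul])
      map_smul' := fun c T => Subtype.ext (by
        change π g * (c • T.1) * π g⁻¹ = c • (π g * T.1 * π g⁻¹)
        rw [mul_smul_comm, smul_mul_assoc]) }
  map_one' := by
    refine LinearMap.ext fun T => Subtype.ext ?_
    change π 1 * T.1 * π 1⁻¹ = T.1
    rw [inv_one, map_one, one_mul, mul_one]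
  map_mul' g h := by
    refine LinearMap.ext fun T => Subtype.ext ?_
    change π (g * h) * T.1 * π (g * h)⁻¹ = π g * (π h * T.1 * π h⁻¹) * π g⁻¹
    rw [map_mul, mul_inv_rev, map_mul]
    simp only [mul_assoc]

theorem aa_coe (g : G) (T : DD lam W Ω) : (aa WP tr_conj g T).1 = π g * T.1 * π g⁻¹ := rfl

theorem norm_aa (g : G) (T : DD lam W Ω) :
    ‖jj lam W Ω (aa WP tr_conj g T)‖ = ‖jj lam W Ω T‖ := by
  have h : ‖jj lam W Ω (aa WP tr_conj g T)‖ ^ 2 = ‖jj lam W Ω T‖ ^ 2 := by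
    rw [norm_jj_sq, norm_jj_sq, aa_coe, tr_conj _ T.2.1]
  exact (pow_left_inj₀ (norm_nonneg _) (norm_nonneg _) two_ne_zero).mp h

theorem cont_aa (contP : ∀ ξ, Continuous fun g => π g ξ) (adjP : ∀ g, adjoint (π g) = π g⁻¹)
    [ContinuousInv G] (T : DD lam W Ω) :
    Continuous fun g => jj lam W Ω (aa WP tr_conj g T) := by
  refine lp_cont (C := ‖jj lam W Ω T‖) (norm_aa WP tr_conj · T) fun γ => ?_
  change Continuous fun g => π g (T.1 (π g⁻¹ (lam γ Ω)))
  have hnorm : ∀ g (ζ : K), ‖π g ζ‖ = ‖ζ‖ := by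
    intro g ζ
    have h1 : ⟪π g ζ, π g ζ⟫_ℂ = ⟪ζ, ζ⟫_ℂ := by
      rw [← adjoint_inner_right, adjP]
      have h2 : π g⁻¹ (π g ζ) = (π g⁻¹ * π g) ζ := rfl
      rw [h2, ← map_mul, inv_mul_cancel, map_one]
      rfl
    rw [inner_self_eq_norm_sq_to_K, inner_self_eq_norm_sq_to_K] at h1
    have h2 : ‖π g ζ‖ ^ 2 = ‖ζ‖ ^ 2 := by exact_mod_cast h1
    exact (pow_left_inj₀ (norm_nonneg _) (norm_nonneg _) two_ne_zero).mp h2
  have hv : Continuous fun g => T.1 (π g⁻¹ (lam γ Ω)) :=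
    T.1.continuous.comp ((contP (lam γ Ω)).comp continuous_inv)
  rw [continuous_iff_continuousAt]
  intro g₀
  have h1 : Tendsto (fun g => π g (T.1 (π g₀⁻¹ (lam γ Ω)))) (𝓝 g₀)
      (𝓝 (π g₀ (T.1 (π g₀⁻¹ (lam γ Ω))))) := (contP _).tendsto g₀
  have h2 : Tendsto (fun g => π g (T.1 (π g⁻¹ (lam γ Ω)) - T.1 (π g₀⁻¹ (lam γ Ω)))) (𝓝 g₀)
      (𝓝 0) := by
    rw [tendsto_zero_iff_norm_tendsto_zero]
    simp_rw [hnorm]
    have := (hv.tendsto g₀).sub_const (T.1 (π g₀⁻¹ (lam γ Ω)))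
    rw [sub_self] at this
    exact tendsto_zero_iff_norm_tendsto_zero.1 this
  have h3 := h1.add h2
  rw [add_zero] at h3
  refine h3.congr fun g => ?_
  rw [map_sub]
  abel

include WP tr_conj in
/-- **Decomposable operators of finite trace commuting with `π(S)` commute with `π(G)`.** -/
theorem comm_of_moore [ContinuousInv G] (adjP : ∀ g, adjoint (π g) = π g⁻¹)
    (contP : ∀ ξ, Continuous fun g => π g ξ)
    (tr_zero : ∀ T, Cm W T → TRN lam Ω T = 0 → T = 0) {S : Set G} (hS : Moore S)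
    {T : K →L[ℂ] K} (hT : Cm W T) (hf : TRN lam Ω T < ∞) (hc : ∀ g ∈ S, T * π g = π g * T) (g : G) :
    T * π g = π g * T := by
  have e : ∀ g, π g * π g⁻¹ = 1 := fun g => by rw [← map_mul, mul_inv_cancel, map_one]
  have e' : ∀ g, π g⁻¹ * π g = 1 := fun g => by rw [← map_mul, inv_mul_cancel, map_one]
  obtain ⟨T', hT'⟩ : ∃ T' : DD lam W Ω, T'.1 = T := ⟨⟨T, hT, hf⟩, rfl⟩
  have h1 := fixed_of_moore (norm_aa WP tr_conj) (cont_aa WP tr_conj contP adjP) hS (d := T')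
    (fun s hs => by
      congr 1
      apply Subtype.ext
      rw [aa_coe, hT', ← hc s hs, mul_assoc, e, mul_one]) g
  have h2 : jj lam W Ω (aa WP tr_conj g T' - T') = 0 := by rw [map_sub, h1, sub_self]
  have h3 : (TRN lam Ω (aa WP tr_conj g T' - T').1).toReal = 0 := by
    rw [← norm_jj_sq, h2, norm_zero]
    norm_num
  have h4 : TRN lam Ω (aa WP tr_conj g T' - T').1 = 0 := by
    rcases (ENNReal.toReal_eq_zero_iff _).1 h3 with h | h
    · exact h
    · exact absurd h (aa WP tr_conj g T' - T').2.2.ne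
  have h5 := tr_zero _ (aa WP tr_conj g T' - T').2.1 h4
  have h6 : π g * T * π g⁻¹ - T = 0 := by
    rw [← hT', ← aa_coe WP tr_conj g T']
    exact h5
  have h7 : π g * T * π g⁻¹ = T := sub_eq_zero.1 h6
  calc T * π g = (π g * T * π g⁻¹) * π g := by rw [h7]
    _ = π g * T * (π g⁻¹ * π g) := by simp only [mul_assoc]
    _ = π g * T := by rw [e', mul_one]

end pic

end Vale.Agent.P092.H421.Hs
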