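import Vale.Agent.P092.H725.SN.Gap
import Vale.Agent.P092.H962.C.Amp
import Vale.Agent.P092.H421.Hs1
import Vale.Agent.P092.H221.Gr2

/-!
P092 (helper421), [D-T-SIZE]: the growth lemma for a family of vectors (abstract part): the growth
data of a family give growth data with one vector after amplification; the gap hypothesis from
`LeviGap`, for every growth datum whose algebra is closed and ergodic.
-/

set_option linter.all false

open scoped InnerProductSpace ENNReal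
open Set Filter Topology ContinuousLinearMap

namespace Vale.Agent.P092.H421.GrT

open Vale.Agent.P092.RC Vale.Agent.P092.H333.Amp Vale.Agent.P092.H221.Gr Vale.Agent.P092.H933
  Vale.Agent.P092.H725

/-! ### The gap -/

section gap

variable {E : Type} [Group E] [TopologicalSpace E] {K : Type} [NormedAddCommGroup K]
  [InnerProductSpace ℂ K] [CompleteSpace K] {π : E →* (K →L[ℂ] K)}
  {M : StarSubalgebra ℂ (K →L[ℂ] K)} {Ω : K} {F : ℕ → Submodule ℂ K}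

/-- `x ↦ x Ω` -/
noncomputable def jM (M : StarSubalgebra ℂ (K →L[ℂ] K)) (Ω : K) :
    Subalgebra.toSubmodule M.toSubalgebra →ₗ[ℂ] K where
  toFun T := T.1 Ω
  map_add' S T := rfl
  map_smul' c T := rfl

theorem jM_apply (T : Subalgebra.toSubmodule M.toSubalgebra) : jM M Ω T = T.1 Ω := rfl

/-- conjugation -/
noncomputable def aM (D : GrD π M Ω F) :
    E →* (Subalgebra.toSubmodule M.toSubalgebra →ₗ[ℂ] Subalgebra.toSubmodule M.toSubalgebra) where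
  toFun g :=
    { toFun := fun T => ⟨π g * T.1 * π g⁻¹, D.Ad g T.1 T.2⟩
      map_add' := fun S T => Subtype.ext (by
        change π g * (S.1 + T.1) * π g⁻¹ = π g * S.1 * π g⁻¹ + π g * T.1 * π g⁻¹
        rw [mul_add, add_mul])
      map_smul' := fun c T => Subtype.ext (by
        change π g * (c • T.1) * π g⁻¹ = c • (π g * T.1 * π g⁻¹)
        rw [mul_smul_comm, smul_mul_assoc]) }
  map_one' := by
    refine LinearMap.ext fun T => Subtype.ext ?_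
    change π 1 * T.1 * π 1⁻¹ = T.1
    rw [inv_one, map_one, one_mul, mul_one]
  map_mul' g h := by
    refine LinearMap.ext fun T => Subtype.ext ?_
    change π (g * h) * T.1 * π (g * h)⁻¹ = π g * (π h * T.1 * π h⁻¹) * π g⁻¹
    rw [map_mul, mul_inv_rev, map_mul]
    simp only [mul_assoc]

theorem aM_coe (D : GrD π M Ω F) (g : E) (T : Subalgebra.toSubmodule M.toSubalgebra) :
    (aM D g T).1 = π g * T.1 * π g⁻¹ := rfl

theorem norm_aM (D : GrD π M Ω F) (g : E) (T : Subalgebra.toSubmodule M.toSubalgebra) :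
    ‖jM M Ω (aM D g T)‖ = ‖jM M Ω T‖ := D.norm_Ad T.2 g

theorem cont_aM [ContinuousInv E] (D : GrD π M Ω F) (contP : ∀ ξ, Continuous fun g => π g ξ)
    (T : Subalgebra.toSubmodule M.toSubalgebra) : Continuous fun g => jM M Ω (aM D g T) := by
  change Continuous fun g => π g (T.1 (π g⁻¹ Ω))
  have hv : Continuous fun g => T.1 (π g⁻¹ Ω) :=
    T.1.continuous.comp ((contP Ω).comp continuous_inv)
  rw [continuous_iff_continuousAt]
  intro g₀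
  have h1 : Tendsto (fun g => π g (T.1 (π g₀⁻¹ Ω))) (𝓝 g₀)
      (𝓝 (π g₀ (T.1 (π g₀⁻¹ Ω)))) := (contP _).tendsto g₀
  have h2 : Tendsto (fun g => π g (T.1 (π g⁻¹ Ω) - T.1 (π g₀⁻¹ Ω))) (𝓝 g₀) (𝓝 0) := by
    rw [tendsto_zero_iff_norm_tendsto_zero]
    simp_rw [D.norm_pi]
    have := (hv.tendsto g₀).sub_const (T.1 (π g₀⁻¹ Ω))
    rw [sub_self] at this
    exact tendsto_zero_iff_norm_tendsto_zero.1 this
  have h3 := h1.add h2
  rw [add_zero] at h3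
  refine h3.congr fun g => ?_
  rw [map_sub]
  abel

section gen

variable {V : Type} [NormedAddCommGroup V] [InnerProductSpace ℂ V] [CompleteSpace V]
  {σ : E →* (V →L[ℂ] V)} {f : Subalgebra.toSubmodule M.toSubalgebra →ₗ[ℂ] V} {val : V →ₗᵢ[ℂ] K}

/-- orthogonality to the fixed vectors -/
theorem orth_gen [ContinuousInv E] (D : GrD π M Ω F) (hU : URep σ) (hf : ∀ T, val (f T) = T.1 Ω)
    (hσ : ∀ g T, σ g (f T) = f (aM D g T))
    (lim : ∀ (T : ℕ → K →L[ℂ] K) (C : ℝ) (ζ : K), (∀ n, T n ∈ M) → (∀ n, ‖T n‖ ≤ C) →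
      Tendsto (fun n => T n Ω) atTop (𝓝 ζ) → ∃ z ∈ M, z Ω = ζ)
    (erg : ∀ z ∈ M, (∀ g, z * π g = π g * z) → ∃ c : ℂ, z = c • (1 : K →L[ℂ] K))
    (sep : ∀ z ∈ M, z Ω = 0 → z = 0) (x o : Subalgebra.toSubmodule M.toSubalgebra)
    (ho : o.1 = 1) {w : V} (hw : w ∈ fixedSub σ) :
    ⟪w, f x - ⟪Ω, x.1 Ω⟫_ℂ • f o⟫_ℂ = 0 := by
  have eeo : val (f o) = Ω := by rw [hf, ho]; rfl
  have hfix1 : ∀ g, σ g (f o) = f o := by
    intro g
    rw [hσ]
    congr 1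
    apply Subtype.ext
    rw [aM_coe, ho, mul_one, D.pi_mul_inv]
  obtain ⟨S, hS⟩ : ∃ S : Set V, S = {y |
      ∃ T : Subalgebra.toSubmodule M.toSubalgebra, ‖T.1‖ ≤ ‖x.1‖ ∧
      (∀ w ∈ fixedSub σ, ⟪w, f T⟫_ℂ = ⟪w, f x⟫_ℂ) ∧ f T = y} := ⟨_, rfl⟩
  have hne : S.Nonempty := ⟨f x, by
    rw [hS]
    exact ⟨x, le_rfl, fun w _ => rfl, rfl⟩⟩
  have hconv : ∀ x ∈ S, ∀ y ∈ S, ∀ s t : ℝ, 0 ≤ s → 0 ≤ t → s + t = 1 →
      (s : ℂ) • x + (t : ℂ) • y ∈ S := by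
    rw [hS]
    rintro _ ⟨T, hT1, hT2, rfl⟩ _ ⟨T', hT1', hT2', rfl⟩ s t hs ht hst
    refine ⟨(s : ℂ) • T + (t : ℂ) • T', ?_, fun w hw => ?_, ?_⟩
    · change ‖(s : ℂ) • T.1 + (t : ℂ) • T'.1‖ ≤ ‖x.1‖
      refine (norm_add_le _ _).trans ?_
      rw [norm_smul, norm_smul, Complex.norm_real, Complex.norm_real, Real.norm_of_nonneg hs,
        Real.norm_of_nonneg ht]
      calc s * ‖T.1‖ + t * ‖T'.1‖ ≤ s * ‖x.1‖ + t * ‖x.1‖ := by gcongr
        _ = ‖x.1‖ := by rw [← add_mul, hst, one_mul]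
    · rw [map_add, map_smul, map_smul, inner_add_right, inner_smul_right, inner_smul_right,
        hT2 w hw, hT2' w hw, ← add_mul, ← Complex.ofReal_add, hst, Complex.ofReal_one, one_mul]
    · rw [map_add, map_smul, map_smul]
  have hinv : ∀ g, ∀ y ∈ S, σ g y ∈ S := by
    rw [hS]
    rintro g _ ⟨T, hT1, hT2, rfl⟩
    refine ⟨aM D g T, (D.norm_Ad_le g T.1).trans hT1, fun w hw => ?_, (hσ g T).symm⟩
    rw [← hT2 w hw, ← hσ]
    have hw1 : σ g w = w := hw g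
    conv_lhs => rw [← hw1]
    exact hU.inner_map g w _
  obtain ⟨ζ, hζ, hζf⟩ := SN.exists_fixed_min hU.iso hne hconv hinv
  obtain ⟨z₀, hz₀, hz₀l⟩ := mem_closure_iff_seq_limit.1 hζ
  have hz₀' : ∀ n, ∃ T : Subalgebra.toSubmodule M.toSubalgebra, ‖T.1‖ ≤ ‖x.1‖ ∧
      (∀ w ∈ fixedSub σ, ⟪w, f T⟫_ℂ = ⟪w, f x⟫_ℂ) ∧ f T = z₀ n := by
    intro n
    have := hz₀ n
    rwa [hS] at this
  choose T hT1 hT2 hT3 using hz₀'
  have hlim : Tendsto (fun n => (T n).1 Ω) atTop (𝓝 (val ζ)) := by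
    have h1 := (val.continuous.tendsto ζ).comp hz₀l
    refine h1.congr fun n => ?_
    change val (z₀ n) = _
    rw [← hT3 n, hf]
  obtain ⟨z, hz, hzΩ⟩ := lim (fun n => (T n).1) ‖x.1‖ (val ζ) (fun n => (T n).2) hT1 hlim
  have hζz : ζ = f ⟨z, hz⟩ := val.injective (by rw [hf, hzΩ])
  have hzc : ∀ g, π g * z * π g⁻¹ = z := by
    intro g
    have h1 := hζf g
    rw [hζz, hσ] at h1
    have h2 : (π g * z * π g⁻¹) Ω = z Ω := by
      have h4 := congrArg val h1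
      rw [hf, hf] at h4
      exact h4
    have h3 := sep (π g * z * π g⁻¹ - z) (sub_mem (D.Ad g z hz) hz) (by
      rw [sub_apply, h2, sub_self])
    exact sub_eq_zero.1 h3
  obtain ⟨c, hc⟩ := erg z hz fun g => by
    calc z * π g = (π g * z * π g⁻¹) * π g := by rw [hzc]
      _ = π g * z := by rw [mul_assoc, D.pi_inv_mul, mul_one]
  have hζc : ζ = c • f o := by
    apply val.injective
    rw [hζz, hf, map_smul, eeo]
    change z Ω = c • Ω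
    rw [hc]
    rfl
  have hlw : ∀ w ∈ fixedSub σ, ⟪w, ζ⟫_ℂ = ⟪w, f x⟫_ℂ := by
    intro w hw
    have h1 : Tendsto (fun n => ⟪w, z₀ n⟫_ℂ) atTop (𝓝 ⟪w, ζ⟫_ℂ) :=
      tendsto_const_nhds.inner hz₀l
    refine tendsto_nhds_unique h1 ?_
    have e : (fun n => ⟪w, z₀ n⟫_ℂ) = fun _ => ⟪w, f x⟫_ℂ := by
      funext n
      rw [← hT3 n, hT2 n w hw]
    rw [e]
    exact tendsto_const_nhds
  have hcv : c = ⟪Ω, x.1 Ω⟫_ℂ := by
    have h1 := hlw (f o) hfix1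
    rw [hζc, inner_smul_right, ← val.inner_map_map, ← val.inner_map_map, eeo, hf,
      inner_self_eq_norm_sq_to_K, D.one] at h1
    simp only [RCLike.ofReal_one, one_pow, mul_one] at h1
    exact h1
  rw [← hcv, ← hζc, inner_sub_right, hlw w hw, sub_self]

theorem gap_gen [ContinuousInv E] (D : GrD π M Ω F) (hU : URep σ) (hf : ∀ T, val (f T) = T.1 Ω)
    (hσ : ∀ g T, σ g (f T) = f (aM D g T))
    (lim : ∀ (T : ℕ → K →L[ℂ] K) (C : ℝ) (ζ : K), (∀ n, T n ∈ M) → (∀ n, ‖T n‖ ≤ C) →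
      Tendsto (fun n => T n Ω) atTop (𝓝 ζ) → ∃ z ∈ M, z Ω = ζ)
    (erg : ∀ z ∈ M, (∀ g, z * π g = π g * z) → ∃ c : ℂ, z = c • (1 : K →L[ℂ] K))
    (sep : ∀ z ∈ M, z Ω = 0 → z = 0) {a : E} (ha : LeviGap a) : Gap π M Ω a := by
  intro η hη
  obtain ⟨p, hp, l, hl, hl'⟩ := ha V σ hU (η / 2) (by positivity)
  refine ⟨p, hp, l, hl, fun x hx hx1 => ?_⟩
  obtain ⟨x', hx'⟩ : ∃ x' : Subalgebra.toSubmodule M.toSubalgebra, x'.1 = x := ⟨⟨x, hx⟩, rfl⟩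
  obtain ⟨o, ho⟩ : ∃ o : Subalgebra.toSubmodule M.toSubalgebra, o.1 = 1 :=
    ⟨⟨1, one_mem M⟩, rfl⟩
  obtain ⟨τ, hτ⟩ : ∃ τ : ℂ, τ = ⟪Ω, x Ω⟫_ℂ := ⟨_, rfl⟩
  have eeo : val (f o) = Ω := by rw [hf, ho]; rfl
  have hfix1 : ∀ g, σ g (f o) = f o := by
    intro g
    rw [hσ]
    congr 1
    apply Subtype.ext
    rw [aM_coe, ho, mul_one, D.pi_mul_inv]
  have key : ∀ w ∈ fixedSub σ, ⟪w, f x' - τ • f o⟫_ℂ = 0 := by
    intro w hw
    have := orth_gen D hU hf hσ lim erg sep x' o ho hw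
    rwa [hx', ← hτ] at this
  have h1 := hl' _ key
  have hxΩ : ‖x Ω‖ ≤ 1 := by
    refine (x.le_opNorm _).trans ?_
    rw [D.one, mul_one]; exact hx1
  have hcoe : val (f x' - τ • f o) = x Ω - τ • Ω := by
    rw [map_sub, map_smul, eeo, hf, hx']
  have h2 : ‖f x' - τ • f o‖ ≤ 2 := by
    rw [← val.norm_map, hcoe]
    refine (norm_sub_le _ _).trans ?_
    rw [norm_smul, D.one, mul_one, hτ]
    have h3 : ‖⟪Ω, x Ω⟫_ℂ‖ ≤ 1 := by
      refine (norm_inner_le_norm _ _).trans ?_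
      rw [D.one, one_mul]; exact hxΩ
    linarith
  have hp' : (p : ℂ) ≠ 0 := by exact_mod_cast hp.ne'
  have e1 : ∀ i, val (σ (l i) (f x' - τ • f o)) = (π (l i) * x * π (l i)⁻¹) Ω - τ • Ω := by
    intro i
    rw [map_sub, map_smul, hfix1, hσ, map_sub, map_smul, eeo, hf, aM_coe, hx']
  have e : (((p : ℂ)⁻¹) • ∑ i, π (l i) * x * π (l i)⁻¹) Ω - ⟪Ω, x Ω⟫_ℂ • Ω =
      val ((((p : ℂ))⁻¹ • ∑ i, σ (l i) (f x' - τ • f o))) := by
    rw [map_smul, map_sum]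
    simp only [e1]
    rw [Finset.sum_sub_distrib, smul_sub, Finset.sum_const, Finset.card_univ, Fintype.card_fin,
      ← Nat.cast_smul_eq_nsmul ℂ, smul_smul (((p : ℕ) : ℂ)⁻¹) ((p : ℕ) : ℂ), inv_mul_cancel₀ hp',
      one_smul, smul_apply, sum_apply, hτ]
  rw [e, val.norm_map]
  calc _ ≤ η / 2 * ‖f x' - τ • f o‖ := h1
    _ ≤ η / 2 * 2 := by gcongr
    _ = η := by ring

end gen

/-- **The gap hypothesis of the growth lemma** for every growth datum whose algebra is closed under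
bounded limits and ergodic. -/
theorem gap_abs [ContinuousInv E] (D : GrD π M Ω F) (contP : ∀ ξ, Continuous fun g => π g ξ)
    (lim : ∀ (T : ℕ → K →L[ℂ] K) (C : ℝ) (ζ : K), (∀ n, T n ∈ M) → (∀ n, ‖T n‖ ≤ C) →
      Tendsto (fun n => T n Ω) atTop (𝓝 ζ) → ∃ z ∈ M, z Ω = ζ)
    (erg : ∀ z ∈ M, (∀ g, z * π g = π g * z) → ∃ c : ℂ, z = c • (1 : K →L[ℂ] K))
    (sep : ∀ z ∈ M, z Ω = 0 → z = 0) {a : E} (ha : LeviGap a) : Gap π M Ω a := by
  have hj := norm_aM D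
  have hU : URep (Hs.UU hj) :=
    { iso := Hs.norm_UU hj
      cont := fun ξ => by
        have h1 := (Hs.cont_UU hj (cont_aM D contP) ξ).tendsto 1
        have h2 : Hs.UU hj 1 ξ = ξ := by rw [map_one]; rfl
        rwa [h2] at h1 }
  exact gap_gen (val := Submodule.subtypeₗᵢ _) (f := Hs.ee (jM M Ω)) D hU (fun T => rfl)
    (fun g T => Hs.UU_ee hj g T) lim erg sep ha

end gap

/-! ### Families -/

section fam

variable {H : Type} [Group H] {K ι : Type} [NormedAddCommGroup K]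
  [InnerProductSpace ℂ K] [CompleteSpace K] [Fintype ι]

/-- Growth data of a family of vectors. -/
structure GrF (π : H →* (K →L[ℂ] K)) (M : StarSubalgebra ℂ (K →L[ℂ] K)) (Ω : ι → K)
    (F : ℕ → Submodule ℂ K) : Prop where
  adj : ∀ h, adjoint (π h) = π h⁻¹
  Ad : ∀ h, ∀ x ∈ M, π h * x * π h⁻¹ ∈ M
  one : ∑ i, ‖Ω i‖ ^ 2 = 1
  tr : ∀ x ∈ M, ∑ i, ‖(star x) (Ω i)‖ ^ 2 = ∑ i, ‖x (Ω i)‖ ^ 2
  un : ∀ h, ∃ u ∈ M, star u * u = 1 ∧ u * star u = 1 ∧ ∀ i, u (Ω i) = π h (Ω i)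
  mono : Monotone F
  sh : ∀ h, ∀ Z ∈ M, ∀ z' ∈ M, ∀ J J', (∀ i, Z (π h (Ω i)) ∈ F J) → (∀ i, z' (Ω i) ∈ F J') →
    ∀ i, Z (π h (z' (Ω i))) ∈ F (J + J')
  st : ∀ z ∈ M, ∀ J, (∀ i, z (Ω i) ∈ F J) → ∀ i, (star z) (Ω i) ∈ F J

variable {Q : Type} [Group Q] [Fintype Q]

/-- the vectors with all coordinates of size `J` -/
def FA (Q : Type) [Group Q] [Fintype Q] (F : ℕ → Submodule ℂ K) (J : ℕ) :
    Submodule ℂ (KT Q K) where
  carrier := {v | ∀ q, v q ∈ F J}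
  add_mem' ha hb q := (F J).add_mem (ha q) (hb q)
  zero_mem' q := (F J).zero_mem
  smul_mem' c a ha q := (F J).smul_mem c (ha q)

theorem amp_ampO (j : ι ↪ Q) (T : K →L[ℂ] K) (Ω : ι → K) :
    amp T (ampO j Ω) = ampO j fun i => T (Ω i) := by
  rw [ampO, ampO, map_sum]
  exact Finset.sum_congr rfl fun i _ => amp_em T (j i) (Ω i)

theorem ampO_mem {F : ℕ → Submodule ℂ K} {J : ℕ} (j : ι ↪ Q) {v : ι → K} :
    ampO j v ∈ FA Q F J ↔ ∀ i, v i ∈ F J := by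
  constructor
  · intro h i
    have h1 := h (j i)
    rwa [ampO_ap] at h1
  · intro h q
    by_cases hq : ∃ i, j i = q
    · obtain ⟨i, rfl⟩ := hq
      rw [ampO_ap]
      exact h i
    · have h1 : ampO j v q = 0 := ampO_ne j v fun i hi => hq ⟨i, hi⟩
      change ampO j v q ∈ F J
      rw [h1]
      exact (F J).zero_mem

variable {π : H →* (K →L[ℂ] K)} {M : StarSubalgebra ℂ (K →L[ℂ] K)} {Ω : ι → K}
  {F : ℕ → Submodule ℂ K}

theorem mem_ampM {x : KT Q K →L[ℂ] KT Q K} : x ∈ M.map (ampS Q K) ↔ ∃ T ∈ M, amp T = x := by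
  rw [StarSubalgebra.mem_map]
  rfl

/-- **Growth data after amplification.** -/
theorem GrF.toGrD (D : GrF π M Ω F) (j : ι ↪ Q) :
    GrD (ampH Q π) (M.map (ampS Q K)) (ampO j Ω) (FA Q F) := by
  have hstar : ∀ T : K →L[ℂ] K, star (amp (Q := Q) T) = amp (star T) := fun T => by
    rw [star_eq_adjoint, star_eq_adjoint, adjoint_amp]
  have hn : ∀ T : K →L[ℂ] K, ‖amp T (ampO j Ω)‖ ^ 2 = ∑ i, ‖T (Ω i)‖ ^ 2 := fun T => by
    rw [amp_ampO, norm_ampO]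
  have htr : ∀ x ∈ M.map (ampS Q K), ∀ y ∈ M.map (ampS Q K),
      ⟪ampO j Ω, (x * y) (ampO j Ω)⟫_ℂ = ⟪ampO j Ω, (y * x) (ampO j Ω)⟫_ℂ := by
    intro x hx y hy
    refine tr_of_norm (M.map (ampS Q K)) (ampO j Ω) (fun x hx => ?_) hx hy
    obtain ⟨T, hT, rfl⟩ := mem_ampM.1 hx
    rw [hstar]
    refine (pow_left_inj₀ (norm_nonneg _) (norm_nonneg _) two_ne_zero).mp ?_
    rw [hn, hn, D.tr T hT]
  have hun : ∀ h, ∃ u ∈ M.map (ampS Q K), star u * u = 1 ∧ u * star u = 1 ∧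
      u (ampO j Ω) = ampH Q π h (ampO j Ω) := by
    intro h
    obtain ⟨u, hu, h1, h2, h3⟩ := D.un h
    refine ⟨amp u, mem_ampM.2 ⟨u, hu, rfl⟩, ?_, ?_, ?_⟩
    · rw [hstar, ← amp_mul, h1, amp_one]
    · rw [hstar, ← amp_mul, h2, amp_one]
    · rw [ampH_ap, amp_ampO, amp_ampO]
      simp only [h3]
  refine
    { adj := fun h => by rw [ampH_ap, adjoint_amp, D.adj]; rfl
      Ad := ?_
      one := ?_
      tr := htr
      inv := ?_
      un := hun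
      mono := fun J J' hJ v hv q => D.mono hJ (hv q)
      sh := ?_
      st := ?_ }
  · intro h x hx
    obtain ⟨T, hT, rfl⟩ := mem_ampM.1 hx
    rw [ampH_ap, ampH_ap, ← amp_mul, ← amp_mul]
    exact mem_ampM.2 ⟨_, D.Ad h T hT, rfl⟩
  · have h1 := norm_ampO j Ω
    rw [D.one] at h1
    exact (pow_eq_one_iff_of_nonneg (norm_nonneg _) two_ne_zero).1 h1
  · intro h x hx
    obtain ⟨u, hu, h1, h2, h3⟩ := hun h⁻¹
    have e1 : ⟪ampO j Ω, (ampH Q π h * x * ampH Q π h⁻¹) (ampO j Ω)⟫_ℂ =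
        ⟪ampO j Ω, (star u * (x * u)) (ampO j Ω)⟫_ℂ := by
      have a1 : (ampH Q π h * x * ampH Q π h⁻¹) (ampO j Ω) =
          ampH Q π h (x (ampH Q π h⁻¹ (ampO j Ω))) := rfl
      have a2 : (star u * (x * u)) (ampO j Ω) = (star u) (x (u (ampO j Ω))) := rfl
      have a3 : adjoint (ampH Q π h) = ampH Q π h⁻¹ := by
        rw [ampH_ap, adjoint_amp, D.adj]; rfl
      rw [a1, a2, ← adjoint_inner_left, a3, star_eq_adjoint, adjoint_inner_right, h3]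
    rw [e1, htr _ (star_mem hu) _ (mul_mem hx hu), mul_assoc, h2, mul_one]
  · intro h Z₀ hZ₀ z₀ hz₀ J J' h1 h2
    obtain ⟨Z, hZ, rfl⟩ := mem_ampM.1 hZ₀
    obtain ⟨z', hz', rfl⟩ := mem_ampM.1 hz₀
    rw [ampH_ap, amp_ampO, amp_ampO, ampO_mem] at h1
    rw [amp_ampO, ampO_mem] at h2
    rw [ampH_ap, amp_ampO, amp_ampO, amp_ampO, ampO_mem]
    exact D.sh h Z hZ z' hz' J J' h1 h2
  · intro z₀ hz₀ J h1
    obtain ⟨z, hz, rfl⟩ := mem_ampM.1 hz₀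
    rw [amp_ampO, ampO_mem] at h1
    rw [hstar, amp_ampO, ampO_mem]
    exact D.st z hz J h1

/-- **Growth for a family of vectors**: the hypotheses `gap` and `kap` are those of the
amplification. -/
theorem GrF.growth (D : GrF π M Ω F) (j : ι ↪ Q) {a : H}
    (gap : Gap (ampH Q π) (M.map (ampS Q K)) (ampO j Ω) a)
    (kap : ∀ h : H, ∀ ε : ℝ, 0 < ε → ∃ J, ∃ Z ∈ M, ‖Z‖ ≤ 1 ∧ (∀ i, Z (π h (Ω i)) ∈ F J) ∧
      ∑ i, ‖(Z - 1) (Ω i)‖ ^ 2 ≤ ε ^ 2) {ε : ℝ} (hε : 0 < ε) :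
    ∃ C : ℕ, ∀ n : ℕ, 1 ≤ n → ∀ i, ∃ v ∈ F (C * n ^ 3), ‖π (a ^ n) (Ω i) - v‖ ≤ ε := by
  obtain ⟨C, hC⟩ := (D.toGrD j).growth_vec_all (a := a) gap (fun h ε hε => by
    obtain ⟨J, Z, hZ, hZ1, hZ2, hZ3⟩ := kap h ε hε
    refine ⟨J, amp Z, ⟨mem_ampM.2 ⟨Z, hZ, rfl⟩, by rw [norm_amp]; exact hZ1, ?_⟩, ?_⟩
    · rw [ampH_ap, amp_ampO, amp_ampO, ampO_mem]
      exact hZ2
    · have e1 : (amp (Q := Q) Z - 1) (ampO j Ω) = amp (Z - 1) (ampO j Ω) := by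
        rw [amp_sub, amp_one]
      rw [e1]
      refine le_of_pow_le_pow_left₀ two_ne_zero hε.le ?_
      rw [amp_ampO, norm_ampO]
      exact hZ3) hε
  refine ⟨C, fun n hn i => ?_⟩
  obtain ⟨v, hv, hv1⟩ := hC n hn
  refine ⟨v (j i), hv (j i), ?_⟩
  have e1 : π (a ^ n) (Ω i) - v (j i) = co (j i) (ampH Q π (a ^ n) (ampO j Ω) - v) := by
    rw [map_sub, co_apply, co_apply, ampH_ap, amp_ampO, ampO_ap]
  rw [e1]
  refine le_trans ?_ hv1
  exact PiLp.norm_apply_le (ampH Q π (a ^ n) (ampO j Ω) - v) (j i)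

end fam

end Vale.Agent.P092.H421.GrT
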