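import Vale.Agent.P092.H421.GrT1

/-!
P092 (helper421), [D-T-SIZE]: positions.  A total family `w p (Ω i)` with positions `pr p` in a
group; vectors whose positions are in a ball; growth data of a family of vectors.
-/

set_option linter.all false

open scoped InnerProductSpace ENNReal
open Set Filter Topology ContinuousLinearMap

namespace Vale.Agent.P092.H421.GrT

open Vale.Agent.P092.H221.Gr Vale.Agent.P092.H933 Vale.Agent.P092.H725

theorem exists_grp (ι : Type) [Fintype ι] :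
    ∃ (Q : Type) (_ : Group Q) (_ : Fintype Q), Nonempty (ι ↪ Q) := by
  refine ⟨Multiplicative (ZMod (Fintype.card ι + 1)), inferInstance, inferInstance, ?_⟩
  refine Function.Embedding.nonempty_of_card_le ?_
  rw [Fintype.card_multiplicative, ZMod.card]
  exact Nat.le_succ _

section pos

variable {P G H : Type} [Group G] [Group H] {K ι : Type} [NormedAddCommGroup K]
  [InnerProductSpace ℂ K] [CompleteSpace K]

/-- Operators `w p` with positions `pr p`, and vectors `Ω i` of position one. -/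
structure Pos (w : P → (K →L[ℂ] K)) (pr : P → G) (Ω : ι → K) : Prop where
  tot : ∀ v : K, (∀ p i, ⟪w p (Ω i), v⟫_ℂ = 0) → v = 0
  hon : ∀ p p' i i', pr p ≠ pr p' → ⟪w p (Ω i), w p' (Ω i')⟫_ℂ = 0
  mul : ∀ p p', ∃ p'', w p * w p' = w p'' ∧ pr p'' = pr p * pr p'
  adj : ∀ p, ∃ p', adjoint (w p) = w p' ∧ pr p' = (pr p)⁻¹

variable {w : P → (K →L[ℂ] K)} {pr : P → G} {Ω : ι → K}

/-- the vectors with all positions in `S` -/
def FP (w : P → (K →L[ℂ] K)) (pr : P → G) (Ω : ι → K) (S : Set G) : Submodule ℂ K where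
  carrier := {v | ∀ p, pr p ∉ S → ∀ i, ⟪w p (Ω i), v⟫_ℂ = 0}
  add_mem' {a b} ha hb p hp i := by
    rw [inner_add_right, ha p hp i, hb p hp i, add_zero]
  zero_mem' p hp i := inner_zero_right _
  smul_mem' c a ha p hp i := by
    rw [inner_smul_right, ha p hp i, mul_zero]

theorem mem_FP {S : Set G} {v : K} :
    v ∈ FP w pr Ω S ↔ ∀ p, pr p ∉ S → ∀ i, ⟪w p (Ω i), v⟫_ℂ = 0 := Iff.rfl

theorem FP_mono {S T : Set G} (h : S ⊆ T) : FP w pr Ω S ≤ FP w pr Ω T :=
  fun _ hv p hp i => hv p (fun h1 => hp (h h1)) i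

theorem isClosed_FP (S : Set G) : IsClosed (FP w pr Ω S : Set K) := by
  have e : (FP w pr Ω S : Set K) = ⋂ (p : P) (_ : pr p ∉ S) (i : ι),
      {v | ⟪w p (Ω i), v⟫_ℂ = 0} := by
    ext v
    simp only [Set.mem_iInter, Set.mem_setOf_eq, SetLike.mem_coe, mem_FP]
  rw [e]
  refine isClosed_iInter fun p => isClosed_iInter fun _ => isClosed_iInter fun i => ?_
  exact isClosed_eq (innerSL ℂ (w p (Ω i))).continuous continuous_const

/-- **The vectors with positions in `S` are in the closed span of the generators of positions in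
`S`.** -/
theorem Pos.mem_of (h : Pos w pr Ω) {S : Set G} (N : Submodule ℂ K)
    (hN : IsClosed (N : Set K)) (hg : ∀ p, pr p ∈ S → ∀ i, w p (Ω i) ∈ N) {v : K}
    (hv : v ∈ FP w pr Ω S) : v ∈ N := by
  obtain ⟨C, hC⟩ : ∃ C : Submodule ℂ K, C = (Submodule.span ℂ
      {η | ∃ p, pr p ∈ S ∧ ∃ i, η = w p (Ω i)}).topologicalClosure := ⟨_, rfl⟩
  have hCc : IsClosed (C : Set K) := by
    rw [hC]; exact Submodule.isClosed_topologicalClosure _
  haveI : CompleteSpace C := hCc.completeSpace_coe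
  have hCF : C ≤ FP w pr Ω S := by
    rw [hC]
    refine Submodule.topologicalClosure_minimal _ ?_ (isClosed_FP S)
    rw [Submodule.span_le]
    rintro _ ⟨p, hp, i, rfl⟩ p' hp' i'
    exact h.hon p' p i' i fun e => hp' (by rw [e]; exact hp)
  have hCN : C ≤ N := by
    rw [hC]
    refine Submodule.topologicalClosure_minimal _ ?_ hN
    rw [Submodule.span_le]
    rintro _ ⟨p, hp, i, rfl⟩
    exact hg p hp i
  obtain ⟨v₁, hv₁⟩ : ∃ v₁ : K, v₁ = C.starProjection v := ⟨_, rfl⟩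
  have h1 : v₁ ∈ C := by rw [hv₁]; exact Submodule.starProjection_apply_mem C v
  have h2 : ∀ u ∈ C, ⟪u, v - v₁⟫_ℂ = 0 := by
    intro u hu
    have := Submodule.sub_starProjection_mem_orthogonal (K := C) v
    rw [← hv₁] at this
    exact (Submodule.mem_orthogonal C _).1 this u hu
  have h3 : v - v₁ = 0 := by
    refine h.tot _ fun p i => ?_
    by_cases hp : pr p ∈ S
    · refine h2 _ ?_
      rw [hC]
      exact Submodule.le_topologicalClosure _ (Submodule.subset_span ⟨p, hp, i, rfl⟩)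
    · exact ((FP w pr Ω S).sub_mem hv (hCF h1)) p hp i
  rw [sub_eq_zero.1 h3]
  exact hCN h1

theorem Pos.mem_all (h : Pos w pr Ω) (N : Submodule ℂ K) (hN : IsClosed (N : Set K))
    (hg : ∀ p i, w p (Ω i) ∈ N) (v : K) : v ∈ N :=
  h.mem_of (S := univ) N hN (fun p _ => hg p) fun p hp => absurd (mem_univ _) hp

/-- The product rule for positions. -/
theorem Pos.sh (h : Pos w pr Ω) {B : ℕ → Set G} (hB : Flt B) {L : K →L[ℂ] K}
    (hL : ∀ p, ∃ p', pr p' = pr p ∧ L * w p = w p' * L) {J J' : ℕ}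
    (h1 : ∀ i, L (Ω i) ∈ FP w pr Ω (B J)) {v : K} (h2 : v ∈ FP w pr Ω (B J')) :
    L v ∈ FP w pr Ω (B (J + J')) := by
  refine h.mem_of ((FP w pr Ω (B (J + J'))).comap (L : K →ₗ[ℂ] K))
    ((isClosed_FP _).preimage L.continuous) (fun q hq j => ?_) h2
  change L (w q (Ω j)) ∈ FP w pr Ω (B (J + J'))
  obtain ⟨q', e1, e2⟩ := hL q
  have e3 : L (w q (Ω j)) = w q' (L (Ω j)) :=
    congrArg (fun S : K →L[ℂ] K => S (Ω j)) e2
  rw [e3]
  intro p hp i
  obtain ⟨r, hr1, hr2⟩ := h.adj q'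
  obtain ⟨s, hs1, hs2⟩ := h.mul r p
  rw [← adjoint_inner_left, hr1]
  have e4 : w r (w p (Ω i)) = w s (Ω i) := congrArg (fun S : K →L[ℂ] K => S (Ω i)) hs1
  rw [e4]
  refine h1 j s (fun hs => hp ?_) i
  have e5 : pr p = pr q * pr s := by
    rw [hs2, hr2, e1, mul_inv_cancel_left]
  rw [e5, add_comm]
  exact hB.mul hq hs

/-- Positions of adjoints. -/
theorem Pos.st (h : Pos w pr Ω) {B : ℕ → Set G} (hB : Flt B) {z : K →L[ℂ] K}
    (hz : ∀ p, z * w p = w p * z) {J : ℕ} (h1 : ∀ i, z (Ω i) ∈ FP w pr Ω (B J)) (i : ι) :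
    adjoint z (Ω i) ∈ FP w pr Ω (B J) := by
  intro p hp j
  obtain ⟨r, hr1, hr2⟩ := h.adj p
  have e3 : z (w p (Ω j)) = w p (z (Ω j)) := congrArg (fun S : K →L[ℂ] K => S (Ω j)) (hz p)
  rw [adjoint_inner_right, e3, ← adjoint_inner_right, hr1]
  have h2 := h1 j r (fun hr => hp (by
    have := hB.inv hr
    rwa [hr2, inv_inv] at this)) i
  rw [← inner_conj_symm, h2, map_zero]

/-- the commutant of the operators `w p` -/
noncomputable def MP (h : Pos w pr Ω) : StarSubalgebra ℂ (K →L[ℂ] K) where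
  carrier := {T | ∀ p, T * w p = w p * T}
  mul_mem' {a b} ha hb p := by
    rw [mul_assoc, hb p, ← mul_assoc, ha p, mul_assoc]
  one_mem' p := by rw [one_mul, mul_one]
  add_mem' {a b} ha hb p := by rw [add_mul, mul_add, ha p, hb p]
  zero_mem' p := by rw [zero_mul, mul_zero]
  algebraMap_mem' r p := by
    rw [Algebra.algebraMap_eq_smul_one, smul_mul_assoc, mul_smul_comm, one_mul, mul_one]
  star_mem' {a} ha p := by
    obtain ⟨r, hr1, hr2⟩ := h.adj p
    have h1 := congrArg star (ha r)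
    rw [star_mul, star_mul, star_eq_adjoint (w r), ← hr1, adjoint_adjoint] at h1
    exact h1.symm

theorem mem_MP {h : Pos w pr Ω} {T : K →L[ℂ] K} : T ∈ MP h ↔ ∀ p, T * w p = w p * T := Iff.rfl

theorem MP_ap {h : Pos w pr Ω} {T : K →L[ℂ] K} (hT : T ∈ MP h) (p : P) (v : K) :
    T (w p v) = w p (T v) := congrArg (fun S : K →L[ℂ] K => S v) (hT p)

/-- bounded limits -/
theorem Pos.lim (h : Pos w pr Ω) {T : ℕ → K →L[ℂ] K} {C : ℝ} {ζ : ι → K} (hT : ∀ n, T n ∈ MP h)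
    (hC : ∀ n, ‖T n‖ ≤ C) (hl : ∀ i, Tendsto (fun n => T n (Ω i)) atTop (𝓝 (ζ i))) :
    ∃ z ∈ MP h, ∀ i, z (Ω i) = ζ i := by
  have hd : Dense (Submodule.span ℂ {η | ∃ p i, η = w p (Ω i)} : Set K) := by
    rw [dense_iff_closure_eq, ← Submodule.topologicalClosure_coe]
    refine Set.eq_univ_of_forall fun v => ?_
    refine h.mem_all _ (Submodule.isClosed_topologicalClosure _) (fun p i => ?_) v
    exact Submodule.le_topologicalClosure _ (Submodule.subset_span ⟨p, i, rfl⟩)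
  obtain ⟨y, hy1, hy2⟩ := exists_lim hC hd (by
    rintro _ ⟨p, i, rfl⟩
    refine ⟨w p (ζ i), ?_⟩
    have e : ∀ n, T n (w p (Ω i)) = w p (T n (Ω i)) := fun n => MP_ap (hT n) p _
    simp only [e]
    exact ((w p).continuous.tendsto _).comp (hl i))
  refine ⟨y, fun p => ?_, fun i => tendsto_nhds_unique (hy2 _) (hl i)⟩
  refine ContinuousLinearMap.ext fun η => tendsto_nhds_unique (hy2 (w p η)) ?_
  have e : ∀ n, T n (w p η) = w p (T n η) := fun n => MP_ap (hT n) p _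
  simp only [e]
  exact ((w p).continuous.tendsto _).comp (hy2 η)

/-- the family is separating -/
theorem Pos.sep (h : Pos w pr Ω) {z : K →L[ℂ] K} (hz : z ∈ MP h) (h0 : ∀ i, z (Ω i) = 0) :
    z = 0 := by
  ext v
  refine h.mem_all (LinearMap.ker (z : K →ₗ[ℂ] K)) (isClosed_eq z.continuous continuous_const)
    (fun p i => ?_) v
  change z (w p (Ω i)) = 0
  rw [MP_ap hz, h0, map_zero]

variable [Fintype ι]

/-- A representation of the source group on a space with positions. -/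
structure PosG (π : H →* (K →L[ℂ] K)) (w : P → (K →L[ℂ] K)) (pr : P → G) (Ω : ι → K) : Prop
    extends Pos w pr Ω where
  padj : ∀ h, adjoint (π h) = π h⁻¹
  perm : ∀ h p, ∃ p', pr p' = pr p ∧ π h * w p = w p' * π h
  one : ∑ i, ‖Ω i‖ ^ 2 = 1
  tr : ∀ x : K →L[ℂ] K, (∀ p, x * w p = w p * x) → ∑ i, ‖adjoint x (Ω i)‖ ^ 2 =
    ∑ i, ‖x (Ω i)‖ ^ 2
  un : ∀ h, ∃ u : K →L[ℂ] K, (∀ p, u * w p = w p * u) ∧ adjoint u * u = 1 ∧ u * adjoint u = 1 ∧
    ∀ i, u (Ω i) = π h (Ω i)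

variable {π : H →* (K →L[ℂ] K)}

theorem PosG.Ad (D : PosG π w pr Ω) (h : H) {x : K →L[ℂ] K} (hx : ∀ p, x * w p = w p * x) (p : P) :
    π h * x * π h⁻¹ * w p = w p * (π h * x * π h⁻¹) := by
  obtain ⟨p', -, e1⟩ := D.perm h⁻¹ p
  have e2 : π h * w p' = w p * π h := by
    calc π h * w p' = π h * (w p' * π h⁻¹) * π h := by
          rw [mul_assoc, mul_assoc, ← map_mul, inv_mul_cancel, map_one, mul_one]
      _ = π h * (π h⁻¹ * w p) * π h := by rw [e1]
      _ = w p * π h := by rw [← mul_assoc (π h), ← map_mul, mul_inv_cancel, map_one, one_mul]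
  calc π h * x * π h⁻¹ * w p = π h * x * (w p' * π h⁻¹) := by rw [mul_assoc, e1]
    _ = π h * (x * w p') * π h⁻¹ := by simp only [mul_assoc]
    _ = (π h * w p') * x * π h⁻¹ := by rw [hx]; simp only [mul_assoc]
    _ = w p * (π h * x * π h⁻¹) := by rw [e2]; simp only [mul_assoc]

/-- **Growth data of the family.** -/
theorem PosG.toGrF (D : PosG π w pr Ω) {B : ℕ → Set G} (hB : Flt B) :
    GrF π (MP D.toPos) Ω (fun J => FP w pr Ω (B J)) where
  adj := D.padj
  Ad h x hx := D.Ad h hx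
  one := D.one
  tr x hx := D.tr x hx
  un h := D.un h
  mono J J' hJ := FP_mono (hB.mono hJ)
  sh h Z hZ z' hz' J J' h1 h2 i := by
    refine D.toPos.sh hB (L := Z * π h) (fun p => ?_) h1 (h2 i)
    obtain ⟨p', e1, e2⟩ := D.perm h p
    exact ⟨p', e1, by rw [mul_assoc, e2, ← mul_assoc, hZ p', mul_assoc]⟩
  st z hz J h1 i := D.toPos.st hB hz h1 i

/-- **Growth for a family of vectors with positions.** -/
theorem PosG.growth [TopologicalSpace H] [ContinuousInv H] (D : PosG π w pr Ω) {B : ℕ → Set G}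
    (hB : Flt B) (contP : ∀ ξ, Continuous fun g => π g ξ)
    (erg : ∀ z ∈ MP D.toPos, (∀ g, z * π g = π g * z) → ∃ c : ℂ, z = c • (1 : K →L[ℂ] K))
    (kap : ∀ h : H, ∀ ε : ℝ, 0 < ε → ∃ J, ∃ Z ∈ MP D.toPos, ‖Z‖ ≤ 1 ∧
      (∀ i, Z (π h (Ω i)) ∈ FP w pr Ω (B J)) ∧ ∑ i, ‖(Z - 1) (Ω i)‖ ^ 2 ≤ ε ^ 2)
    {a : H} (ha : LeviGap a) {ε : ℝ} (hε : 0 < ε) :
    ∃ C : ℕ, ∀ n : ℕ, 1 ≤ n → ∀ i, ∃ v ∈ FP w pr Ω (B (C * n ^ 3)),
      ‖π (a ^ n) (Ω i) - v‖ ≤ ε := by
  classical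
  -- a finite group with enough elements
  obtain ⟨Q, _, _, ⟨j⟩⟩ : ∃ (Q : Type) (_ : Group Q) (_ : Fintype Q), Nonempty (ι ↪ Q) :=
    exists_grp ι
  have DF := D.toGrF hB
  have DD := DF.toGrD j
  refine DF.growth j (a := a) ?_ kap hε
  refine gap_abs DD ?_ ?_ ?_ ?_ ha
  · intro ξ
    exact RC.cont_amp contP ξ
  · intro T C ζ hT hC hl
    have hT' : ∀ n, ∃ S ∈ MP D.toPos, H333.Amp.amp (Q := Q) S = T n := fun n => mem_ampM.1 (hT n)
    choose S hS hST using hT'
    have hS1 : ∀ n, ‖S n‖ ≤ C := fun n => by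
      have := hC n
      rwa [← hST n, H333.Amp.norm_amp] at this
    obtain ⟨z, hz, hz1⟩ := D.toPos.lim (ζ := fun i => ζ (j i)) hS hS1 (fun i => by
      have h1 := ((H333.Amp.co (j i)).continuous.tendsto ζ).comp hl
      refine h1.congr fun n => ?_
      change H333.Amp.co (j i) (T n (RC.ampO j Ω)) = _
      rw [← hST n, amp_ampO, H333.Amp.co_apply, RC.ampO_ap])
    refine ⟨_, mem_ampM.2 ⟨z, hz, rfl⟩, ?_⟩
    rw [amp_ampO]
    refine H333.Amp.ext_co fun q => ?_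
    by_cases hq : ∃ i, j i = q
    · obtain ⟨i, rfl⟩ := hq
      rw [RC.ampO_ap, hz1]
    · have h1 : ∀ v : ι → K, RC.ampO j v q = 0 := fun v => RC.ampO_ne j v fun i hi => hq ⟨i, hi⟩
      rw [h1]
      have h2 := ((H333.Amp.co q).continuous.tendsto ζ).comp hl
      have h3 : Tendsto (fun n : ℕ => H333.Amp.co q (T n (RC.ampO j Ω))) atTop (𝓝 0) := by
        have e : (fun n : ℕ => H333.Amp.co q (T n (RC.ampO j Ω))) = fun _ => (0 : K) := by
          funext n
          rw [← hST n, amp_ampO, H333.Amp.co_apply, h1]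
        rw [e]
        exact tendsto_const_nhds
      exact (tendsto_nhds_unique h2 h3).symm
  · intro z hz hzc
    obtain ⟨S, hS, rfl⟩ := mem_ampM.1 hz
    obtain ⟨c, hc⟩ := erg S hS fun g => by
      refine H333.Amp.amp_inj (Q := Q) ?_
      rw [H333.Amp.amp_mul, H333.Amp.amp_mul]
      exact hzc g
    refine ⟨c, ?_⟩
    rw [hc, H333.Amp.amp_smul, H333.Amp.amp_one]
  · intro z hz h0
    obtain ⟨S, hS, rfl⟩ := mem_ampM.1 hz
    rw [amp_ampO] at h0
    have h1 : ∀ i, S (Ω i) = 0 := fun i => by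
      have := congrArg (fun v => v (j i)) h0
      rw [← RC.ampO_ap j (fun i => S (Ω i)) i]
      exact this
    rw [D.toPos.sep hS h1, H333.Amp.amp_zero]

end pos

end Vale.Agent.P092.H421.GrT
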