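import Vale.Agent.P092.H421.GrT2
import Vale.Agent.P092.H34.AmpE
import Vale.Agent.P092.H967.Kaplansky

/-!
P092 (helper421), [D-T-SIZE]: the fibre.  Operators of the commutant of a representation `R` with a
finite Parseval family are approximated by contractions of the commutant with finitely many
positions.
-/

set_option linter.all false

open scoped InnerProductSpace ENNReal
open Set Filter Topology ContinuousLinearMap

namespace Vale.Agent.P092.H421.GrT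

open Vale.Agent.P092.H221.Gr Vale.Agent.P092.H933 Vale.Agent.P092.H725 Vale.Agent.P092.H160
open Vale.Agent.P092.H421.Hs (Frq Pf trq enn_sq' inner_mv inv_ap norm_U cm_ap)
open Vale.Agent.P092.RC Vale.Agent.P092.H333.Amp

section fib

variable {Δ ι ℋ : Type} [Group Δ] [Fintype ι] [NormedAddCommGroup ℋ] [InnerProductSpace ℂ ℋ]
  [CompleteSpace ℋ] {R : Δ →* (ℋ →L[ℂ] ℋ)} {e : ι → ℋ}

theorem bes_frq (hf : Frq R e) : Bes 1 (fun p : ι × Δ => R p.2 (e p.1)) := by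
  intro s v
  rw [one_pow, one_mul]
  exact sum_le_hasSum s (fun p _ => sq_nonneg _) (hf.hasSum v)

/-- the analysis operator -/
noncomputable def WW (hf : Frq R e) : ℋ →L[ℂ] Ell2 (ι × Δ) := anOp (bes_frq hf)

theorem WW_ap (hf : Frq R e) (v : ℋ) (p : ι × Δ) : WW hf v p = ⟪R p.2 (e p.1), v⟫_ℂ := rfl

theorem WW_inner (hf : Frq R e) (u v : ℋ) : ⟪WW hf u, WW hf v⟫_ℂ = ⟪u, v⟫_ℂ :=
  (H421.Hs.ana hf).inner_map_map u v

theorem WW_left (hf : Frq R e) (v : ℋ) : adjoint (WW hf) (WW hf v) = v := by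
  refine ext_inner_left ℂ fun u => ?_
  rw [adjoint_inner_right, WW_inner]

theorem WW_norm (hf : Frq R e) (v : ℋ) : ‖WW hf v‖ = ‖v‖ := (H421.Hs.ana hf).norm_map v

theorem WW_norm_adj (hf : Frq R e) (ζ : Ell2 (ι × Δ)) : ‖adjoint (WW hf) ζ‖ ≤ ‖ζ‖ := by
  have h1 : ‖adjoint (WW hf)‖ ≤ 1 := by
    rw [LinearIsometryEquiv.norm_map]
    exact ContinuousLinearMap.opNorm_le_bound _ zero_le_one fun v => by
      rw [WW_norm, one_mul]
  refine ((adjoint (WW hf)).le_opNorm ζ).trans ?_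
  calc ‖adjoint (WW hf)‖ * ‖ζ‖ ≤ 1 * ‖ζ‖ := by gcongr
    _ = ‖ζ‖ := one_mul _

theorem WW_dl (hf : Frq R e) (p : ι × Δ) : adjoint (WW hf) (dl p) = R p.2 (e p.1) := by
  refine ext_inner_right ℂ fun w => ?_
  rw [adjoint_inner_left, inner_dl, WW_ap]

/-- `T δ_(i, g) = R g (t i)` -/
def BT (R : Δ →* (ℋ →L[ℂ] ℋ)) (t : ι → ℋ) (T : Ell2 (ι × Δ) →L[ℂ] ℋ) : Prop :=
  ∀ p : ι × Δ, T (dl p) = R p.2 (t p.1)

theorem BT.adj {t : ι → ℋ} {T : Ell2 (ι × Δ) →L[ℂ] ℋ} (h : BT R t T) (v : ℋ) (p : ι × Δ) :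
    adjoint T v p = ⟪R p.2 (t p.1), v⟫_ℂ := by
  rw [← inner_dl, adjoint_inner_right, h p]

theorem BT.add {t t' : ι → ℋ} {T T' : Ell2 (ι × Δ) →L[ℂ] ℋ} (h : BT R t T) (h' : BT R t' T') :
    BT R (fun i => t i + t' i) (T + T') := fun p => by
  rw [add_apply, h p, h' p, map_add]

theorem BT.sub {t t' : ι → ℋ} {T T' : Ell2 (ι × Δ) →L[ℂ] ℋ} (h : BT R t T) (h' : BT R t' T') :
    BT R (fun i => t i - t' i) (T - T') := fun p => by
  rw [sub_apply, h p, h' p, map_sub]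

theorem BT.zero : BT R (fun _ : ι => (0 : ℋ)) 0 := fun p => by
  rw [zero_apply, map_zero]

theorem BT.sum {J : Type} (s : Finset J) {t : J → ι → ℋ} {T : J → Ell2 (ι × Δ) →L[ℂ] ℋ}
    (h : ∀ j, BT R (t j) (T j)) : BT R (fun i => ∑ j ∈ s, t j i) (∑ j ∈ s, T j) := by
  intro p
  rw [sum_apply, map_sum]
  exact Finset.sum_congr rfl fun j _ => h j p

/-- an operator of the commutant -/
theorem BT.of_comm (hf : Frq R e) {U : ℋ →L[ℂ] ℋ} (hU : ∀ g, U * R g = R g * U) :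
    BT R (fun i => U (e i)) (U ∘L adjoint (WW hf)) := fun p => by
  change U (adjoint (WW hf) (dl p)) = _
  rw [WW_dl, cm_ap (hU p.2)]

/-- one generator -/
theorem BT.single (hRa : ∀ g, adjoint (R g) = R g⁻¹) (hf : Frq R e) (c : ι → ℂ) (k : ι) (g : Δ) :
    ∃ T : Ell2 (ι × Δ) →L[ℂ] ℋ, BT R (fun i => c i • R g (e k)) T := by
  classical
  have hb : Bes (Real.sqrt (∑ i, ‖c i‖ ^ 2))
      (fun p : ι × Δ => R p.2 (c p.1 • R g (e k))) := by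
    intro s v
    have h0 : (0 : ℝ) ≤ ∑ i, ‖c i‖ ^ 2 := Finset.sum_nonneg fun i _ => sq_nonneg _
    rw [Real.sq_sqrt h0]
    obtain ⟨f, hf'⟩ : ∃ f : ι × Δ → ℝ, f = fun p => ‖c p.1‖ ^ 2 * ‖⟪R (p.2 * g) (e k), v⟫_ℂ‖ ^ 2 :=
      ⟨_, rfl⟩
    have e1 : ∀ p : ι × Δ, ‖⟪R p.2 (c p.1 • R g (e k)), v⟫_ℂ‖ ^ 2 = f p := by
      intro p
      rw [hf', map_smul, inner_smul_left, norm_mul, RCLike.norm_conj, mul_pow]
      have : R p.2 (R g (e k)) = R (p.2 * g) (e k) := by rw [map_mul]; rfl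
      rw [this]
    simp only [e1]
    obtain ⟨s₁, hs₁⟩ : ∃ s₁ : Finset Δ, s₁ = s.image Prod.snd := ⟨_, rfl⟩
    have h1 : s ⊆ Finset.univ ×ˢ s₁ := by
      intro p hp
      rw [Finset.mem_product, hs₁]
      exact ⟨Finset.mem_univ _, Finset.mem_image_of_mem _ hp⟩
    have h2 : ∑ p ∈ s, f p ≤ ∑ p ∈ Finset.univ ×ˢ s₁, f p := by
      refine Finset.sum_le_sum_of_subset_of_nonneg h1 fun p _ _ => ?_
      rw [hf']
      positivity
    refine h2.trans ?_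
    rw [Finset.sum_product]
    have h3 : ∑ q ∈ s₁, ‖⟪R (q * g) (e k), v⟫_ℂ‖ ^ 2 ≤ ‖v‖ ^ 2 := by
      have h4 := bes_frq hf ((s₁.image fun q => (k, q * g))) v
      rw [one_pow, one_mul, Finset.sum_image (fun a _ b _ hab => by
        have := congrArg Prod.snd hab
        exact mul_right_cancel this)] at h4
      exact h4
    calc ∑ i, ∑ q ∈ s₁, f (i, q) = ∑ i, ‖c i‖ ^ 2 * ∑ q ∈ s₁, ‖⟪R (q * g) (e k), v⟫_ℂ‖ ^ 2 := by
          refine Finset.sum_congr rfl fun i _ => ?_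
          rw [Finset.mul_sum, hf']
      _ ≤ ∑ i, ‖c i‖ ^ 2 * ‖v‖ ^ 2 := by
          refine Finset.sum_le_sum fun i _ => ?_
          gcongr
      _ = _ := by rw [Finset.sum_mul]
  exact ⟨opOf hb, fun p => opOf_dl hb p⟩

/-- The operator of a bounded family commutes with the representation. -/
theorem BT.comm (hRa : ∀ g, adjoint (R g) = R g⁻¹) (hf : Frq R e) {t : ι → ℋ}
    {T : Ell2 (ι × Δ) →L[ℂ] ℋ} (h : BT R t T) (g : Δ) :
    (T ∘L WW hf) * R g = R g * (T ∘L WW hf) := by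
  ext x
  refine ext_inner_right ℂ fun y => ?_
  change ⟪T (WW hf (R g x)), y⟫_ℂ = ⟪R g (T (WW hf x)), y⟫_ℂ
  have a1 : ⟪T (WW hf (R g x)), y⟫_ℂ = ⟪WW hf (R g x), adjoint T y⟫_ℂ :=
    (adjoint_inner_right T _ _).symm
  have a2 : ⟪R g (T (WW hf x)), y⟫_ℂ = ⟪WW hf x, adjoint T (R g⁻¹ y)⟫_ℂ := by
    rw [inner_mv hRa, adjoint_inner_right]
  rw [a1, a2, H160.inner_eq, H160.inner_eq]
  have e1 : ∀ p : ι × Δ, adjoint T (R g⁻¹ y) p * (starRingEnd ℂ) (WW hf x p) =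
      adjoint T y (p.1, g * p.2) * (starRingEnd ℂ) (WW hf (R g x) (p.1, g * p.2)) := by
    intro p
    rw [h.adj, h.adj, WW_ap, WW_ap]
    congr 1
    · rw [← inner_mv hRa]
      congr 1
      change _ = R (g * p.2) (t p.1)
      rw [map_mul]; rfl
    · congr 1
      change _ = ⟪R (g * p.2) (e p.1), R g x⟫_ℂ
      have : R (g * p.2) (e p.1) = R g (R p.2 (e p.1)) := by rw [map_mul]; rfl
      rw [this, inner_mv hRa g, inv_ap]
  simp only [e1]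
  exact ((Equiv.refl ι).prodCongr (Equiv.mulLeft g)).tsum_eq
    (fun p => adjoint T y p * (starRingEnd ℂ) (WW hf (R g x) p)) |>.symm

/-- The main estimate. -/
theorem BT.le (hRa : ∀ g, adjoint (R g) = R g⁻¹) (hf : Frq R e) {t : ι → ℋ}
    {T : Ell2 (ι × Δ) →L[ℂ] ℋ} (h : BT R t T) :
    ∑ i, ‖(T ∘L WW hf) (e i)‖ ^ 2 ≤ ∑ i, ‖t i‖ ^ 2 := by
  have h1 : trq e (T ∘L WW hf) ≤ ∑' i, ‖t i‖ₑ ^ 2 := by
    rw [H421.Hs.trq_swap hRa hf hf (h.comm hRa hf)]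
    have h2 : ∀ l, ‖adjoint (T ∘L WW hf) (e l)‖ₑ ^ 2 ≤
        ∑' i, ∑' q, ‖⟪R q (e l), t i⟫_ℂ‖ₑ ^ 2 := by
      intro l
      have h3 : ‖adjoint (T ∘L WW hf) (e l)‖ ≤ ‖adjoint T (e l)‖ := by
        rw [adjoint_comp]
        exact WW_norm_adj hf _
      have h4 : ‖adjoint (T ∘L WW hf) (e l)‖ₑ ^ 2 ≤ ‖adjoint T (e l)‖ₑ ^ 2 := by
        rw [enn_sq', enn_sq']
        exact ENNReal.ofReal_le_ofReal (pow_le_pow_left₀ (norm_nonneg _) h3 2)
      refine h4.trans (le_of_eq ?_)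
      rw [enn_sq', H160.norm_sq, ENNReal.ofReal_tsum_of_nonneg (fun _ => sq_nonneg _)
        (summable_sq _), ENNReal.tsum_prod']
      refine tsum_congr fun i => ?_
      have h5 : ∀ q : Δ, ENNReal.ofReal (‖adjoint T (e l) (i, q)‖ ^ 2) =
          ‖⟪R q⁻¹ (e l), t i⟫_ℂ‖ₑ ^ 2 := by
        intro q
        rw [h.adj, enn_sq']
        congr 2
        change ‖⟪R q (t i), e l⟫_ℂ‖ = _
        rw [inner_mv hRa, norm_inner_symm]
      simp only [h5]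
      exact (Equiv.inv Δ).tsum_eq fun q => ‖⟪R q (e l), t i⟫_ℂ‖ₑ ^ 2
    rw [trq]
    calc ∑' l, ‖adjoint (T ∘L WW hf) (e l)‖ₑ ^ 2
        ≤ ∑' l, ∑' i, ∑' q, ‖⟪R q (e l), t i⟫_ℂ‖ₑ ^ 2 := ENNReal.tsum_le_tsum h2
      _ = ∑' i, ∑' l, ∑' q, ‖⟪R q (e l), t i⟫_ℂ‖ₑ ^ 2 := ENNReal.tsum_comm
      _ = ∑' i, ‖t i‖ₑ ^ 2 := by
          refine tsum_congr fun i => ?_
          rw [← hf (t i), ENNReal.tsum_prod']
  have h2 : ∀ f : ι → ℋ, ∑' i, ‖f i‖ₑ ^ 2 = ENNReal.ofReal (∑ i, ‖f i‖ ^ 2) := by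
    intro f
    rw [tsum_fintype, ENNReal.ofReal_sum_of_nonneg fun i _ => sq_nonneg _]
    exact Finset.sum_congr rfl fun i _ => enn_sq' _
  rw [trq, h2, h2] at h1
  exact (ENNReal.ofReal_le_ofReal_iff (Finset.sum_nonneg fun i _ => sq_nonneg _)).1 h1

variable {G : Type} [Group G] {pr : Δ →* G}

theorem pos_fib (hRa : ∀ g, adjoint (R g) = R g⁻¹) (hf : Frq R e)
    (hon : ∀ p i j, pr p ≠ 1 → ⟪R p (e i), e j⟫_ℂ = 0) : Pos (fun p => R p) (fun p => pr p) e where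
  tot v hv := Pf.eq_zero hf fun p => hv p.2 p.1
  hon p p' i i' hp := by
    have e1 : ⟪R p (e i), R p' (e i')⟫_ℂ = ⟪R (p'⁻¹ * p) (e i), e i'⟫_ℂ := by
      rw [map_mul]
      change _ = ⟪R p'⁻¹ (R p (e i)), e i'⟫_ℂ
      rw [inner_mv hRa p'⁻¹, inv_inv]
    rw [e1]
    refine hon _ _ _ fun h1 => hp ?_
    rw [map_mul, map_inv, inv_mul_eq_one] at h1
    exact h1.symm
  mul p p' := ⟨p * p', (map_mul R p p').symm, map_mul pr p p'⟩
  adj p := ⟨p⁻¹, hRa p, map_inv pr p⟩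

/-- positions of the operator of a bounded family -/
theorem BT.mem (hRa : ∀ g, adjoint (R g) = R g⁻¹) (hf : Frq R e)
    (hon : ∀ p i j, pr p ≠ 1 → ⟪R p (e i), e j⟫_ℂ = 0) {t : ι → ℋ}
    {T : Ell2 (ι × Δ) →L[ℂ] ℋ} (h : BT R t T) {S : Set G}
    (ht : ∀ i, t i ∈ FP (fun p => R p) (fun p => pr p) e S) (l : ι) :
    (T ∘L WW hf) (e l) ∈ FP (fun p => R p) (fun p => pr p) e S := by
  have h1 : HasSum (fun p : ι × Δ => T (WW hf (e l) p • dl p)) (T (WW hf (e l))) :=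
    (hasSum_dl (WW hf (e l))).mapL T
  refine (isClosed_FP S).mem_of_tendsto h1 (Eventually.of_forall fun s => ?_)
  refine Submodule.sum_mem _ fun p _ => ?_
  rw [map_smul, h p, WW_ap]
  by_cases hp : pr p.2 = 1
  · refine Submodule.smul_mem _ _ fun p' hp' j => ?_
    have e1 : ⟪R p' (e j), R p.2 (t p.1)⟫_ℂ = ⟪R (p.2⁻¹ * p') (e j), t p.1⟫_ℂ := by
      rw [map_mul]
      change _ = ⟪R p.2⁻¹ (R p' (e j)), t p.1⟫_ℂ
      rw [inner_mv hRa p.2⁻¹, inv_inv]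
    rw [e1]
    refine ht p.1 _ ?_ j
    change pr (p.2⁻¹ * p') ∉ S
    rw [map_mul, map_inv, hp, inv_one, one_mul]
    exact hp'
  · rw [hon _ _ _ hp, zero_smul]
    exact Submodule.zero_mem _

/-- **Approximation in the family.** -/
theorem near_fib (hRa : ∀ g, adjoint (R g) = R g⁻¹) (hf : Frq R e)
    (hon : ∀ p i j, pr p ≠ 1 → ⟪R p (e i), e j⟫_ℂ = 0) {B : ℕ → Set G} (hB : Flt B)
    {U : ℋ →L[ℂ] ℋ} (hU : ∀ g, U * R g = R g * U) {ε : ℝ} (hε : 0 < ε) :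
    ∃ y : ℋ →L[ℂ] ℋ, (∀ g, y * R g = R g * y) ∧
      (∃ J, ∀ i, y (e i) ∈ FP (fun p => R p) (fun p => pr p) e (B J)) ∧
      ∑ i, ‖y (e i) - U (e i)‖ ^ 2 ≤ ε ^ 2 := by
  classical
  have h1 : ∀ i, Tendsto (fun s : Finset (ι × Δ) =>
      ∑ p ∈ s, WW hf (U (e i)) p • R p.2 (e p.1)) atTop (𝓝 (U (e i))) := by
    intro i
    have h2 : HasSum (fun p : ι × Δ => adjoint (WW hf) (WW hf (U (e i)) p • dl p))
        (adjoint (WW hf) (WW hf (U (e i)))) := (hasSum_dl (WW hf (U (e i)))).mapL _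
    rw [WW_left] at h2
    simp only [map_smul, WW_dl] at h2
    exact h2
  have h3 : Tendsto (fun s : Finset (ι × Δ) =>
      ∑ i, ‖U (e i) - ∑ p ∈ s, WW hf (U (e i)) p • R p.2 (e p.1)‖ ^ 2) atTop (𝓝 0) := by
    have h4 : Tendsto (fun s : Finset (ι × Δ) =>
        ∑ i, ‖U (e i) - ∑ p ∈ s, WW hf (U (e i)) p • R p.2 (e p.1)‖ ^ 2) atTop
        (𝓝 (∑ i : ι, ‖U (e i) - U (e i)‖ ^ 2)) :=
      tendsto_finset_sum _ fun i _ => ((tendsto_const_nhds.sub (h1 i)).norm).pow 2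
    simpa using h4
  obtain ⟨s, hs⟩ := (h3.eventually (gt_mem_nhds (show (0 : ℝ) < ε ^ 2 by positivity))).exists
  -- the bounded family
  have h5 : ∀ p : ι × Δ, ∃ T : Ell2 (ι × Δ) →L[ℂ] ℋ,
      BT R (fun i => WW hf (U (e i)) p • R p.2 (e p.1)) T := fun p =>
    BT.single hRa hf (fun i => WW hf (U (e i)) p) p.1 p.2
  choose T hT using h5
  have hT' := BT.sum s hT
  obtain ⟨J, hJ⟩ : ∃ J, ∀ p ∈ s, pr p.2 ∈ B J := by
    choose j hj using fun p : ι × Δ => hB.ex (pr p.2)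
    exact ⟨s.sup j, fun p hp => hB.mono (Finset.le_sup hp) (hj p)⟩
  refine ⟨(∑ p ∈ s, T p) ∘L WW hf, hT'.comm hRa hf, ⟨J, hT'.mem hRa hf hon fun i => ?_⟩, ?_⟩
  · refine Submodule.sum_mem _ fun p hp => Submodule.smul_mem _ _ fun p' hp' j => ?_
    exact (pos_fib hRa hf hon).hon p' p.2 j p.1 fun h6 => hp' (by
      change pr p' = pr p.2 at h6
      change pr p' ∈ B J
      rw [h6]; exact hJ p hp)
  · have h6 := ((BT.of_comm hf hU).sub hT').le hRa hf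
    refine le_trans (le_of_eq ?_) (h6.trans hs.le)
    refine Finset.sum_congr rfl fun i _ => ?_
    have e1 : ((U ∘L adjoint (WW hf) - ∑ p ∈ s, T p) ∘L WW hf) (e i) =
        U (e i) - ((∑ p ∈ s, T p) ∘L WW hf) (e i) := by
      change (U ∘L adjoint (WW hf) - ∑ p ∈ s, T p) (WW hf (e i)) = _
      rw [sub_apply]
      change U (adjoint (WW hf) (WW hf (e i))) - _ = _
      rw [WW_left]
      rfl
    rw [e1, norm_sub_rev]

/-! ### Kaplansky density -/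

/-- the commutant -/
noncomputable def cR (hRa : ∀ g, adjoint (R g) = R g⁻¹) : StarSubalgebra ℂ (ℋ →L[ℂ] ℋ) where
  carrier := {T | ∀ g, T * R g = R g * T}
  mul_mem' {a b} ha hb p := by
    rw [mul_assoc, hb p, ← mul_assoc, ha p, mul_assoc]
  one_mem' p := by rw [one_mul, mul_one]
  add_mem' {a b} ha hb p := by rw [add_mul, mul_add, ha p, hb p]
  zero_mem' p := by rw [zero_mul, mul_zero]
  algebraMap_mem' r p := by
    rw [Algebra.algebraMap_eq_smul_one, smul_mul_assoc, mul_smul_comm, one_mul, mul_one]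
  star_mem' {a} ha p := by
    have h1 := congrArg star (ha p⁻¹)
    rw [star_mul, star_mul, star_eq_adjoint (R p⁻¹), hRa, inv_inv] at h1
    exact h1.symm

theorem mem_cR {hRa : ∀ g, adjoint (R g) = R g⁻¹} {T : ℋ →L[ℂ] ℋ} :
    T ∈ cR hRa ↔ ∀ g, T * R g = R g * T := Iff.rfl

theorem isClosed_cR (hRa : ∀ g, adjoint (R g) = R g⁻¹) :
    IsClosed (cR hRa : Set (ℋ →L[ℂ] ℋ)) := by
  have h1 : (cR hRa : Set (ℋ →L[ℂ] ℋ)) = ⋂ g, {A | A * R g = R g * A} := by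
    ext A
    simp only [Set.mem_iInter, Set.mem_setOf_eq]
    exact mem_cR
  rw [h1]
  refine isClosed_iInter fun g => isClosed_eq ?_ ?_
  · exact continuous_id.mul continuous_const
  · exact continuous_const.mul continuous_id

/-- the elements of the commutant with positions in a ball -/
noncomputable def sR (hRa : ∀ g, adjoint (R g) = R g⁻¹) (hf : Frq R e)
    (hon : ∀ p i j, pr p ≠ 1 → ⟪R p (e i), e j⟫_ℂ = 0) {B : ℕ → Set G} (hB : Flt B) :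
    StarSubalgebra ℂ (ℋ →L[ℂ] ℋ) where
  carrier := {T | (∀ g, T * R g = R g * T) ∧
    ∃ J, ∀ i, T (e i) ∈ FP (fun p => R p) (fun p => pr p) e (B J)}
  mul_mem' {a b} ha hb := by
    obtain ⟨ha, J, hJ⟩ := ha
    obtain ⟨hb, J', hJ'⟩ := hb
    refine ⟨fun p => by rw [mul_assoc, hb p, ← mul_assoc, ha p, mul_assoc], J + J', fun i => ?_⟩
    exact (pos_fib hRa hf hon).sh hB (L := a) (fun p => ⟨p, rfl, ha p⟩) hJ (hJ' i)
  one_mem' := by
    refine ⟨fun p => by rw [one_mul, mul_one], ?_⟩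
    obtain ⟨J, hJ⟩ := hB.ex 1
    refine ⟨J, fun i p hp j => ?_⟩
    refine hon p j i fun h1 => hp ?_
    change pr p ∈ B J
    rw [h1]; exact hJ
  add_mem' {a b} ha hb := by
    obtain ⟨ha, J, hJ⟩ := ha
    obtain ⟨hb, J', hJ'⟩ := hb
    refine ⟨fun p => by rw [add_mul, mul_add, ha p, hb p], max J J', fun i => ?_⟩
    refine Submodule.add_mem _ ?_ ?_
    · exact FP_mono (hB.mono (le_max_left J J')) (hJ i)
    · exact FP_mono (hB.mono (le_max_right J J')) (hJ' i)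
  zero_mem' := ⟨fun p => by rw [zero_mul, mul_zero], 0, fun i => Submodule.zero_mem _⟩
  algebraMap_mem' r := by
    refine ⟨fun p => by
      rw [Algebra.algebraMap_eq_smul_one, smul_mul_assoc, mul_smul_comm, one_mul, mul_one], ?_⟩
    obtain ⟨J, hJ⟩ := hB.ex 1
    refine ⟨J, fun i => ?_⟩
    rw [Algebra.algebraMap_eq_smul_one]
    refine Submodule.smul_mem _ _ fun p hp j => ?_
    refine hon p j i fun h1 => hp ?_
    change pr p ∈ B J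
    rw [h1]; exact hJ
  star_mem' {a} ha := by
    obtain ⟨ha, J, hJ⟩ := ha
    refine ⟨(star_mem (show a ∈ cR hRa from ha) : star a ∈ cR hRa), J, fun i => ?_⟩
    exact (pos_fib hRa hf hon).st hB ha hJ i

theorem mem_sR {hRa : ∀ g, adjoint (R g) = R g⁻¹} {hf : Frq R e}
    {hon : ∀ p i j, pr p ≠ 1 → ⟪R p (e i), e j⟫_ℂ = 0} {B : ℕ → Set G} {hB : Flt B}
    {T : ℋ →L[ℂ] ℋ} : T ∈ sR hRa hf hon hB ↔ (∀ g, T * R g = R g * T) ∧
    ∃ J, ∀ i, T (e i) ∈ FP (fun p => R p) (fun p => pr p) e (B J) := Iff.rfl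

theorem sum_adj (hRa : ∀ g, adjoint (R g) = R g⁻¹) (hf : Frq R e) {A : ℋ →L[ℂ] ℋ}
    (hA : ∀ g, A * R g = R g * A) : ∑ i, ‖adjoint A (e i)‖ ^ 2 = ∑ i, ‖A (e i)‖ ^ 2 := by
  have h2 : ∀ T : ℋ →L[ℂ] ℋ, trq e T = ENNReal.ofReal (∑ i, ‖T (e i)‖ ^ 2) := by
    intro T
    rw [trq, tsum_fintype, ENNReal.ofReal_sum_of_nonneg fun i _ => sq_nonneg _]
    exact Finset.sum_congr rfl fun i _ => enn_sq' _
  have h1 := H421.Hs.trq_swap hRa hf hf hA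
  rw [h2, h2] at h1
  exact ((ENNReal.ofReal_eq_ofReal_iff (Finset.sum_nonneg fun i _ => sq_nonneg _)
    (Finset.sum_nonneg fun i _ => sq_nonneg _)).1 h1).symm

/-- **Kaplansky density for a family.** -/
theorem kap_fib (hRa : ∀ g, adjoint (R g) = R g⁻¹) (hf : Frq R e)
    (hon : ∀ p i j, pr p ≠ 1 → ⟪R p (e i), e j⟫_ℂ = 0) {B : ℕ → Set G} (hB : Flt B)
    {U : ℋ →L[ℂ] ℋ} (hU : ∀ g, U * R g = R g * U) (hu : U * adjoint U = 1) {ε : ℝ} (hε : 0 < ε) :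
    ∃ y ∈ sR hRa hf hon hB, ‖y‖ ≤ 1 ∧ ∑ i, ‖y (e i) - U (e i)‖ ^ 2 ≤ ε ^ 2 := by
  classical
  obtain ⟨Q, _, _, ⟨j⟩⟩ := exists_grp ι
  have hn : ∀ T : ℋ →L[ℂ] ℋ, ‖amp T (ampO j e)‖ ^ 2 = ∑ i, ‖T (e i)‖ ^ 2 := fun T => by
    rw [amp_ampO, norm_ampO]
  have hstar : ∀ T : ℋ →L[ℂ] ℋ, star (amp (Q := Q) T) = amp (star T) := fun T => by
    rw [star_eq_adjoint, star_eq_adjoint, adjoint_amp]
  have hcl : IsClosed ((cR hRa).map (ampS Q ℋ) : Set (KT Q ℋ →L[ℂ] KT Q ℋ)) := by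
    rw [StarSubalgebra.coe_map]
    have hi : Isometry (ampS Q ℋ) := AddMonoidHomClass.isometry_of_norm (ampS Q ℋ) fun T =>
      norm_amp T
    exact hi.isClosedEmbedding.isClosedMap _ (isClosed_cR hRa)
  have hle : (sR hRa hf hon hB).map (ampS Q ℋ) ≤ (cR hRa).map (ampS Q ℋ) := by
    intro x hx
    obtain ⟨T, hT, rfl⟩ := mem_ampM.1 hx
    exact mem_ampM.2 ⟨T, hT.1, rfl⟩
  have hk := H967.kaplansky_unitary ((cR hRa).map (ampS Q ℋ))
    ((sR hRa hf hon hB).map (ampS Q ℋ)) hcl hle (ampO j e) (fun a ha b hb => by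
      refine tr_of_norm ((cR hRa).map (ampS Q ℋ)) (ampO j e) (fun x hx => ?_) ha hb
      obtain ⟨T, hT, rfl⟩ := mem_ampM.1 hx
      rw [hstar]
      refine (pow_left_inj₀ (norm_nonneg _) (norm_nonneg _) two_ne_zero).mp ?_
      rw [hn, hn]
      exact sum_adj hRa hf hT) (amp U) (mem_ampM.2 ⟨U, hU, rfl⟩) (by
      rw [hstar, ← amp_mul, star_eq_adjoint, hu, amp_one]) (fun δ hδ => by
      obtain ⟨y, hy, hy1, hy2⟩ := near_fib hRa hf hon hB hU hδ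
      refine ⟨amp y, mem_ampM.2 ⟨y, ⟨hy, hy1⟩, rfl⟩, ?_⟩
      rw [← sub_apply, ← amp_sub]
      refine le_of_pow_le_pow_left₀ two_ne_zero hδ.le ?_
      rw [hn]
      exact hy2) ε hε
  obtain ⟨x, hx, hx1, hx2⟩ := hk
  obtain ⟨y, hy, rfl⟩ := mem_ampM.1 hx
  refine ⟨y, hy, ?_, ?_⟩
  · rwa [norm_amp] at hx1
  · rw [← sub_apply, ← amp_sub] at hx2
    have h1 := pow_le_pow_left₀ (norm_nonneg _) hx2 2
    rw [hn] at h1
    exact h1

end fib

end Vale.Agent.P092.H421.GrT
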