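import Vale.Agent.P092.H421.GrT3
import Vale.Agent.P092.H725.Kap

/-!
P092 (helper421), [D-T-SIZE]: positions and growth data of the induced picture over a cocycle
datum, for a finite Parseval family.
-/

set_option linter.all false

open scoped InnerProductSpace ENNReal
open Set Filter Topology MeasureTheory ContinuousLinearMap

namespace Vale.Agent.P092.H421.GrT

open Vale.Agent.P092.H790 Vale.Agent.P092.H160 Vale.Agent.P092.H34 Vale.Agent.P092.H34.Ind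
open Vale.Agent.P092.H221.Gr Vale.Agent.P092.H933 Vale.Agent.P092.H725
open Vale.Agent.P092.H421.Hs (Frq Pf trq enn_sq' inner_mv inv_ap norm_U cm_ap)

section ind

variable {D Λ Δ G : Type} [Group D] [Group Λ] [Countable Λ] [Group Δ] [Group G] (d : CData D Λ)
  {ℋ : Type} [NormedAddCommGroup ℋ] [InnerProductSpace ℂ ℋ] [CompleteSpace ℋ]
  {V : Λ →* (ℋ →L[ℂ] ℋ)} {R : Δ →* (ℋ →L[ℂ] ℋ)} (hV : ∀ v, adjoint (V v) = V v⁻¹)
  {ι : Type} [Fintype ι] {e : ι → ℋ} {pr : Δ →* G}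

/-- the generators: indicator functions times constants -/
noncomputable def wI (R : Δ →* (ℋ →L[ℂ] ℋ)) (p : {S : Set d.X // MeasurableSet S} × Δ) :
    Lp ℋ 2 d.μ →L[ℂ] Lp ℋ 2 d.μ := H790.ind d.μ ℋ p.1.1 * (R p.2).compLpL 2 d.μ

/-- the position -/
def pI (pr : Δ →* G) (p : {S : Set d.X // MeasurableSet S} × Δ) : G := pr p.2

/-- the constant fields -/
noncomputable def OI (c : ℂ) (e : ι → ℋ) (i : ι) : Lp ℋ 2 d.μ := Lp.const 2 d.μ (c • e i)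

variable {d}

theorem wI_OI (c : ℂ) (p : {S : Set d.X // MeasurableSet S} × Δ) (i : ι) :
    wI d R p (OI d c e i) = H790.ind d.μ ℋ p.1.1 (Lp.const 2 d.μ (c • R p.2 (e i))) := by
  change H790.ind d.μ ℋ p.1.1 ((R p.2).compLpL 2 d.μ (Lp.const 2 d.μ (c • e i))) = _
  rw [H221.Gr.comp_const, map_smul]

theorem ind_const_ae {S : Set d.X} (hS : MeasurableSet S) (v : ℋ) :
    ⇑(H790.ind d.μ ℋ S (Lp.const 2 d.μ v)) =ᵐ[d.μ] S.indicator fun _ => v := by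
  filter_upwards [ind_ae hS (Lp.const 2 d.μ v), Lp.coeFn_const (p := 2) (μ := d.μ) v] with x h1 h2
  rw [h1]
  by_cases hx : x ∈ S
  · rw [Set.indicator_of_mem hx, Set.indicator_of_mem hx, h2]; rfl
  · rw [Set.indicator_of_notMem hx, Set.indicator_of_notMem hx]

/-- A closed subspace containing the generators is everything. -/
theorem mem_allF (hf : Frq R e) {c : ℂ} (hc : c ≠ 0) (N : Submodule ℂ (Lp ℋ 2 d.μ))
    (hN : IsClosed (N : Set (Lp ℋ 2 d.μ))) (hg : ∀ p i, wI d R p (OI d c e i) ∈ N)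
    (ξ : Lp ℋ 2 d.μ) : ξ ∈ N := by
  have h0 : ∀ S, MeasurableSet S → ∀ v : ℋ, H790.ind d.μ ℋ S (Lp.const 2 d.μ v) ∈ N := by
    intro S hS v
    obtain ⟨L, hL⟩ : ∃ L : ℋ →L[ℂ] Lp ℋ 2 d.μ,
        L = (H790.ind d.μ ℋ S) ∘L (Lp.constL 2 d.μ ℂ : ℋ →L[ℂ] Lp ℋ 2 d.μ) := ⟨_, rfl⟩
    have hLv : ∀ v, L v = H790.ind d.μ ℋ S (Lp.const 2 d.μ v) := fun v => by rw [hL]; rfl
    have hc' : IsClosed ((N.comap (L : ℋ →ₗ[ℂ] Lp ℋ 2 d.μ) : Submodule ℂ ℋ) : Set ℋ) :=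
      hN.preimage L.continuous
    have h1 : (Submodule.span ℂ (Set.range fun p : ι × Δ => R p.2 (e p.1))) ≤
        N.comap (L : ℋ →ₗ[ℂ] Lp ℋ 2 d.μ) := by
      rw [Submodule.span_le]
      rintro _ ⟨p, rfl⟩
      have h2 := N.smul_mem c⁻¹ (hg (⟨S, hS⟩, p.2) p.1)
      rw [wI_OI, ← hLv, ← map_smul, smul_smul, inv_mul_cancel₀ hc, one_smul] at h2
      exact h2
    have h2 := Submodule.topologicalClosure_minimal _ h1 hc'
    have h3 : (Submodule.span ℂ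
        (Set.range fun p : ι × Δ => R p.2 (e p.1))).topologicalClosure = ⊤ := by
      rw [Submodule.topologicalClosure_eq_top_iff, Submodule.eq_bot_iff]
      intro η hη
      rw [Submodule.mem_orthogonal] at hη
      exact Pf.eq_zero hf fun p => hη _ (Submodule.subset_span ⟨p, rfl⟩)
    rw [h3] at h2
    have h4 : v ∈ N.comap (L : ℋ →ₗ[ℂ] Lp ℋ 2 d.μ) := h2 (Submodule.mem_top (x := v))
    rw [← hLv]
    exact h4
  refine Lp.induction (by norm_num) (fun ξ => ξ ∈ N) ?_ ?_ ?_ ξ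
  · intro c S hS hμS
    have h1 : ((Lp.simpleFunc.indicatorConst 2 hS hμS.ne c : Lp.simpleFunc ℋ 2 d.μ) : Lp ℋ 2 d.μ) =
        H790.ind d.μ ℋ S (Lp.const 2 d.μ c) := by
      refine Lp.ext ?_
      rw [Lp.simpleFunc.coe_indicatorConst]
      filter_upwards [indicatorConstLp_coeFn (p := 2) (hs := hS) (hμs := hμS.ne) (c := c),
        ind_const_ae hS c] with x h2 h3
      rw [h2, h3]
    rw [h1]
    exact h0 S hS c
  · intro f g hf hg _ h1 h2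
    exact N.add_mem h1 h2
  · exact hN

theorem inner_ind_const {S S' : Set d.X} (hS : MeasurableSet S) (hS' : MeasurableSet S')
    {u v : ℋ} (h : ⟪u, v⟫_ℂ = 0) : ⟪H790.ind d.μ ℋ S (Lp.const 2 d.μ u),
      H790.ind d.μ ℋ S' (Lp.const 2 d.μ v)⟫_ℂ = 0 := by
  rw [L2.inner_def]
  have h1 : (fun x => ⟪(H790.ind d.μ ℋ S (Lp.const 2 d.μ u) : Lp ℋ 2 d.μ) x,
      (H790.ind d.μ ℋ S' (Lp.const 2 d.μ v) : Lp ℋ 2 d.μ) x⟫_ℂ) =ᵐ[d.μ] fun _ => (0 : ℂ) := by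
    filter_upwards [ind_const_ae hS u, ind_const_ae hS' v] with x a1 a2
    rw [a1, a2]
    by_cases hx : x ∈ S
    · by_cases hx' : x ∈ S'
      · rw [Set.indicator_of_mem hx, Set.indicator_of_mem hx', h]
      · rw [Set.indicator_of_notMem hx', inner_zero_right]
    · rw [Set.indicator_of_notMem hx, inner_zero_left]
  rw [integral_congr_ae h1, integral_zero]

/-- **Positions in the picture.** -/
theorem pos_ind (hRa : ∀ g, adjoint (R g) = R g⁻¹) (hf : Frq R e)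
    (hon : ∀ p i j, pr p ≠ 1 → ⟪R p (e i), e j⟫_ℂ = 0) {c : ℂ} (hc : c ≠ 0) :
    Pos (wI d R) (pI d pr) (OI d c e) where
  tot v hv := by
    have h1 := mem_allF (d := d) hf hc (LinearMap.ker (innerSL ℂ v : Lp ℋ 2 d.μ →ₗ[ℂ] ℂ))
      (isClosed_eq (innerSL ℂ v).continuous continuous_const) (fun p i => by
        change ⟪v, wI d R p (OI d c e i)⟫_ℂ = 0
        rw [← inner_conj_symm, hv, map_zero]) v
    exact inner_self_eq_zero.1 h1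
  hon p p' i i' hp := by
    rw [wI_OI, wI_OI]
    refine inner_ind_const p.1.2 p'.1.2 ?_
    rw [inner_smul_left, inner_smul_right,
      (pos_fib (pr := pr) hRa hf hon).hon p.2 p'.2 i i' hp, mul_zero, mul_zero]
  mul p p' := by
    refine ⟨(⟨p.1.1 ∩ p'.1.1, p.1.2.inter p'.1.2⟩, p.2 * p'.2), ?_, map_mul pr _ _⟩
    change H790.ind d.μ ℋ p.1.1 * (R p.2).compLpL 2 d.μ *
      (H790.ind d.μ ℋ p'.1.1 * (R p'.2).compLpL 2 d.μ) =
      H790.ind d.μ ℋ (p.1.1 ∩ p'.1.1) * (R (p.2 * p'.2)).compLpL 2 d.μ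
    have e1 : (R (p.2 * p'.2)).compLpL 2 d.μ = (R p.2).compLpL 2 d.μ * (R p'.2).compLpL 2 d.μ := by
      rw [map_mul]; exact comp_mul (R p.2) (R p'.2)
    rw [e1, ← ind_mul p.1.2 p'.1.2, mul_assoc, ← mul_assoc ((R p.2).compLpL 2 d.μ),
      ind_comp p'.1.2]
    simp only [mul_assoc]
  adj p := by
    refine ⟨(p.1, p.2⁻¹), ?_, map_inv pr _⟩
    change adjoint (H790.ind d.μ ℋ p.1.1 * (R p.2).compLpL 2 d.μ) =
      H790.ind d.μ ℋ p.1.1 * (R p.2⁻¹).compLpL 2 d.μ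
    have e1 : adjoint ((R p.2).compLpL 2 d.μ) = (R p.2⁻¹).compLpL 2 d.μ := by
      have := comp_adjoint (μ := d.μ) (R p.2)
      rwa [hRa] at this
    rw [← star_eq_adjoint, star_mul, star_eq_adjoint, star_eq_adjoint, e1, adjoint_ind p.1.2,
      ind_comp p.1.2]

theorem aa_of_wI {T : Lp ℋ 2 d.μ →L[ℂ] Lp ℋ 2 d.μ} (hT : ∀ p, T * wI d R p = wI d R p * T) :
    AA d (Set.range R) T := by
  rintro w (⟨S, hS, rfl⟩ | ⟨_, ⟨g, rfl⟩, rfl⟩)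
  · have h1 := hT (⟨S, hS⟩, 1)
    have e1 : wI d R (⟨S, hS⟩, 1) = H790.ind d.μ ℋ S := by
      change H790.ind d.μ ℋ S * (R 1).compLpL 2 d.μ = _
      rw [map_one]
      have : (1 : ℋ →L[ℂ] ℋ).compLpL 2 d.μ = 1 := comp_one
      rw [this, mul_one]
    rwa [e1] at h1
  · have h1 := hT (⟨univ, MeasurableSet.univ⟩, g)
    have e1 : wI d R (⟨univ, MeasurableSet.univ⟩, g) = (R g).compLpL 2 d.μ := by
      change H790.ind d.μ ℋ univ * (R g).compLpL 2 d.μ = _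
      rw [ind_univ, one_mul]
    rwa [e1] at h1

theorem wI_of_aa {T : Lp ℋ 2 d.μ →L[ℂ] Lp ℋ 2 d.μ} (hT : AA d (Set.range R) T)
    (p : {S : Set d.X // MeasurableSet S} × Δ) : T * wI d R p = wI d R p * T := by
  change T * (H790.ind d.μ ℋ p.1.1 * (R p.2).compLpL 2 d.μ) =
    H790.ind d.μ ℋ p.1.1 * (R p.2).compLpL 2 d.μ * T
  rw [← mul_assoc, hT.dcm _ p.1.2, mul_assoc, hT.coef ⟨p.2, rfl⟩, mul_assoc]

/-- **The trace property.** -/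
theorem sum_adj_ind [Countable Δ] (hRa : ∀ g, adjoint (R g) = R g⁻¹) (hf : Frq R e) (c : ℂ)
    {T : Lp ℋ 2 d.μ →L[ℂ] Lp ℋ 2 d.μ} (hT : AA d (Set.range R) T) :
    ∑ i, ‖adjoint T (OI d c e i)‖ ^ 2 = ∑ i, ‖T (OI d c e i)‖ ^ 2 := by
  have hadj : ∀ a ∈ Set.range R, adjoint a ∈ Set.range R := by
    rintro _ ⟨g, rfl⟩
    exact ⟨g⁻¹, (hRa g).symm⟩
  have hTa : AA d (Set.range R) (adjoint T) := AA.adj hadj hT
  -- reduction to `c = 1`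
  have hred : ∀ (S : Lp ℋ 2 d.μ →L[ℂ] Lp ℋ 2 d.μ), ∑ i, ‖S (OI d c e i)‖ ^ 2 =
      ‖c‖ ^ 2 * ∑ i, ‖S (Lp.const 2 d.μ (e i))‖ ^ 2 := by
    intro S
    rw [Finset.mul_sum]
    refine Finset.sum_congr rfl fun i _ => ?_
    have e1 : OI d c e i = c • (Lp.const 2 d.μ (e i) : Lp ℋ 2 d.μ) :=
      map_smul (Lp.constL 2 d.μ ℂ : ℋ →L[ℂ] Lp ℋ 2 d.μ) c (e i)
    rw [e1, map_smul, norm_smul, mul_pow]
  rw [hred, hred]
  congr 1
  have key : ∀ᵐ x ∂d.μ, ∑ i, ‖(adjoint T (Lp.const 2 d.μ (e i)) : Lp ℋ 2 d.μ) x‖ₑ ^ 2 =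
      ∑ i, ‖(T (Lp.const 2 d.μ (e i)) : Lp ℋ 2 d.μ) x‖ₑ ^ 2 := by
    have h1 : ∀ᵐ x ∂d.μ, ∀ q : (ι × ι) × Δ,
        ⟪(T (Lp.const 2 d.μ (e q.1.1)) : Lp ℋ 2 d.μ) x, R q.2 (e q.1.2)⟫_ℂ =
          ⟪R q.2⁻¹ (e q.1.1), (adjoint T (Lp.const 2 d.μ (e q.1.2)) : Lp ℋ 2 d.μ) x⟫_ℂ := by
      rw [ae_all_iff]
      rintro ⟨⟨j, i⟩, g⟩
      have h2 := hT.dcm.inner_const (R g (e i)) (e j)
      have h3 : adjoint T (Lp.const 2 d.μ (R g (e i))) =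
          (R g).compLpL 2 d.μ (adjoint T (Lp.const 2 d.μ (e i))) := by
        rw [← H221.Gr.comp_const (R g)]
        exact congrArg (fun S : Lp ℋ 2 d.μ →L[ℂ] Lp ℋ 2 d.μ => S (Lp.const 2 d.μ (e i)))
          (hTa.coef ⟨g, rfl⟩)
      rw [h3] at h2
      filter_upwards [h2, (R g).coeFn_compLpL (p := 2) (μ := d.μ)
        (adjoint T (Lp.const 2 d.μ (e i)))] with x a2 a3
      change ⟪(T (Lp.const 2 d.μ (e j)) : Lp ℋ 2 d.μ) x, R g (e i)⟫_ℂ =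
        ⟪R g⁻¹ (e j), (adjoint T (Lp.const 2 d.μ (e i)) : Lp ℋ 2 d.μ) x⟫_ℂ
      rw [a2, a3, inner_mv hRa g⁻¹, inv_inv]
    filter_upwards [h1] with x hx
    have s1 : ∀ j, ‖(T (Lp.const 2 d.μ (e j)) : Lp ℋ 2 d.μ) x‖ₑ ^ 2 =
        ∑ i, ∑' g, ‖⟪R g (e j), (adjoint T (Lp.const 2 d.μ (e i)) : Lp ℋ 2 d.μ) x⟫_ℂ‖ₑ ^ 2 := by
      intro j
      rw [← hf ((T (Lp.const 2 d.μ (e j)) : Lp ℋ 2 d.μ) x), ENNReal.tsum_prod', tsum_fintype]
      refine Finset.sum_congr rfl fun i _ => ?_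
      rw [← (Equiv.inv Δ).tsum_eq fun g => ‖⟪R g (e j),
        (adjoint T (Lp.const 2 d.μ (e i)) : Lp ℋ 2 d.μ) x⟫_ℂ‖ₑ ^ 2]
      refine tsum_congr fun g => ?_
      have h4 := hx ((j, i), g)
      congr 1
      refine H421.Hs.enn_congr ?_
      change ‖⟪R g (e i), (T (Lp.const 2 d.μ (e j)) : Lp ℋ 2 d.μ) x⟫_ℂ‖ =
        ‖⟪R g⁻¹ (e j), (adjoint T (Lp.const 2 d.μ (e i)) : Lp ℋ 2 d.μ) x⟫_ℂ‖
      rw [← h4, norm_inner_symm]
    have s2 : ∀ i, ‖(adjoint T (Lp.const 2 d.μ (e i)) : Lp ℋ 2 d.μ) x‖ₑ ^ 2 =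
        ∑ j, ∑' g, ‖⟪R g (e j), (adjoint T (Lp.const 2 d.μ (e i)) : Lp ℋ 2 d.μ) x⟫_ℂ‖ₑ ^ 2 := by
      intro i
      rw [← hf ((adjoint T (Lp.const 2 d.μ (e i)) : Lp ℋ 2 d.μ) x), ENNReal.tsum_prod',
        tsum_fintype]
    simp only [s1, s2]
    exact Finset.sum_comm
  have h5 : ∀ f : ι → Lp ℋ 2 d.μ, ENNReal.ofReal (∑ i, ‖f i‖ ^ 2) =
      ∫⁻ x, ∑ i, ‖f i x‖ₑ ^ 2 ∂d.μ := by
    intro f
    rw [ENNReal.ofReal_sum_of_nonneg fun i _ => sq_nonneg _,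
      lintegral_finsetSum' _ fun i _ => ((Lp.aestronglyMeasurable (f i)).enorm).pow_const 2]
    refine Finset.sum_congr rfl fun i _ => ?_
    rw [← enn_sq', enorm_sq_lint]
  have h6 := h5 fun i => adjoint T (Lp.const 2 d.μ (e i))
  have h7 := h5 fun i => T (Lp.const 2 d.μ (e i))
  rw [lintegral_congr_ae key, ← h7] at h6
  exact (ENNReal.ofReal_eq_ofReal_iff (Finset.sum_nonneg fun i _ => sq_nonneg _)
    (Finset.sum_nonneg fun i _ => sq_nonneg _)).1 h6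

/-- The unitary of the finite algebra with `u Ω = π(h) Ω`. -/
theorem exists_unF (hVR : ∀ v g, V v * R g = R g * V v) (h : D) :
    ∃ u : Lp ℋ 2 d.μ →L[ℂ] Lp ℋ 2 d.μ, AA d (Set.range R) u ∧ adjoint u * u = 1 ∧
      u * adjoint u = 1 ∧ ∀ v : ℋ, u (Lp.const 2 d.μ v) = pi d hV h (Lp.const 2 d.μ v) := by
  refine ⟨pi d hV h * kp d ℋ h⁻¹, ?_, ?_, ?_, ?_⟩
  · rintro w (⟨S, hS, rfl⟩ | ⟨a, ⟨g, rfl⟩, rfl⟩)
    · have e1 := kp_ind d h⁻¹ hS (K := ℋ)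
      have hS' : MeasurableSet (d.act h⁻¹⁻¹ ⁻¹' S) := (d.mp h⁻¹⁻¹).measurable hS
      have e2 := pi_ind d hV h hS'
      have e3 : d.act h⁻¹ ⁻¹' (d.act h⁻¹⁻¹ ⁻¹' S) = S := by
        ext x
        rw [Set.mem_preimage, Set.mem_preimage, inv_inv, act_inv]
      rw [e3] at e2
      rw [mul_assoc, e1, ← mul_assoc, e2, mul_assoc]
    · have e1 := kp_comp d h⁻¹ (R g)
      have e2 := pi_comp d hV h (A := R g) fun v => (hVR v g).symm
      rw [mul_assoc, e1, ← mul_assoc, e2, mul_assoc]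
  · rw [← star_eq_adjoint, star_mul, star_eq_adjoint, star_eq_adjoint, adjoint_kp, adjoint_pi,
      inv_inv]
    calc kp d ℋ h * pi d hV h⁻¹ * (pi d hV h * kp d ℋ h⁻¹)
        = kp d ℋ h * (pi d hV h⁻¹ * pi d hV h) * kp d ℋ h⁻¹ := by simp only [mul_assoc]
      _ = 1 := by rw [pi_inv_mul, mul_one, kp_mul_inv]
  · rw [← star_eq_adjoint, star_mul, star_eq_adjoint, star_eq_adjoint, adjoint_kp, adjoint_pi,
      inv_inv]
    calc pi d hV h * kp d ℋ h⁻¹ * (kp d ℋ h * pi d hV h⁻¹)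
        = pi d hV h * (kp d ℋ h⁻¹ * kp d ℋ h) * pi d hV h⁻¹ := by simp only [mul_assoc]
      _ = 1 := by rw [kp_inv_mul, mul_one, pi_mul_inv]
  · intro v
    rw [ContinuousLinearMap.mul_apply, H221.Gr.kp_const]

/-- **The source representation.** -/
theorem posG_ind [Countable Δ] (hRa : ∀ g, adjoint (R g) = R g⁻¹) (hf : Frq R e)
    (hon : ∀ p i j, pr p ≠ 1 → ⟪R p (e i), e j⟫_ℂ = 0) {c : ℂ} (hc : c ≠ 0)
    (hVR : ∀ v g, V v * R g = R g * V v) (h1 : ∑ i, ‖OI d c e i‖ ^ 2 = 1) :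
    PosG (pi d hV) (wI d R) (pI d pr) (OI d c e) :=
  { pos_ind hRa hf hon hc with
    padj := adjoint_pi d hV
    perm := fun h p => by
      refine ⟨(⟨d.act h⁻¹ ⁻¹' p.1.1, (d.mp h⁻¹).measurable p.1.2⟩, p.2), rfl, ?_⟩
      change pi d hV h * (H790.ind d.μ ℋ p.1.1 * (R p.2).compLpL 2 d.μ) =
        H790.ind d.μ ℋ (d.act h⁻¹ ⁻¹' p.1.1) * (R p.2).compLpL 2 d.μ * pi d hV h
      rw [← mul_assoc, pi_ind d hV h p.1.2, mul_assoc,
        pi_comp d hV h (A := R p.2) fun v => (hVR v p.2).symm, mul_assoc]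
    one := h1
    tr := fun x hx => sum_adj_ind hRa hf c (aa_of_wI hx)
    un := fun h => by
      obtain ⟨u, hu, h1, h2, h3⟩ := exists_unF (d := d) hV hVR h
      exact ⟨u, wI_of_aa hu, h1, h2, fun i => h3 _⟩ }

end ind

end Vale.Agent.P092.H421.GrT
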