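import Vale.Agent.P092.H421.GrT4
import Vale.Agent.P092.H725.SN.Abs

/-!
P092 (helper421), [D-T-SIZE]: the hypothesis `kap` of the growth lemma for a finite Parseval family,
and polynomial sizes of the vectors `π(a^N) Ω i`.
-/

set_option linter.all false

open scoped InnerProductSpace ENNReal
open Set Filter Topology MeasureTheory ContinuousLinearMap

namespace Vale.Agent.P092.H421.GrT

open Vale.Agent.P092.H790 Vale.Agent.P092.H160 Vale.Agent.P092.H34 Vale.Agent.P092.H34.Ind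
open Vale.Agent.P092.H221.Gr Vale.Agent.P092.H933 Vale.Agent.P092.H725
open Vale.Agent.P092.H421.Hs (Frq Pf trq enn_sq' inner_mv inv_ap norm_U cm_ap)
open Vale.Agent.P092.RC (Cm)

/-! ### The hypothesis `kap` -/

section kap

variable {D Λ Δ G : Type} [Group D] [Group Λ] [Countable Λ] [Group Δ] [Group G] (d : CData D Λ)
  {ℋ : Type} [NormedAddCommGroup ℋ] [InnerProductSpace ℂ ℋ] [CompleteSpace ℋ]
  {V : Λ →* (ℋ →L[ℂ] ℋ)} {R : Δ →* (ℋ →L[ℂ] ℋ)} (hV : ∀ v, adjoint (V v) = V v⁻¹)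
  {ι : Type} [Fintype ι] {e : ι → ℋ} {pr : Δ →* G}

theorem norm_OI (c : ℂ) (i : ι) : ‖OI d c e i‖ = ‖c • e i‖ := by
  have h1 := norm_ind_const (μ := d.μ) MeasurableSet.univ (c • e i)
  rw [ind_univ] at h1
  have h2 : ‖OI d c e i‖ ^ 2 = ‖c • e i‖ ^ 2 := by
    have h3 : d.μ.real univ = 1 := by simp
    rw [h3, mul_one] at h1
    exact h1
  exact (pow_left_inj₀ (norm_nonneg _) (norm_nonneg _) two_ne_zero).mp h2

theorem sum_indep (hRa : ∀ g, adjoint (R g) = R g⁻¹) (hf : Frq R e) {e' : ι → ℋ}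
    (hf' : Frq R e') {A : ℋ →L[ℂ] ℋ} (hA : ∀ g, A * R g = R g * A) :
    ∑ i, ‖A (e' i)‖ ^ 2 = ∑ i, ‖A (e i)‖ ^ 2 := by
  have h2 : ∀ f : ι → ℋ, trq f A = ENNReal.ofReal (∑ i, ‖A (f i)‖ ^ 2) := by
    intro f
    rw [trq, tsum_fintype, ENNReal.ofReal_sum_of_nonneg fun i _ => sq_nonneg _]
    exact Finset.sum_congr rfl fun i _ => enn_sq' _
  have h1 := H421.Hs.trq_indep hRa hf hf' hA
  rw [h2, h2] at h1
  exact (ENNReal.ofReal_eq_ofReal_iff (Finset.sum_nonneg fun i _ => sq_nonneg _)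
    (Finset.sum_nonneg fun i _ => sq_nonneg _)).1 h1

/-- **Kaplansky approximation in the picture.** -/
theorem kap_ind (hRa : ∀ g, adjoint (R g) = R g⁻¹) (hf : Frq R e)
    (hon : ∀ p i j, pr p ≠ 1 → ⟪R p (e i), e j⟫_ℂ = 0) {c : ℂ} (hc : c ≠ 0)
    (hVR : ∀ v g, V v * R g = R g * V v) (h1 : ∑ i, ‖OI d c e i‖ ^ 2 = 1) {B : ℕ → Set G}
    (hB : Flt B) (l : D) {ε : ℝ} (hε : 0 < ε) :
    ∃ J, ∃ Z : Lp ℋ 2 d.μ →L[ℂ] Lp ℋ 2 d.μ, AA d (Set.range R) Z ∧ ‖Z‖ ≤ 1 ∧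
      (∀ i, Z (pi d hV l (OI d c e i)) ∈ FP (wI d R) (pI d pr) (OI d c e) (B J)) ∧
      ∑ i, ‖(Z - 1) (OI d c e i)‖ ^ 2 ≤ ε ^ 2 := by
  classical
  simp only [norm_OI] at h1
  have hcn : 0 < ‖c‖ := norm_pos_iff.2 hc
  obtain ⟨F₀, hF₀⟩ := exists_vals d l (δ := ε ^ 2 / 2) (by positivity)
  have hVu : ∀ v, V v * adjoint (V v) = 1 := fun v => by
    rw [hV, ← map_mul, mul_inv_cancel, map_one]
  have hch : ∀ v, ∃ y ∈ sR hRa hf hon hB, ‖y‖ ≤ 1 ∧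
      ∑ i, ‖y (e i) - V v (e i)‖ ^ 2 ≤ (ε / (2 * ‖c‖)) ^ 2 := fun v =>
    kap_fib hRa hf hon hB (hVR v) (hVu v) (by positivity)
  choose y hyS hy1 hyε using hch
  choose hyR j hj using fun v => mem_sR.1 (hyS v)
  obtain ⟨J, hJ⟩ : ∃ J, ∀ v ∈ F₀, ∀ i, y v (e i) ∈ FP (fun p => R p) (fun p => pr p) e (B J) :=
    ⟨F₀.sup j, fun v hv i => FP_mono (hB.mono (Finset.le_sup hv)) (hj v i)⟩
  obtain ⟨z, hz⟩ : ∃ z : Λ → ℋ →L[ℂ] ℋ, z = fun v => if v ∈ F₀ then y v else 0 := ⟨_, rfl⟩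
  have hzin : ∀ v, v ∈ F₀ → z v = y v := fun v hv => by rw [hz]; exact if_pos hv
  have hzout : ∀ v, v ∉ F₀ → z v = 0 := fun v hv => by rw [hz]; exact if_neg hv
  have hz1 : ∀ v, ‖z v‖ ≤ 1 := by
    intro v
    by_cases hv : v ∈ F₀
    · rw [hzin v hv]; exact hy1 v
    · rw [hzout v hv, norm_zero]; exact zero_le_one
  have hzR : ∀ v g, z v * R g = R g * z v := by
    intro v g
    by_cases hv : v ∈ F₀
    · rw [hzin v hv]; exact hyR v g
    · rw [hzout v hv, zero_mul, mul_zero]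
  have hzJ : ∀ v i, z v (e i) ∈ FP (fun p => R p) (fun p => pr p) e (B J) := by
    intro v i
    by_cases hv : v ∈ F₀
    · rw [hzin v hv]; exact hJ v hv i
    · rw [hzout v hv]; exact Submodule.zero_mem _
  obtain ⟨A, hA⟩ : ∃ A : Lp ℋ 2 d.μ →L[ℂ] Lp ℋ 2 d.μ, A = Ri d z l := ⟨_, rfl⟩
  obtain ⟨Z, hZ⟩ : ∃ Z : Lp ℋ 2 d.μ →L[ℂ] Lp ℋ 2 d.μ, Z = A * pi d hV l⁻¹ := ⟨_, rfl⟩
  have hZf : Fld Z (fun x => z (d.c l (d.act l⁻¹ x)) * V (d.c l (d.act l⁻¹ x))⁻¹) := by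
    rw [hZ, hA]; exact fld_ri_pi d hV hz1 l
  refine ⟨J, Z, ?_, ?_, ?_, ?_⟩
  · rintro w (⟨S, hS, rfl⟩ | ⟨_, ⟨g, rfl⟩, rfl⟩)
    · exact hZf.ind hS
    · refine (hZf.mul (fld_comp (R g))).ext ((fld_comp (R g)).mul hZf)
        (Eventually.of_forall fun x => ?_)
      change z _ * V _ * R g = R g * (z _ * V _)
      rw [mul_assoc, hVR, ← mul_assoc, hzR, mul_assoc]
  · have h2 : ‖pi d hV l⁻¹‖ ≤ 1 := norm_ri_le d (R := fun v => V v) (norm_le_of_adj hV) l⁻¹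
    have h3 : ‖A‖ ≤ 1 := by rw [hA]; exact norm_ri_le d hz1 l
    rw [hZ]
    calc ‖A * pi d hV l⁻¹‖ ≤ ‖A‖ * ‖pi d hV l⁻¹‖ := norm_mul_le _ _
      _ ≤ 1 * 1 := mul_le_mul h3 h2 (norm_nonneg _) zero_le_one
      _ = 1 := one_mul 1
  · intro i p hp k
    have e1 : Z (pi d hV l (OI d c e i)) = A (OI d c e i) := by
      rw [hZ]
      change A (pi d hV l⁻¹ (pi d hV l (OI d c e i))) = _
      have : pi d hV l⁻¹ (pi d hV l (OI d c e i)) = OI d c e i :=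
        congrArg (fun S : Lp ℋ 2 d.μ →L[ℂ] Lp ℋ 2 d.μ => S (OI d c e i)) (pi_inv_mul d hV l)
      rw [this]
    rw [e1, wI_OI, L2.inner_def]
    have h2 : (fun x => ⟪(H790.ind d.μ ℋ p.1.1 (Lp.const 2 d.μ (c • R p.2 (e k))) : Lp ℋ 2 d.μ) x,
        (A (OI d c e i) : Lp ℋ 2 d.μ) x⟫_ℂ) =ᵐ[d.μ] fun _ => (0 : ℂ) := by
      have h3 : ⇑(A (OI d c e i)) =ᵐ[d.μ]
          fun x => z (d.c l (d.act l⁻¹ x)) ((OI d c e i : Lp ℋ 2 d.μ) (d.act l⁻¹ x)) := by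
        rw [hA]; exact ri_ae d hz1 l _
      filter_upwards [ind_const_ae p.1.2 (c • R p.2 (e k)), h3,
        ae_comp (d.mp l⁻¹) (Lp.coeFn_const (p := 2) (μ := d.μ) (c • e i))] with x a1 a2 a3
      have a3' : (OI d c e i : Lp ℋ 2 d.μ) (d.act l⁻¹ x) = c • e i := a3
      rw [a1, a2, a3']
      by_cases hx : x ∈ p.1.1
      · rw [Set.indicator_of_mem hx, map_smul, inner_smul_left, inner_smul_right,
          hzJ _ i p.2 hp k, mul_zero, mul_zero]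
      · rw [Set.indicator_of_notMem hx, inner_zero_left]
    rw [integral_congr_ae h2, integral_zero]
  · -- the estimate
    have hpt : ∀ v, ∑ i, ‖(z v * V v⁻¹) (c • e i) - c • e i‖ ^ 2 ≤
        if v ∈ F₀ then (ε / 2) ^ 2 else 1 := by
      intro v
      by_cases hv : v ∈ F₀
      · rw [if_pos hv, hzin v hv]
        have e1 : ∀ i, (y v * V v⁻¹) (c • e i) - c • e i = c • ((y v - V v) (V v⁻¹ (e i))) := by
          intro i
          have e2 : V v (V v⁻¹ (e i)) = e i := by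
            have := inv_ap (U := V) v⁻¹ (e i)
            rwa [inv_inv] at this
          rw [sub_apply, e2, smul_sub, map_smul]
          rfl
        simp only [e1, norm_smul, mul_pow]
        rw [← Finset.mul_sum]
        have hf' : Frq R fun i => V v⁻¹ (e i) :=
          AmpE.frq_unitary hf (hVu v⁻¹) (hVR v⁻¹)
        have e3 : ∀ g, (y v - V v) * R g = R g * (y v - V v) := fun g => by
          rw [sub_mul, mul_sub, hyR, hVR]
        rw [sum_indep hRa hf hf' e3]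
        calc ‖c‖ ^ 2 * ∑ i, ‖(y v - V v) (e i)‖ ^ 2 ≤ ‖c‖ ^ 2 * (ε / (2 * ‖c‖)) ^ 2 :=
              mul_le_mul_of_nonneg_left (hyε v) (sq_nonneg _)
          _ = (ε / 2) ^ 2 := by field_simp
      · rw [if_neg hv, hzout v hv, ← h1]
        refine Finset.sum_le_sum fun i _ => ?_
        rw [zero_mul, ContinuousLinearMap.zero_apply, zero_sub, norm_neg]
    have hZi : ∀ i, ∀ᵐ x ∂d.μ, ((Z - 1) (OI d c e i) : Lp ℋ 2 d.μ) x =
        (z (d.c l (d.act l⁻¹ x)) * V (d.c l (d.act l⁻¹ x))⁻¹) (c • e i) - c • e i := by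
      intro i
      filter_upwards [hZf (OI d c e i), Lp.coeFn_sub (Z (OI d c e i)) (OI d c e i),
        Lp.coeFn_const (p := 2) (μ := d.μ) (c • e i)] with x a1 a2 a3
      have a3' : (OI d c e i : Lp ℋ 2 d.μ) x = c • e i := a3
      change (Z (OI d c e i) - OI d c e i : Lp ℋ 2 d.μ) x = _
      rw [a2, Pi.sub_apply, a1, a3']
    have hae : ∀ᵐ x ∂d.μ, ∑ i, ‖((Z - 1) (OI d c e i) : Lp ℋ 2 d.μ) x‖ ^ 2 ≤ (ε / 2) ^ 2 +
        {x | d.c l (d.act l⁻¹ x) ∉ F₀}.indicator (fun _ => (1 : ℝ)) x := by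
      filter_upwards [eventually_all.2 hZi] with x hx
      have h4 := hpt (d.c l (d.act l⁻¹ x))
      simp only [hx]
      by_cases hv : d.c l (d.act l⁻¹ x) ∈ F₀
      · rw [if_pos hv] at h4
        rw [Set.indicator_of_notMem (by simpa using hv), add_zero]
        exact h4
      · rw [if_neg hv] at h4
        rw [Set.indicator_of_mem (by simpa using hv)]
        have h6 : (0 : ℝ) ≤ (ε / 2) ^ 2 := by positivity
        linarith
    have hkm : MeasurableSet {x | d.c l (d.act l⁻¹ x) ∉ F₀} := by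
      have e : {x | d.c l (d.act l⁻¹ x) ∉ F₀} = (⋃ v ∈ F₀, {x | d.c l (d.act l⁻¹ x) = v})ᶜ := by
        ext x
        simp
      rw [e]
      exact (Finset.measurableSet_biUnion _ fun v _ =>
        (d.mp l⁻¹).measurable (d.c_meas l v)).compl
    have hsq : ∀ ζ : Lp ℋ 2 d.μ, ‖ζ‖ ^ 2 = ∫ x, ‖ζ x‖ ^ 2 ∂d.μ := by
      intro ζ
      have h1 := H34.norm_ind_sq (μ := d.μ) MeasurableSet.univ ζ
      rw [ind_univ, Measure.restrict_univ] at h1
      exact h1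
    simp only [hsq]
    rw [← integral_finset_sum _ fun i _ => (Lp.memLp _).integrable_norm_pow two_ne_zero]
    have hint : Integrable (fun x => (ε / 2) ^ 2 +
        {x | d.c l (d.act l⁻¹ x) ∉ F₀}.indicator (fun _ => (1 : ℝ)) x) d.μ :=
      (integrable_const _).add ((integrable_const _).indicator hkm)
    calc ∫ x, ∑ i, ‖((Z - 1) (OI d c e i) : Lp ℋ 2 d.μ) x‖ ^ 2 ∂d.μ ≤ ∫ x, (ε / 2) ^ 2 +
          {x | d.c l (d.act l⁻¹ x) ∉ F₀}.indicator (fun _ => (1 : ℝ)) x ∂d.μ :=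
          integral_mono_ae (integrable_finset_sum _ fun i _ =>
            (Lp.memLp _).integrable_norm_pow two_ne_zero) hint hae
      _ = (ε / 2) ^ 2 + d.μ.real {x | d.c l (d.act l⁻¹ x) ∉ F₀} := by
          rw [integral_add (integrable_const _) ((integrable_const _).indicator hkm),
            integral_indicator hkm, setIntegral_const, integral_const]
          simp
      _ ≤ ε ^ 2 := by nlinarith

end kap

/-! ### Masks -/

section mask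

variable {P G H : Type} [Group G] [Group H] {K ι : Type} [NormedAddCommGroup K]
  [InnerProductSpace ℂ K] [CompleteSpace K] {w : P → (K →L[ℂ] K)} {pr : P → G} {Ω : ι → K}

/-- a mask kills the vectors without positions in `S` -/
theorem Pos.mask_zero (h : Pos w pr Ω) {m : Set G → (K →L[ℂ] K)}
    (madj : ∀ S, adjoint (m S) = m S) (msk₀ : ∀ S p i, pr p ∉ S → m S (w p (Ω i)) = 0)
    (msk₁ : ∀ S p i, pr p ∈ S → m S (w p (Ω i)) = w p (Ω i)) {S T : Set G}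
    (hST : ∀ x ∈ S, x ∉ T) {v : K} (hv : v ∈ FP w pr Ω T) : m S v = 0 := by
  refine h.tot _ fun p i => ?_
  rw [← adjoint_inner_left, madj]
  by_cases hp : pr p ∈ S
  · rw [msk₁ S p i hp]
    exact hv p (hST _ hp) i
  · rw [msk₀ S p i hp, inner_zero_left]

/-- **Polynomial sizes.** -/
theorem PosG.sz3 [Fintype ι] [TopologicalSpace H] [ContinuousInv H] {π : H →* (K →L[ℂ] K)}
    (D : PosG π w pr Ω) {B : ℕ → Set G} (hB : Flt B) (contP : ∀ ξ, Continuous fun g => π g ξ)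
    (erg : ∀ z ∈ MP D.toPos, (∀ g, z * π g = π g * z) → ∃ c : ℂ, z = c • (1 : K →L[ℂ] K))
    (kap : ∀ h : H, ∀ ε : ℝ, 0 < ε → ∃ J, ∃ Z ∈ MP D.toPos, ‖Z‖ ≤ 1 ∧
      (∀ i, Z (π h (Ω i)) ∈ FP w pr Ω (B J)) ∧ ∑ i, ‖(Z - 1) (Ω i)‖ ^ 2 ≤ ε ^ 2)
    {m : Set G → (K →L[ℂ] K)} (mle : ∀ S v, ‖m S v‖ ≤ ‖v‖)
    (madj : ∀ S, adjoint (m S) = m S) (msk₀ : ∀ S p i, pr p ∉ S → m S (w p (Ω i)) = 0)
    (msk₁ : ∀ S p i, pr p ∈ S → m S (w p (Ω i)) = w p (Ω i)) (p₁ : P) (hp₁ : w p₁ = 1)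
    {σ : G → ℝ} (hσ : ∀ J γ, γ ∈ B J → σ γ ≤ Real.exp J) {a : H} (ha : LeviGap a) (i : ι) :
    SN.SZ3 a π (Ω i) m σ := by
  intro g ε hε
  obtain ⟨C, hC⟩ := D.growth hB contP erg kap (ha.conj g).inv hε
  obtain ⟨C', hC'⟩ := hB.ex (pr p₁)
  refine ⟨max C C', fun N => ?_⟩
  have key : ∃ v ∈ FP w pr Ω (B (max C C' * (N + 1) ^ 3)),
      ‖π (g * a ^ N * g⁻¹)⁻¹ (Ω i) - v‖ ≤ ε := by
    have e : (g * a ^ N * g⁻¹)⁻¹ = ((g * a * g⁻¹)⁻¹) ^ N := by rw [inv_pow, conj_pow]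
    rcases Nat.eq_zero_or_pos N with h0 | h0
    · refine ⟨Ω i, FP_mono (hB.mono (show C' ≤ max C C' * (N + 1) ^ 3 from ?_)) ?_, ?_⟩
      · rw [h0]
        simp
      · intro p hp j
        have h1 := D.hon p p₁ j i fun h2 => hp (by rw [h2]; exact hC')
        rw [hp₁] at h1
        exact h1
      · rw [h0]
        simp [hε.le]
    · obtain ⟨v, hv, hv1⟩ := hC N h0 i
      refine ⟨v, FP_mono (hB.mono ?_) hv, ?_⟩
      · exact Nat.mul_le_mul (le_max_left _ _) (Nat.pow_le_pow_left (Nat.le_succ N) 3)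
      · rw [e]; exact hv1
  obtain ⟨v, hv, hv1⟩ := key
  obtain ⟨S, hS⟩ : ∃ S : Set G, S = {γ | Real.exp ((max C C' * (N + 1) ^ 3 : ℕ) : ℝ) < σ γ} :=
    ⟨_, rfl⟩
  have h0 : m S v = 0 := D.toPos.mask_zero madj msk₀ msk₁ (fun x hx hx' => by
    rw [hS] at hx
    exact absurd (hσ _ x hx') (not_le.2 hx)) hv
  rw [← hS]
  have h3 : m S (π (g * a ^ N * g⁻¹)⁻¹ (Ω i)) = m S (π (g * a ^ N * g⁻¹)⁻¹ (Ω i) - v) := by
    rw [map_sub, h0, sub_zero]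
  rw [h3]
  exact (mle _ _).trans hv1

end mask

end Vale.Agent.P092.H421.GrT
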