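import Vale.Agent.P092.H421.GrT5

/-!
P092 (helper421), [D-T-SIZE]: polynomial sizes for the picture of a triple `V, R₁, R₂` with a finite
Parseval family over `E ⧸ Γ`, any locally compact group `E`; consequences of the growth.
-/

set_option linter.all false

open scoped InnerProductSpace ENNReal
open Set Filter Topology MeasureTheory ContinuousLinearMap

namespace Vale.Agent.P092.H421.GrT

open Vale.Agent.P092.H790 Vale.Agent.P092.H160 Vale.Agent.P092.H34 Vale.Agent.P092.H34.Ind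
open Vale.Agent.P092.H933 Vale.Agent.P092.H725 Vale.Agent.P092.H85 Vale.Agent.P092.H103
open Vale.Agent.P092.H421.Hs (Frq)
open Vale.Agent.P092.RC (Cm)

/-! ### Masks of a family -/

section msk

variable {Γ K ι : Type} [Group Γ] [NormedAddCommGroup K] [InnerProductSpace ℂ K] [CompleteSpace K]
  {lam : Γ →* (K →L[ℂ] K)} {W : Set (K →L[ℂ] K)} {Ω : ι → K} {m : Set Γ → (K →L[ℂ] K)}

/-- masks of a family of vectors (the first fields of `SD.MsF`) -/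
structure MskL (lam : Γ →* (K →L[ℂ] K)) (W : Set (K →L[ℂ] K)) (Ω : ι → K)
    (m : Set Γ → (K →L[ℂ] K)) : Prop where
  adj : ∀ S, adjoint (m S) = m S
  inf : ∀ S T, m (S ∩ T) = m S * m T
  compl : ∀ S, m Sᶜ = 1 - m S
  cm : ∀ S, Cm W (m S)
  cov : ∀ γ S, lam γ * m S * lam γ⁻¹ = m ((fun x => γ * x) '' S)
  om : ∀ i, m {1} (Ω i) = Ω i

theorem MskL.idem (hM : MskL lam W Ω m) (S : Set Γ) : m S * m S = m S := by
  rw [← hM.inf, Set.inter_self]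

theorem MskL.le (hM : MskL lam W Ω m) (S : Set Γ) (ξ : K) : ‖m S ξ‖ ≤ ‖ξ‖ := by
  have h1 : ‖m S ξ‖ ^ 2 ≤ ‖m S ξ‖ * ‖ξ‖ := by
    have h2 : ⟪m S ξ, m S ξ⟫_ℂ = ⟪m S ξ, ξ⟫_ℂ := by
      rw [← adjoint_inner_left, hM.adj, ← ContinuousLinearMap.mul_apply, hM.idem]
    calc ‖m S ξ‖ ^ 2 = ‖⟪m S ξ, m S ξ⟫_ℂ‖ := by
          rw [inner_self_eq_norm_sq_to_K]; simp
      _ = ‖⟪m S ξ, ξ⟫_ℂ‖ := by rw [h2]
      _ ≤ _ := norm_inner_le_norm _ _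
  by_contra hc
  push Not at hc
  have h3 : 0 < ‖m S ξ‖ := lt_of_le_of_lt (norm_nonneg _) hc
  nlinarith [norm_nonneg ξ]

theorem MskL.mono (hM : MskL lam W Ω m) {S T : Set Γ} (hST : S ⊆ T) (ξ : K) :
    ‖m S ξ‖ ≤ ‖m T ξ‖ := by
  have h1 : m S = m S * m T := by rw [← hM.inf, Set.inter_eq_left.mpr hST]
  rw [h1, ContinuousLinearMap.mul_apply]
  exact hM.le _ _

theorem MskL.empty (hM : MskL lam W Ω m) : m ∅ = 0 := by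
  have h1 := hM.inf univ univᶜ
  rw [Set.compl_univ, Set.inter_empty] at h1
  have h2 := hM.compl univ
  rw [Set.compl_univ] at h2
  have h3 : m univ * m ∅ = 0 := by
    rw [h2, mul_sub, mul_one, hM.idem, sub_self]
  rw [h1, h3]

theorem MskL.mem (hM : MskL lam W Ω m) {S : Set Γ} (h : (1 : Γ) ∈ S) (i : ι) :
    m S (Ω i) = Ω i := by
  have h1 : m S (m {1} (Ω i)) = m {1} (Ω i) := by
    rw [← ContinuousLinearMap.mul_apply, ← hM.inf,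
      Set.inter_eq_right.2 (Set.singleton_subset_iff.2 h)]
  rwa [hM.om] at h1

theorem MskL.notMem (hM : MskL lam W Ω m) {S : Set Γ} (h : (1 : Γ) ∉ S) (i : ι) :
    m S (Ω i) = 0 := by
  have h1 : m S (m {1} (Ω i)) = 0 := by
    have h2 : S ∩ {1} = ∅ := by
      ext x
      simp only [Set.mem_inter_iff, Set.mem_singleton_iff, Set.mem_empty_iff_false, iff_false,
        not_and]
      rintro hx rfl
      exact h hx
    rw [← ContinuousLinearMap.mul_apply, ← hM.inf, h2, hM.empty]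
    rfl
  rwa [hM.om] at h1

theorem MskL.lam_ap (hM : MskL lam W Ω m) (γ : Γ) (S : Set Γ) (v : K) :
    m S (lam γ v) = lam γ (m ((fun x => γ⁻¹ * x) '' S) v) := by
  have h1 := hM.cov γ⁻¹ S
  rw [inv_inv] at h1
  rw [← h1]
  change _ = (lam γ * (lam γ⁻¹ * m S * lam γ)) v
  have h2 : lam γ * (lam γ⁻¹ * m S * lam γ) = m S * lam γ := by
    calc lam γ * (lam γ⁻¹ * m S * lam γ) = (lam γ * lam γ⁻¹) * m S * lam γ := by
          simp only [mul_assoc]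
      _ = m S * lam γ := by rw [← map_mul, mul_inv_cancel, map_one, one_mul]
  rw [h2]
  rfl

theorem mem_img {γ : Γ} {S : Set Γ} : (1 : Γ) ∈ (fun x => γ⁻¹ * x) '' S ↔ γ ∈ S := by
  constructor
  · rintro ⟨x, hx, h⟩
    have h' : γ⁻¹ * x = 1 := h
    have : x = γ := by
      rw [inv_mul_eq_one] at h'
      exact h'.symm
    rwa [← this]
  · intro h
    exact ⟨γ, h, inv_mul_cancel γ⟩

/-! ### Consequences of polynomial sizes -/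

variable {E : Type} [Group E] {π : E →* (K →L[ℂ] K)} {a : E} {σ σ' : Γ → ℝ} {i : ι}

theorem sz3_mono (hM : MskL lam W Ω m) (h : SN.SZ3 a π (Ω i) m σ) (hσ : ∀ γ, σ' γ ≤ σ γ) :
    SN.SZ3 a π (Ω i) m σ' := by
  intro g ε hε
  obtain ⟨c, hc⟩ := h g ε hε
  refine ⟨c, fun N => le_trans (hM.mono (fun γ hγ => ?_) _) (hc N)⟩
  exact lt_of_lt_of_le hγ (hσ γ)

/-- sizes in the form `exp (exp (η N))` -/
theorem sz3_exp_exp (hM : MskL lam W Ω m) (h : SN.SZ3 a π (Ω i) m σ) :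
    ∀ g : E, ∀ η > 0, ∀ ε > 0, ∀ᶠ N : ℕ in atTop,
      ‖m {γ | Real.exp (Real.exp (η * N)) < σ γ} (π (g * a ^ N * g⁻¹)⁻¹ (Ω i))‖ ≤ ε := by
  intro g η hη ε hε
  obtain ⟨C, hC⟩ := h g ε hε
  have hlim : ∀ᶠ N : ℕ in atTop, ((C * (N + 1) ^ 3 : ℕ) : ℝ) ≤ Real.exp (η * N) := by
    have h1 : (fun x : ℝ => x ^ 3) =o[atTop] fun x : ℝ => Real.exp (η * x) :=
      isLittleO_pow_exp_pos_mul_atTop 3 hη
    have h2 : (fun N : ℕ => (N : ℝ) ^ 3) =o[atTop] fun N : ℕ => Real.exp (η * (N : ℝ)) :=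
      h1.comp_tendsto tendsto_natCast_atTop_atTop
    have hc : (0 : ℝ) < 1 / (8 * C + 1) := by positivity
    filter_upwards [h2.def hc, eventually_ge_atTop 1] with N hN h1N
    have h3 : ((N : ℝ) + 1) ^ 3 ≤ 8 * (N : ℝ) ^ 3 := by
      have : (1 : ℝ) ≤ N := by exact_mod_cast h1N
      calc ((N : ℝ) + 1) ^ 3 ≤ (2 * N) ^ 3 := by gcongr; linarith
        _ = 8 * (N : ℝ) ^ 3 := by ring
    rw [Real.norm_of_nonneg (by positivity), Real.norm_of_nonneg (by positivity)] at hN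
    push_cast
    have h4 : (8 * C + 1) * (N : ℝ) ^ 3 ≤ Real.exp (η * N) := by
      have h5 : (0 : ℝ) < 8 * C + 1 := by positivity
      have := mul_le_mul_of_nonneg_left hN h5.le
      rwa [← mul_assoc, mul_one_div_cancel h5.ne', one_mul] at this
    calc (C : ℝ) * ((N : ℝ) + 1) ^ 3 ≤ C * (8 * (N : ℝ) ^ 3) := by gcongr
      _ ≤ (8 * C + 1) * (N : ℝ) ^ 3 := by nlinarith [pow_nonneg (Nat.cast_nonneg (α := ℝ) N) 3]
      _ ≤ _ := h4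
  filter_upwards [hlim] with N hN
  exact le_trans (hM.mono (fun γ hγ => lt_of_le_of_lt (Real.exp_le_exp.2 hN) hγ) _) (hC N)

/-- sizes at all times, in terms of `log σ` -/
theorem sz3_log (hM : MskL lam W Ω m) (hσ : ∀ γ, 0 ≤ σ γ) (h : SN.SZ3 a π (Ω i) m σ) :
    ∀ g : E, ∀ ε > 0, ∃ c : ℝ, 0 ≤ c ∧ ∀ N : ℕ,
      ‖m {γ | c * (N + 1) ^ 3 < Real.log (σ γ)} (π (g * a ^ N * g⁻¹)⁻¹ (Ω i))‖ ≤ ε := by
  intro g ε hε
  obtain ⟨C, hC⟩ := h g ε hε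
  refine ⟨C, by positivity, fun N => ?_⟩
  refine le_trans (hM.mono (fun γ hγ => ?_) _) (hC N)
  have hγ' : (C : ℝ) * (N + 1) ^ 3 < Real.log (σ γ) := hγ
  have h0 : (0 : ℝ) ≤ (C : ℝ) * (N + 1) ^ 3 := by positivity
  have hpos : 0 < σ γ := by
    rcases (hσ γ).eq_or_lt with h | h
    · rw [← h, Real.log_zero] at hγ'
      linarith
    · exact h
  change Real.exp ((C * (N + 1) ^ 3 : ℕ) : ℝ) < σ γ
  push_cast
  exact (Real.lt_log_iff_exp_lt hpos).1 hγ'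

/-- sizes at the times `2 ^ j` -/
theorem sz3_log8 (hM : MskL lam W Ω m) (hσ : ∀ γ, 0 ≤ σ γ) (h : SN.SZ3 a π (Ω i) m σ) :
    ∀ g : E, ∀ ε > 0, ∃ c : ℝ, ∀ j : ℕ,
      ‖m {γ | c * 8 ^ j < Real.log (σ γ)} (π (g * a ^ (2 ^ j) * g⁻¹)⁻¹ (Ω i))‖ ≤ ε := by
  intro g ε hε
  obtain ⟨C, hC0, hC⟩ := sz3_log hM hσ h g ε hε
  refine ⟨8 * C, fun j => ?_⟩
  refine le_trans (hM.mono (fun γ hγ => ?_) _) (hC (2 ^ j))
  refine lt_of_le_of_lt ?_ (show 8 * C * 8 ^ j < Real.log (σ γ) from hγ)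
  have h1 : (1 : ℝ) ≤ 2 ^ j := one_le_pow₀ (by norm_num)
  have h2 : ((2 : ℝ) ^ j + 1) ^ 3 ≤ 8 * 8 ^ j := by
    calc ((2 : ℝ) ^ j + 1) ^ 3 ≤ (2 * 2 ^ j) ^ 3 := by gcongr; linarith
      _ = 8 * (2 ^ 3) ^ j := by rw [mul_pow, ← pow_mul, ← pow_mul, mul_comm j 3]; norm_num
      _ = 8 * 8 ^ j := by norm_num
  push_cast
  calc (C : ℝ) * (2 ^ j + 1) ^ 3 ≤ C * (8 * 8 ^ j) := by gcongr
    _ = _ := by ring

end msk

/-! ### The picture over `E ⧸ Γ` -/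

section group

variable {E : Type} [Group E] [TopologicalSpace E] [IsTopologicalGroup E] [LocallyCompactSpace E]
  [SecondCountableTopology E] [T2Space E] [MeasurableSpace E] [BorelSpace E]
  {Γ : Subgroup E} [DiscreteTopology Γ] [Countable Γ] [MeasurableSpace (E ⧸ Γ)]
  [BorelSpace (E ⧸ Γ)] {ν : Measure (E ⧸ Γ)} [IsProbabilityMeasure ν]
  (hν : ∀ g : E, ν.map (fun x => g • x) = ν)
  {ℋ : Type} [NormedAddCommGroup ℋ] [InnerProductSpace ℂ ℋ] [CompleteSpace ℋ]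
  {V R₁ R₂ : Γ →* (ℋ →L[ℂ] ℋ)} (hV : ∀ v, adjoint (V v) = V v⁻¹)
  {I : Type} [Countable I] (b : HilbertBasis I ℂ ℋ) {ι : Type} [Fintype ι] {ξ : ι → ℋ}

theorem inner_const {X : Type} [MeasurableSpace X] {μ : Measure X} [IsProbabilityMeasure μ]
    (u v : ℋ) : ⟪(Lp.const 2 μ u : Lp ℋ 2 μ), (Lp.const 2 μ v : Lp ℋ 2 μ)⟫_ℂ = ⟪u, v⟫_ℂ := by
  rw [L2.inner_def]
  have h1 : (fun x => ⟪(Lp.const 2 μ u : Lp ℋ 2 μ) x, (Lp.const 2 μ v : Lp ℋ 2 μ) x⟫_ℂ) =ᵐ[μ]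
      fun _ => ⟪u, v⟫_ℂ := by
    filter_upwards [Lp.coeFn_const (p := 2) (μ := μ) u,
      Lp.coeFn_const (p := 2) (μ := μ) v] with x a1 a2
    rw [a2, a1]
    rfl
  rw [integral_congr_ae h1, integral_const]
  simp

/-- the generators in terms of the two legs -/
theorem wI_two (h₁₂ : ∀ a b, R₁ a * R₂ b = R₂ b * R₁ a)
    (p : {S : Set (cdat ν hν).X // MeasurableSet S} × (Γ × Γ)) :
    wI (cdat ν hν) (AmpE.two R₁ R₂ h₁₂) p = H790.ind (cdat ν hν).μ ℋ p.1.1 *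
      (Ind.lam (cdat ν hν) R₁ p.2.1 * Ind.lam (cdat ν hν) R₂ p.2.2) := by
  change _ * (AmpE.two R₁ R₂ h₁₂ p.2).compLpL 2 (cdat ν hν).μ = _
  congr 1
  exact comp_mul (R₁ p.2.1) (R₂ p.2.2)

/-- masks on the generators -/
theorem msk_wI (h₁₂ : ∀ a b, R₁ a * R₂ b = R₂ b * R₁ a) {Ω : ι → Lp ℋ 2 (cdat ν hν).μ}
    {m : Set Γ → (Lp ℋ 2 (cdat ν hν).μ →L[ℂ] Lp ℋ 2 (cdat ν hν).μ)}
    (hM : MskL (Ind.lam (cdat ν hν) R₁)
      (Xset (cdat ν hν) ℋ ∪ Set.range (Ind.lam (cdat ν hν) R₂)) Ω m) (S : Set Γ)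
    (p : {S : Set (cdat ν hν).X // MeasurableSet S} × (Γ × Γ)) (i : ι) :
    m S (wI (cdat ν hν) (AmpE.two R₁ R₂ h₁₂) p (Ω i)) =
      wI (cdat ν hν) (AmpE.two R₁ R₂ h₁₂) p (m ((fun x => p.2.1⁻¹ * x) '' S) (Ω i)) := by
  rw [wI_two]
  change m S (H790.ind (cdat ν hν).μ ℋ p.1.1 (Ind.lam (cdat ν hν) R₁ p.2.1
    (Ind.lam (cdat ν hν) R₂ p.2.2 (Ω i)))) = H790.ind (cdat ν hν).μ ℋ p.1.1
      (Ind.lam (cdat ν hν) R₁ p.2.1 (Ind.lam (cdat ν hν) R₂ p.2.2 (m _ (Ω i))))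
  have e1 : ∀ T v, m T (H790.ind (cdat ν hν).μ ℋ p.1.1 v) =
      H790.ind (cdat ν hν).μ ℋ p.1.1 (m T v) := fun T v =>
    congrArg (fun A : Lp ℋ 2 (cdat ν hν).μ →L[ℂ] Lp ℋ 2 (cdat ν hν).μ => A v)
      (hM.cm T _ (Or.inl ⟨p.1.1, p.1.2, rfl⟩))
  have e2 : ∀ T v, m T (Ind.lam (cdat ν hν) R₂ p.2.2 v) =
      Ind.lam (cdat ν hν) R₂ p.2.2 (m T v) := fun T v =>
    congrArg (fun A : Lp ℋ 2 (cdat ν hν).μ →L[ℂ] Lp ℋ 2 (cdat ν hν).μ => A v)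
      (hM.cm T _ (Or.inr ⟨p.2.2, rfl⟩))
  rw [e1, hM.lam_ap, e2]

/-- **Honest families from masks.** -/
theorem hon_of_msk (h₁₂ : ∀ a b, R₁ a * R₂ b = R₂ b * R₁ a) {c : ℂ} (hc : c ≠ 0)
    {m : Set Γ → (Lp ℋ 2 (cdat ν hν).μ →L[ℂ] Lp ℋ 2 (cdat ν hν).μ)}
    (hM : MskL (Ind.lam (cdat ν hν) R₁)
      (Xset (cdat ν hν) ℋ ∪ Set.range (Ind.lam (cdat ν hν) R₂)) (OI (cdat ν hν) c ξ) m)
    (p : Γ × Γ) (i j : ι) (hp : MonoidHom.fst Γ Γ p ≠ 1) :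
    ⟪AmpE.two R₁ R₂ h₁₂ p (ξ i), ξ j⟫_ℂ = 0 := by
  have h1 := msk_wI hν h₁₂ hM {1} (⟨univ, MeasurableSet.univ⟩, p) i
  have h5 : (1 : Γ) ∉ (fun x => p.1⁻¹ * x) '' ({1} : Set Γ) := fun h3 =>
    hp (Set.mem_singleton_iff.1 (mem_img.1 h3))
  have h2 : m ((fun x => p.1⁻¹ * x) '' {1}) (OI (cdat ν hν) c ξ i) = 0 := hM.notMem h5 i
  have h3 : ⟪wI (cdat ν hν) (AmpE.two R₁ R₂ h₁₂) (⟨univ, MeasurableSet.univ⟩, p)
      (OI (cdat ν hν) c ξ i), OI (cdat ν hν) c ξ j⟫_ℂ = 0 := by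
    rw [← hM.om j, ← adjoint_inner_left, hM.adj, h1]
    change ⟪wI (cdat ν hν) (AmpE.two R₁ R₂ h₁₂) (⟨univ, MeasurableSet.univ⟩, p)
      (m ((fun x => p.1⁻¹ * x) '' {1}) (OI (cdat ν hν) c ξ i)), _⟫_ℂ = 0
    rw [h2, map_zero, inner_zero_left]
  rw [wI_OI, ind_univ] at h3
  have h4 : ⟪(Lp.const 2 (cdat ν hν).μ (c • AmpE.two R₁ R₂ h₁₂ p (ξ i)) :
      Lp ℋ 2 (cdat ν hν).μ), (Lp.const 2 (cdat ν hν).μ (c • ξ j) : Lp ℋ 2 (cdat ν hν).μ)⟫_ℂ = 0 :=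
    h3
  rw [inner_const, inner_smul_left, inner_smul_right] at h4
  have hc' : (starRingEnd ℂ) c ≠ 0 := by simpa using hc
  exact (mul_eq_zero.1 ((mul_eq_zero.1 h4).resolve_left hc')).resolve_left hc

include b in
/-- **Polynomial sizes for a triple with a finite Parseval family.** -/
theorem sz3_tri' (h : SR.Tri V R₁ R₂ ξ)
    (hirr : ∀ A : ℋ →L[ℂ] ℋ, (∀ v, A * V v = V v * A) → (∀ g, A * R₁ g = R₁ g * A) →
      (∀ g, A * R₂ g = R₂ g * A) → ∃ z : ℂ, A = z • (1 : ℋ →L[ℂ] ℋ)) {c : ℂ} (hc : c ≠ 0)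
    (h1 : ∑ i, ‖OI (cdat ν hν) c ξ i‖ ^ 2 = 1)
    {m : Set Γ → (Lp ℋ 2 (cdat ν hν).μ →L[ℂ] Lp ℋ 2 (cdat ν hν).μ)}
    (hM : MskL (Ind.lam (cdat ν hν) R₁)
      (Xset (cdat ν hν) ℋ ∪ Set.range (Ind.lam (cdat ν hν) R₂)) (OI (cdat ν hν) c ξ) m)
    {B : ℕ → Set Γ} (hB : Flt B) {σ : Γ → ℝ} (hσ : ∀ J γ, γ ∈ B J → σ γ ≤ Real.exp J)
    {a : E} (ha : LeviGap a) (i : ι) :
    SN.SZ3 a (Ind.pi (cdat ν hν) hV) (OI (cdat ν hν) c ξ i) m σ := by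
  have hRa := AmpE.two_adj h.comm₁₂ h.adj₁ h.adj₂
  have hf := AmpE.frq_two h
  have hon := fun p i j hp => hon_of_msk hν h.comm₁₂ hc hM p i j hp
  have hVR : ∀ v p, V v * AmpE.two R₁ R₂ h.comm₁₂ p = AmpE.two R₁ R₂ h.comm₁₂ p * V v :=
    fun v p => AmpE.two_comm h.comm₁₂ (h.comm₁ v) (h.comm₂ v) p
  have D := posG_ind (d := cdat ν hν) (pr := MonoidHom.fst Γ Γ) hV hRa hf hon hc hVR h1
  refine D.sz3 hB (AmpE.cont_pi hν hV) ?_ ?_ (m := m) hM.le hM.adj ?_ ?_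
    (⟨univ, MeasurableSet.univ⟩, 1) ?_ hσ ha i
  · intro z hz hzc
    obtain ⟨A, a1, a2, a3⟩ := AmpE.const_all hν hV b (aa_of_wI hz) hzc
    obtain ⟨t, ht⟩ := hirr A a1 (AmpE.two_left h.comm₁₂ a2) (AmpE.two_right h.comm₁₂ a2)
    refine ⟨t, ?_⟩
    rw [a3, ht, H790.comp_smul, comp_one]
  · intro g ε hε
    obtain ⟨J, Z, z1, z2, z3, z4⟩ := kap_ind (cdat ν hν) hV hRa hf hon hc hVR h1 hB g hε
    exact ⟨J, Z, wI_of_aa z1, z2, z3, z4⟩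
  · intro S p i hp
    have h5 : (1 : Γ) ∉ (fun x => p.2.1⁻¹ * x) '' S := fun h3 => hp (mem_img.1 h3)
    rw [msk_wI hν h.comm₁₂ hM, hM.notMem h5, map_zero]
  · intro S p i hp
    have h5 : (1 : Γ) ∈ (fun x => p.2.1⁻¹ * x) '' S := mem_img.2 hp
    rw [msk_wI hν h.comm₁₂ hM, hM.mem h5]
  · rw [wI_two, ind_univ]
    change 1 * (Ind.lam (cdat ν hν) R₁ 1 * Ind.lam (cdat ν hν) R₂ 1) = 1
    rw [map_one, map_one, one_mul, one_mul]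

include b in
/-- The same for the normalised family. -/
theorem sz3_tri (h : SR.Tri V R₁ R₂ ξ)
    (hirr : ∀ A : ℋ →L[ℂ] ℋ, (∀ v, A * V v = V v * A) → (∀ g, A * R₁ g = R₁ g * A) →
      (∀ g, A * R₂ g = R₂ g * A) → ∃ z : ℂ, A = z • (1 : ℋ →L[ℂ] ℋ))
    {m : Set Γ → (Lp ℋ 2 (cdat ν hν).μ →L[ℂ] Lp ℋ 2 (cdat ν hν).μ)}
    (hM : MskL (Ind.lam (cdat ν hν) R₁)
      (Xset (cdat ν hν) ℋ ∪ Set.range (Ind.lam (cdat ν hν) R₂)) (AmpE.nrm hν ξ) m)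
    {B : ℕ → Set Γ} (hB : Flt B) {σ : Γ → ℝ} (hσ : ∀ J γ, γ ∈ B J → σ γ ≤ Real.exp J)
    {a : E} (ha : LeviGap a) (i : ι) :
    SN.SZ3 a (Ind.pi (cdat ν hν) hV) (AmpE.nrm hν ξ i) m σ := by
  have h3 : 0 < ∑ j, ‖ξ j‖ ^ 2 := by
    obtain ⟨i, hi⟩ := h.ne
    exact Finset.sum_pos' (fun _ _ => sq_nonneg _)
      ⟨i, Finset.mem_univ _, by have := norm_pos_iff.2 hi; positivity⟩
  have h4 : 0 < (Real.sqrt (∑ j, ‖ξ j‖ ^ 2))⁻¹ := by positivity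
  have hc : ((((Real.sqrt (∑ j, ‖ξ j‖ ^ 2))⁻¹ : ℝ) : ℂ)) ≠ 0 := by exact_mod_cast h4.ne'
  exact sz3_tri' hν hV b h hirr hc (AmpE.sum_nrm hν h.ne) hM hB hσ ha i

end group

end Vale.Agent.P092.H421.GrT
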